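import Crest.Agent.R079.EW5_702

/-! R079, Step II (helper702): GENERAL EDGE `e` version of `EW5_702`: the ERROR WORDS `E` and `X` of the
edge `e` of the frozen slot `j` (static slot `j.succAbove (e + 2)`), next to two ARBITRARY line letters in
the slots `j.succAbove e`, `j.succAbove (e + 1)` which are only locally `L²`. -/

set_option autoImplicit false
set_option linter.unusedVariables false

namespace Crest.Agent.R079.EWe702

open Finset Crest.Agent.R079.Grid Crest.Agent.R079.Pot Crest.Agent.R079.Glue Crest.Agent.R079.R244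
  Crest.Agent.R079.F24 Crest.Agent.R079.EW990 Crest.Agent.R079.EWG990 Crest.Agent.R079.LK990
  Crest.Agent.R079.EW4702 Crest.Agent.R079.Growth
open Crest.Agent.R079.Cg408 (LboxG Lbox_LboxG LboxG_add)
open Crest.Agent.R079.EW5702 (sub_sl_ne upF_ne tl lw lw_add_tl norm_lw_le norm_lw_le' LboxG_smul)

lemma e12 (e : Fin 3) : (e + 1) + 2 = e := by revert e; decide
lemma e11 (e : Fin 3) : (e + 1) + 1 = e + 2 := by revert e; decide
lemma e22 (e : Fin 3) : (e + 2) + 2 = e + 1 := by revert e; decide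
lemma e21 (e : Fin 3) : (e + 2) + 1 = e := by revert e; decide
lemma ne1 (e : Fin 3) : e + 1 ≠ e := by revert e; decide
lemma ne2 (e : Fin 3) : e + 2 ≠ e := by revert e; decide
lemma ne12 (e : Fin 3) : e + 1 ≠ e + 2 := by revert e; decide

/-- the product of the three edges as a product over `Fin 3` -/
lemma PhiW_prod (k : Fin 3 → ℤ → ℤ → ℤ → ℂ) (w : ℤ) (z : Fin 3 → ℤ) :
    PhiW k w (z 0) (z 1) (z 2) = ∏ i, k i w (z i) (z (i + 1)) := by
  rw [Fin.prod_univ_three]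
  rfl

lemma sum_rot (e : Fin 3) (f : Fin 3 → ℤ) : f 0 + f 1 + f 2 = f e + f (e + 1) + f (e + 2) := by
  obtain rfl | rfl | rfl : e = 0 ∨ e = 1 ∨ e = 2 := by fin_cases e <;> simp
  · rfl
  · show f 0 + f 1 + f 2 = f 1 + f 2 + f 0
    ring
  · show f 0 + f 1 + f 2 = f 2 + f 0 + f 1
    ring

/-! ### the mask of the top interval -/

/-- masked kernel -/
noncomputable def mE (j : Fin 4) (e : Fin 3) (D : Finset ℤ) (E : ℤ → ℤ → ℤ → ℂ) (w z z' : ℤ) : ℂ :=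
  if (sl j - sl (j.succAbove (e + 2))) * w + (sl (j.succAbove e) - sl (j.succAbove (e + 2))) * z +
    (sl (j.succAbove (e + 1)) - sl (j.succAbove (e + 2))) * z' ∈ D then E w z z' else 0

/-- the kernel of the edge `e` matters only at the points with shadow in `D` -/
theorem KP_mask (j : Fin 4) (e : Fin 3) (T : Fin 3 → Finset ℤ) (g : Fin 3 → ℤ → ℤ → ℂ)
    (F : Fin 4 → ℤ → ℂ) (E : ℤ → ℤ → ℤ → ℂ) (D : Finset ℤ) (s A : ℤ)
    (hy : A - sl (j.succAbove (e + 2)) * s ∈ D) :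
    KP j T (upk g e E) F s A = KP j T (upk g e (mE j e D E)) F s A := by
  unfold KP
  refine Per_mul_congr j T _ _ _ s _ _ ?_
  intro z0 h0 z1 h1 z2 h2 hc
  congr 1
  set z : Fin 3 → ℤ := ![z0, z1, z2] with hz
  have h3 : z 0 = z0 := rfl
  have h4 : z 1 = z1 := rfl
  have h5 : z 2 = z2 := rfl
  rw [← h3, ← h4, ← h5] at hc ⊢
  rw [PhiW_prod, PhiW_prod]
  refine Finset.prod_congr rfl fun i _ => ?_
  by_cases hi : i = e
  · subst hi
    unfold upk
    rw [if_pos rfl, if_pos rfl]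
    unfold mE
    rw [if_pos]
    have hr := sum_rot i (fun a => cf j a * z a)
    have hr2 := sum_rot i z
    rw [hc] at hr
    unfold cf at hr
    have ey : (sl j - sl (j.succAbove (i + 2))) * (s - z 0 - z 1 - z 2) +
        (sl (j.succAbove i) - sl (j.succAbove (i + 2))) * z i +
        (sl (j.succAbove (i + 1)) - sl (j.succAbove (i + 2))) * z (i + 1) =
        A - sl (j.succAbove (i + 2)) * s := by
      have e3 : s - z 0 - z 1 - z 2 = s - (z i + z (i + 1) + z (i + 2)) := by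
        rw [← hr2]; ring
      rw [e3]
      linear_combination -hr
    rw [ey]; exact hy
  · unfold upk
    rw [if_neg hi, if_neg hi]


/-- masked box sums -/
theorem box_mask (j : Fin 4) (e : Fin 3) (T : Fin 3 → Finset ℤ) (g : Fin 3 → ℤ → ℤ → ℂ) (F : Fin 4 → ℤ → ℂ)
    (E : ℤ → ℤ → ℤ → ℂ) {R : Finset (ℕ × ℤ)} {J : ℕ × ℤ} (hR : IsRegion R J) (bb : ℤ)
    (hbb : bb = -1 ∨ bb = -7) :
    ∑ p ∈ R, ∑ x ∈ adm p.1 p.2, ‖LboxG (2 ^ p.1) bb (KP j T (upk g e E) F) x‖ =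
      ∑ p ∈ R, ∑ x ∈ adm p.1 p.2,
        ‖LboxG (2 ^ p.1) bb (KP j T (upk g e (mE j e (dI (J.1 + 7) J.2) E)) F) x‖ := by
  refine Finset.sum_congr rfl fun p hp => Finset.sum_congr rfl fun x hx => ?_
  have h : LboxG (2 ^ p.1) bb (KP j T (upk g e E) F) x =
      LboxG (2 ^ p.1) bb (KP j T (upk g e (mE j e (dI (J.1 + 7) J.2) E)) F) x := by
    refine LboxG_congr _ bb _ _ x fun u => ?_
    refine KP_mask j e T g F E _ _ _ ?_
    rw [← yv_eq]
    exact hR.1 p hp (yv_mem p.1 p.2 bb x hbb hx u _)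
  rw [h]

/-! ### budgets of the three edges -/

lemma fin3_or : ∀ e x : Fin 3, x ≠ e → x = e + 1 ∨ x = e + 2 := by decide

lemma prod_rot (e : Fin 3) (f : Fin 3 → ℂ) : ∏ i, f i = f e * f (e + 1) * f (e + 2) := by
  rw [Fin.prod_univ_three]
  obtain rfl | rfl | rfl : e = 0 ∨ e = 1 ∨ e = 2 := by fin_cases e <;> simp
  · rfl
  · show f 0 * f 1 * f 2 = f 1 * f 2 * f 0
    ring
  · show f 0 * f 1 * f 2 = f 2 * f 0 * f 1
    ring

lemma fin3_cases (e : Fin 3) (P : Fin 3 → Prop) (h1 : P (e + 1)) (h2 : P (e + 2)) :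
    ∀ x : Fin 3, x ≠ e → P x := by
  intro x hx
  rcases fin3_or e x hx with rfl | rfl
  · exact h1
  · exact h2

lemma fin3_all (e : Fin 3) (P : Fin 3 → Prop) (h0 : P e) (h1 : P (e + 1)) (h2 : P (e + 2)) :
    ∀ x : Fin 3, P x := by
  intro x
  by_cases hx : x = e
  · rw [hx]; exact h0
  · exact fin3_cases e P h1 h2 x hx

lemma sA02 (j : Fin 4) (e : Fin 3) : j.succAbove e ≠ j.succAbove (e + 2) :=
  fun h => ne2 e (Fin.succAbove_right_injective h).symm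

lemma sA12 (j : Fin 4) (e : Fin 3) : j.succAbove (e + 1) ≠ j.succAbove (e + 2) :=
  fun h => ne12 e (Fin.succAbove_right_injective h)

lemma sA01 (j : Fin 4) (e : Fin 3) : j.succAbove e ≠ j.succAbove (e + 1) :=
  fun h => ne1 e (Fin.succAbove_right_injective h).symm

section edges

variable {R : Finset (ℕ × ℤ)} {κ : ℕ} {V A : ℝ} {j : Fin 4} {e : Fin 3} {T : Fin 3 → Finset ℤ}
  {g : Fin 3 → ℤ → ℤ → ℂ} {E : ℤ → ℤ → ℤ → ℂ} {F : Fin 4 → ℤ → ℂ}

/-- edge `1`: letter of the slot `j.succAbove e` -/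
theorem W2_one (hA : 0 ≤ A) (h1 : ∑ z ∈ T (e + 1), ∑ z' ∈ T (e + 2), ‖g (e + 1) z z'‖ ^ 2 ≤ V)
    (hF : ∀ p ∈ R, ∑ y ∈ dI (p.1 + 7) p.2, ‖F (j.succAbove e) y‖ ^ 2 ≤ A * 2 ^ (p.1 + 7)) :
    W2 R κ (V * A) j T (upk g e E) F (e + 1) := by
  unfold W2
  rw [e12, e11]
  have hk : upk g e E (e + 1) = fun _ => g (e + 1) := by
    funext w; unfold upk; rw [if_neg (ne1 e)]
  rw [hk]
  exact s2w_sum (sub_sl_ne (Fin.succAbove_ne j e).symm) (g (e + 1)) hA h1 hF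

theorem W2_two (hA : 0 ≤ A) (h2 : ∑ z ∈ T (e + 2), ∑ z' ∈ T e, ‖g (e + 2) z z'‖ ^ 2 ≤ V)
    (hF : ∀ p ∈ R, ∑ y ∈ dI (p.1 + 7) p.2, ‖F (j.succAbove (e + 1)) y‖ ^ 2 ≤ A * 2 ^ (p.1 + 7)) :
    W2 R κ (V * A) j T (upk g e E) F (e + 2) := by
  unfold W2
  rw [e22, e21]
  have hk : upk g e E (e + 2) = fun _ => g (e + 2) := by
    funext w; unfold upk; rw [if_neg (ne2 e)]
  rw [hk]
  exact s2w_sum (sub_sl_ne (Fin.succAbove_ne j (e + 1)).symm) (g (e + 2)) hA h2 hF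

theorem W4_one (hA : 0 ≤ A) (hg : ∀ z z', ‖g (e + 1) z z'‖ ≤ 1)
    (h2 : W2 R κ V j T (upk g e E) F (e + 1))
    (hF : ∀ p ∈ R, ∑ y ∈ dI (p.1 + 7) p.2, ‖F (j.succAbove e) y‖ ^ 2 ≤ A * 2 ^ (p.1 + 7)) :
    W4 R κ V (128 * A) j T (upk g e E) F (e + 1) := by
  unfold W2 at h2
  unfold W4
  rw [e12, e11] at h2 ⊢
  have hk : upk g e E (e + 1) = fun _ => g (e + 1) := by
    funext w; unfold upk; rw [if_neg (ne1 e)]
  rw [hk] at h2 ⊢
  exact s4w_line (sub_sl_ne (sA02 j e).symm) (fun _ => hg) hA hF h2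

theorem W4_two (hA : 0 ≤ A) (hg : ∀ z z', ‖g (e + 2) z z'‖ ≤ 1)
    (h2 : W2 R κ V j T (upk g e E) F (e + 2))
    (hF : ∀ p ∈ R, ∑ y ∈ dI (p.1 + 7) p.2, ‖F (j.succAbove (e + 1)) y‖ ^ 2 ≤ A * 2 ^ (p.1 + 7)) :
    W4 R κ V (128 * A) j T (upk g e E) F (e + 2) := by
  unfold W2 at h2
  unfold W4
  rw [e22, e21] at h2 ⊢
  have hk : upk g e E (e + 2) = fun _ => g (e + 2) := by
    funext w; unfold upk; rw [if_neg (ne2 e)]
  rw [hk] at h2 ⊢
  exact s4w_line (sub_sl_ne (sA01 j e)) (fun _ => hg) hA hF h2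

/-- height of a line edge -/
theorem WH_one {H : ℝ} (hH : 0 ≤ H) (hg : ∀ z z', ‖g (e + 1) z z'‖ ≤ 1)
    (hF : ∀ y, ‖F (j.succAbove e) y‖ ≤ H) : WH H j T (upk g e E) F (e + 1) := by
  intro w z z'
  unfold kW cK
  split_ifs
  · have hk : upk g e E (e + 1) w = g (e + 1) := by unfold upk; rw [if_neg (ne1 e)]
    rw [hk, norm_mul]
    calc _ ≤ 1 * H := mul_le_mul (hg _ _) (by rw [e12]; exact hF _) (norm_nonneg _) zero_le_one
      _ = H := one_mul _
  · rw [norm_zero]; exact hH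

theorem kW_zero (w z z' : ℤ) : kW j T (upk g e E) (upF F (j.succAbove (e + 2))) e w z z' =
    if z ∈ T e ∧ z' ∈ T (e + 1) then E w z z' else 0 := by
  unfold kW cK
  have hk : upk g e E e w = E w := by unfold upk; rw [if_pos rfl]
  rw [hk]
  unfold upF
  rw [if_pos rfl, mul_one]

/-- the masked error edge -/
theorem W2_zero {D : Finset ℤ} (hD : ∀ p ∈ R, dI (p.1 + 7) p.2 ⊆ D)
    (h : EW49.S2W R κ V (sl j - sl (j.succAbove (e + 2))) (sl (j.succAbove e) - sl (j.succAbove (e + 2)))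
      (sl (j.succAbove (e + 1)) - sl (j.succAbove (e + 2))) (T e) (T (e + 1)) E (fun _ => 1)) :
    W2 R κ V j T (upk g e (mE j e D E)) (upF F (j.succAbove (e + 2))) e := by
  unfold W2
  have hk : upk g e (mE j e D E) e = mE j e D E := by funext w; unfold upk; rw [if_pos rfl]
  have hF : upF F (j.succAbove (e + 2)) (j.succAbove (e + 2)) = fun _ => 1 := by unfold upF; rw [if_pos rfl]
  rw [hk, hF]
  intro p hp k hk' S
  refine le_trans (le_of_eq ?_) (h p hp k hk' S)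
  refine Finset.sum_congr rfl fun t _ => ?_
  congr 1
  funext z z'
  unfold cK mE res
  by_cases hT : z ∈ T e ∧ z' ∈ T (e + 1)
  · rw [if_pos hT, if_pos hT]
    by_cases hy : (sl j - sl (j.succAbove (e + 2))) * t.1 + (sl (j.succAbove e) - sl (j.succAbove (e + 2))) * z +
        (sl (j.succAbove (e + 1)) - sl (j.succAbove (e + 2))) * z' ∈ dI (p.1 + 7) p.2
    · rw [if_pos hy, if_pos (hD p hp hy)]
    · rw [if_neg hy, mul_zero, mul_zero]
  · rw [if_neg hT, if_neg hT]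

theorem W4_zero {σ : ℝ} {D : Finset ℤ} (hD : ∀ p ∈ R, dI (p.1 + 7) p.2 ⊆ D)
    (h : EW49.S4W R κ V σ (sl j - sl (j.succAbove (e + 2))) (sl (j.succAbove e) - sl (j.succAbove (e + 2)))
      (sl (j.succAbove (e + 1)) - sl (j.succAbove (e + 2))) (T e) (T (e + 1)) E (fun _ => 1)) :
    W4 R κ V σ j T (upk g e (mE j e D E)) (upF F (j.succAbove (e + 2))) e := by
  unfold W4
  have hk : upk g e (mE j e D E) e = mE j e D E := by funext w; unfold upk; rw [if_pos rfl]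
  have hF : upF F (j.succAbove (e + 2)) (j.succAbove (e + 2)) = fun _ => 1 := by unfold upF; rw [if_pos rfl]
  rw [hk, hF]
  intro p hp k hk' S
  refine le_trans (le_of_eq ?_) (h p hp k hk' S)
  refine Finset.sum_congr rfl fun t _ => ?_
  congr 1
  funext z z'
  unfold cK mE res
  by_cases hT : z ∈ T e ∧ z' ∈ T (e + 1)
  · rw [if_pos hT, if_pos hT]
    by_cases hy : (sl j - sl (j.succAbove (e + 2))) * t.1 + (sl (j.succAbove e) - sl (j.succAbove (e + 2))) * z +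
        (sl (j.succAbove (e + 1)) - sl (j.succAbove (e + 2))) * z' ∈ dI (p.1 + 7) p.2
    · rw [if_pos hy, if_pos (hD p hp hy)]
    · rw [if_neg hy, mul_zero, mul_zero]
  · rw [if_neg hT, if_neg hT]

theorem WH_zero {D : Finset ℤ} {H : ℝ} (hH : 0 ≤ H)
    (hE : ∀ w, ∀ z ∈ T e, ∀ z' ∈ T (e + 1), (sl j - sl (j.succAbove (e + 2))) * w +
      (sl (j.succAbove e) - sl (j.succAbove (e + 2))) * z +
      (sl (j.succAbove (e + 1)) - sl (j.succAbove (e + 2))) * z' ∈ D → ‖E w z z'‖ ≤ H) :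
    WH H j T (upk g e (mE j e D E)) (upF F (j.succAbove (e + 2))) e := by
  intro w z z'
  rw [kW_zero]
  unfold mE
  split_ifs with h1 h2
  · exact hE w z h1.1 z' h1.2 h2
  · rw [norm_zero]; exact hH
  · rw [norm_zero]; exact hH

end edges

/-- **WORD `E`** (`S₂`-small) -/
theorem wordE : ∃ K : ℝ, 0 ≤ K ∧ ∀ (bb : ℤ), bb = -1 ∨ bb = -7 →
    ∀ (R : Finset (ℕ × ℤ)) (J : ℕ × ℤ), IsRegion R J → ∀ (j : Fin 4) (e : Fin 3) (T : Fin 3 → Finset ℤ)
      (g : Fin 3 → ℤ → ℤ → ℂ) (F : Fin 4 → ℤ → ℂ) (E : ℤ → ℤ → ℤ → ℂ) (V d H : ℝ),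
      0 ≤ V → 0 < d → d ≤ H → (∀ z z', ‖g (e + 1) z z'‖ ≤ 1) → (∀ z z', ‖g (e + 2) z z'‖ ≤ 1) →
      ∑ z ∈ T (e + 1), ∑ z' ∈ T (e + 2), ‖g (e + 1) z z'‖ ^ 2 ≤ V → ∑ z ∈ T (e + 2), ∑ z' ∈ T e, ‖g (e + 2) z z'‖ ^ 2 ≤ V →
      (∀ p ∈ R, ∑ y ∈ dI (p.1 + 7) p.2, ‖F (j.succAbove e) y‖ ^ 2 ≤ 2 ^ (p.1 + 7)) →
      (∀ p ∈ R, ∑ y ∈ dI (p.1 + 7) p.2, ‖F (j.succAbove (e + 1)) y‖ ^ 2 ≤ 2 ^ (p.1 + 7)) →
      (∀ κ, EW49.S2W R κ (d ^ 2 * V) (sl j - sl (j.succAbove (e + 2)))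
        (sl (j.succAbove e) - sl (j.succAbove (e + 2))) (sl (j.succAbove (e + 1)) - sl (j.succAbove (e + 2)))
        (T e) (T (e + 1)) E (fun _ => 1)) →
      (∀ w, ∀ z ∈ T e, ∀ z' ∈ T (e + 1), (sl j - sl (j.succAbove (e + 2))) * w +
        (sl (j.succAbove e) - sl (j.succAbove (e + 2))) * z +
        (sl (j.succAbove (e + 1)) - sl (j.succAbove (e + 2))) * z' ∈ dI (J.1 + 7) J.2 → ‖E w z z'‖ ≤ H) →
      ∑ p ∈ R, ∑ x ∈ adm p.1 p.2,
        ‖LboxG (2 ^ p.1) bb (KP j T (upk g e E) (upF F (j.succAbove (e + 2)))) x‖ ≤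
          K * (d * (1 + Real.log (H / d)) * 2 ^ (J.1 + 7) * V) := by
  obtain ⟨K, hK, κ, h⟩ := word_two
  refine ⟨K * Real.sqrt 128, by positivity, ?_⟩
  intro bb hbb R J hR j e T g F E V d H hV hd hdH hg1 hg2 hs1 hs2 hFa hFb hE hEh
  rw [box_mask j e T g _ E hR bb hbb]
  obtain ⟨PP, hPP⟩ := sum_word_le R J hR j T (upk g e (mE j e (dI (J.1 + 7) J.2) E))
    (upF F (j.succAbove (e + 2))) bb hbb
  have hFa' : ∀ p ∈ R, ∑ y ∈ dI (p.1 + 7) p.2, ‖upF F (j.succAbove (e + 2)) (j.succAbove e) y‖ ^ 2 ≤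
      1 * 2 ^ (p.1 + 7) := by
    intro p hp
    rw [upF_ne (sA02 j e), one_mul]; exact hFa p hp
  have hFb' : ∀ p ∈ R, ∑ y ∈ dI (p.1 + 7) p.2, ‖upF F (j.succAbove (e + 2)) (j.succAbove (e + 1)) y‖ ^ 2 ≤
      1 * 2 ^ (p.1 + 7) := by
    intro p hp
    rw [upF_ne (sA12 j e), one_mul]; exact hFb p hp
  have w1 : W2 R κ V j T (upk g e (mE j e (dI (J.1 + 7) J.2) E)) (upF F (j.succAbove (e + 2))) (e + 1) := by
    have := W2_one (κ := κ) (E := mE j e (dI (J.1 + 7) J.2) E) zero_le_one hs1 hFa'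
    rwa [mul_one] at this
  have w2 : W2 R κ V j T (upk g e (mE j e (dI (J.1 + 7) J.2) E)) (upF F (j.succAbove (e + 2))) (e + 2) := by
    have := W2_two (κ := κ) (E := mE j e (dI (J.1 + 7) J.2) E) zero_le_one hs2 hFb'
    rwa [mul_one] at this
  have v1 := W4_one zero_le_one hg1 w1 hFa'
  have v2 := W4_two zero_le_one hg2 w2 hFb'
  rw [mul_one] at v1 v2
  have main := h bb hbb R J hR j e d H 128 hd hdH (by norm_num) V hV T
    (upk g e (mE j e (dI (J.1 + 7) J.2) E)) (upF F (j.succAbove (e + 2)))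
    (fin3_cases e _ w1 w2) (fin3_cases e _ v1 v2) (W2_zero (fun p hp => hR.1 p hp) (hE κ))
    (WH_zero (hd.le.trans hdH) hEh) PP
  refine hPP.trans (main.trans (le_of_eq ?_))
  ring

/-- the kernel of the word is additive in the letter of the slot `m = j.succAbove e` -/
theorem KP_update (j : Fin 4) (e : Fin 3) (T : Fin 3 → Finset ℤ) (k : Fin 3 → ℤ → ℤ → ℤ → ℂ)
    (F : Fin 4 → ℤ → ℂ) (f f' : ℤ → ℂ) (η : ℂ) (hF : ∀ y, F (j.succAbove e) y = f y + η * f' y)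
    (s A : ℤ) :
    KP j T k F s A = KP j T k (Function.update F (j.succAbove e) f) s A +
      η * KP j T k (Function.update F (j.succAbove e) f') s A := by
  unfold KP
  rw [prod_rot e (fun i => F (j.succAbove i) (A - sl (j.succAbove i) * s)),
    prod_rot e (fun i => Function.update F (j.succAbove e) f (j.succAbove i)
      (A - sl (j.succAbove i) * s)),
    prod_rot e (fun i => Function.update F (j.succAbove e) f' (j.succAbove i)
      (A - sl (j.succAbove i) * s))]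
  rw [Function.update_self, Function.update_self, Function.update_of_ne (sA01 j e).symm,
    Function.update_of_ne (sA02 j e).symm, Function.update_of_ne (sA01 j e).symm,
    Function.update_of_ne (sA02 j e).symm, hF]
  ring

/-- **WORD `X`** (`S₄`-small): the letter of the slot `j.succAbove e` is cut at the height `h` -/
theorem wordX : ∃ K : ℝ, 0 ≤ K ∧ ∀ (bb : ℤ), bb = -1 ∨ bb = -7 →
    ∀ (R : Finset (ℕ × ℤ)) (J : ℕ × ℤ), IsRegion R J → ∀ (j : Fin 4) (e : Fin 3) (T : Fin 3 → Finset ℤ)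
      (g : Fin 3 → ℤ → ℤ → ℂ) (F : Fin 4 → ℤ → ℂ) (X : ℤ → ℤ → ℤ → ℂ) (V d H h η : ℝ),
      0 ≤ V → 0 < d → d ≤ 1 → 1 ≤ H → 1 ≤ h → 0 < η →
      (∀ z z', ‖g (e + 1) z z'‖ ≤ 1) → (∀ z z', ‖g (e + 2) z z'‖ ≤ 1) →
      ∑ z ∈ T (e + 1), ∑ z' ∈ T (e + 2), ‖g (e + 1) z z'‖ ^ 2 ≤ V → ∑ z ∈ T (e + 2), ∑ z' ∈ T e, ‖g (e + 2) z z'‖ ^ 2 ≤ V →
      (∀ p ∈ R, ∑ y ∈ dI (p.1 + 7) p.2, ‖F (j.succAbove e) y‖ ^ 2 ≤ 2 ^ (p.1 + 7)) →
      (∀ p ∈ R, ∑ y ∈ dI (p.1 + 7) p.2, ‖tl h (F (j.succAbove e)) y‖ ^ 2 ≤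
        η ^ 2 * 2 ^ (p.1 + 7)) →
      (∀ p ∈ R, ∑ y ∈ dI (p.1 + 7) p.2, ‖F (j.succAbove (e + 1)) y‖ ^ 2 ≤ 2 ^ (p.1 + 7)) →
      (∀ κ, EW49.S2W R κ V (sl j - sl (j.succAbove (e + 2)))
        (sl (j.succAbove e) - sl (j.succAbove (e + 2))) (sl (j.succAbove (e + 1)) - sl (j.succAbove (e + 2)))
        (T e) (T (e + 1)) X (fun _ => 1)) →
      (∀ κ, EW49.S4W R κ V (d ^ 4) (sl j - sl (j.succAbove (e + 2)))
        (sl (j.succAbove e) - sl (j.succAbove (e + 2))) (sl (j.succAbove (e + 1)) - sl (j.succAbove (e + 2)))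
        (T e) (T (e + 1)) X (fun _ => 1)) →
      (∀ w, ∀ z ∈ T e, ∀ z' ∈ T (e + 1), (sl j - sl (j.succAbove (e + 2))) * w +
        (sl (j.succAbove e) - sl (j.succAbove (e + 2))) * z +
        (sl (j.succAbove (e + 1)) - sl (j.succAbove (e + 2))) * z' ∈ dI (J.1 + 7) J.2 → ‖X w z z'‖ ≤ H) →
      ∑ p ∈ R, ∑ x ∈ adm p.1 p.2,
        ‖LboxG (2 ^ p.1) bb (KP j T (upk g e X) (upF F (j.succAbove (e + 2)))) x‖ ≤
          K * ((d * (1 + Real.log (h / d ^ 2)) + η * (1 + Real.log H)) * 2 ^ (J.1 + 7) * V) := by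
  obtain ⟨K, hK, κ, hw⟩ := word_two
  obtain ⟨K', hK', κ', hw'⟩ := word_four
  refine ⟨(K + K') * Real.sqrt 128, by positivity, ?_⟩
  intro bb hbb R J hR j e T g F X V d H h η hV hd hd1 hH hh hη hg1 hg2 hs1 hs2 hFa hFt hFb hX2 hX4 hXh
  rw [box_mask j e T g _ X hR bb hbb]
  set k : Fin 3 → ℤ → ℤ → ℤ → ℂ := upk g e (mE j e (dI (J.1 + 7) J.2) X) with hk
  set G : Fin 4 → ℤ → ℂ := upF F (j.succAbove (e + 2)) with hG
  set G1 : Fin 4 → ℤ → ℂ := Function.update G (j.succAbove e) (lw h (F (j.succAbove e))) with hG1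
  set G2 : Fin 4 → ℤ → ℂ := Function.update G (j.succAbove e)
    (fun y => ((η⁻¹ : ℝ) : ℂ) * tl h (F (j.succAbove e)) y) with hG2
  have hη0 : ((η : ℝ) : ℂ) * ((η⁻¹ : ℝ) : ℂ) = 1 := by
    rw [← Complex.ofReal_mul, mul_inv_cancel₀ hη.ne', Complex.ofReal_one]
  have hsplit : ∀ s A, KP j T k G s A = KP j T k G1 s A + (η : ℂ) * KP j T k G2 s A := by
    intro s A
    refine KP_update j e T k G _ _ (η : ℂ) (fun y => ?_) s A
    rw [hG, upF_ne (sA02 j e), ← mul_assoc, hη0, one_mul]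
    exact lw_add_tl h _ y
  -- the letters of the two words as `upF`
  have hG1u : ∃ F1 : Fin 4 → ℤ → ℂ, G1 = upF F1 (j.succAbove (e + 2)) ∧
      F1 (j.succAbove e) = lw h (F (j.succAbove e)) ∧ F1 (j.succAbove (e + 1)) = F (j.succAbove (e + 1)) := by
    refine ⟨Function.update F (j.succAbove e) (lw h (F (j.succAbove e))), ?_, ?_, ?_⟩
    · funext m y
      rw [hG1, hG]
      unfold upF
      by_cases h1 : m = j.succAbove (e + 2)
      · subst h1
        rw [if_pos rfl, Function.update_of_ne (sA02 j e).symm, if_pos rfl]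
      · rw [if_neg h1]
        by_cases h2 : m = j.succAbove e
        · subst h2
          rw [Function.update_self, Function.update_self]
        · rw [Function.update_of_ne h2, Function.update_of_ne h2, if_neg h1]
    · rw [Function.update_self]
    · rw [Function.update_of_ne (sA01 j e).symm]
  have hG2u : ∃ F2 : Fin 4 → ℤ → ℂ, G2 = upF F2 (j.succAbove (e + 2)) ∧
      F2 (j.succAbove e) = (fun y => ((η⁻¹ : ℝ) : ℂ) * tl h (F (j.succAbove e)) y) ∧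
      F2 (j.succAbove (e + 1)) = F (j.succAbove (e + 1)) := by
    refine ⟨Function.update F (j.succAbove e)
      (fun y => ((η⁻¹ : ℝ) : ℂ) * tl h (F (j.succAbove e)) y), ?_, ?_, ?_⟩
    · funext m y
      rw [hG2, hG]
      unfold upF
      by_cases h1 : m = j.succAbove (e + 2)
      · subst h1
        rw [if_pos rfl, Function.update_of_ne (sA02 j e).symm, if_pos rfl]
      · rw [if_neg h1]
        by_cases h2 : m = j.succAbove e
        · subst h2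
          rw [Function.update_self, Function.update_self]
        · rw [Function.update_of_ne h2, Function.update_of_ne h2, if_neg h1]
    · rw [Function.update_self]
    · rw [Function.update_of_ne (sA01 j e).symm]
  obtain ⟨F1, hF1, hF10, hF11⟩ := hG1u
  obtain ⟨F2, hF2, hF20, hF21⟩ := hG2u
  -- word 1
  have hb1 : ∑ p ∈ R, ∑ x ∈ adm p.1 p.2, ‖LboxG (2 ^ p.1) bb (KP j T k G1) x‖ ≤
      K' * (d * Real.sqrt 128 * (1 + Real.log (h / d ^ 2)) * 2 ^ (J.1 + 7) * V) := by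
    obtain ⟨PP, hPP⟩ := sum_word_le R J hR j T k G1 bb hbb
    have hFa' : ∀ p ∈ R, ∑ y ∈ dI (p.1 + 7) p.2, ‖G1 (j.succAbove e) y‖ ^ 2 ≤
        1 * 2 ^ (p.1 + 7) := by
      intro p hp
      rw [hG1, Function.update_self, one_mul]
      exact (Finset.sum_le_sum fun y _ => pow_le_pow_left₀ (norm_nonneg _)
        (norm_lw_le' h _ y) 2).trans (hFa p hp)
    have hFb' : ∀ p ∈ R, ∑ y ∈ dI (p.1 + 7) p.2, ‖G1 (j.succAbove (e + 1)) y‖ ^ 2 ≤
        1 * 2 ^ (p.1 + 7) := by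
      intro p hp
      rw [hF1, upF_ne (sA12 j e), hF11, one_mul]; exact hFb p hp
    have w1 : W2 R κ' V j T k G1 (e + 1) := by
      have := W2_one (κ := κ') (E := mE j e (dI (J.1 + 7) J.2) X) zero_le_one hs1 hFa'
      rwa [mul_one] at this
    have w2 : W2 R κ' V j T k G1 (e + 2) := by
      have := W2_two (κ := κ') (E := mE j e (dI (J.1 + 7) J.2) X) zero_le_one hs2 hFb'
      rwa [mul_one] at this
    have v2 := W4_two zero_le_one hg2 w2 hFb'
    rw [mul_one] at v2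
    have w0 : W2 R κ' V j T k G1 e := by
      rw [hF1]; exact W2_zero (fun p hp => hR.1 p hp) (hX2 κ')
    have v0 : W4 R κ' V (d ^ 4) j T k G1 e := by
      rw [hF1]; exact W4_zero (fun p hp => hR.1 p hp) (hX4 κ')
    have wh : WH h j T k G1 (e + 1) := WH_one (by linarith) hg1 (fun y => by
      rw [hG1, Function.update_self]; exact norm_lw_le (by linarith) _ y)
    refine hPP.trans (hw' bb hbb R J hR j e (e + 1) (ne1 e) d h 128 hd hd1 hh (by norm_num) V hV T k G1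
      (fun x => ?_) (fun x hx0 hx1 => ?_) v0 wh PP)
    · exact fin3_all e _ w0 w1 w2 x
    · rcases fin3_or e x hx0 with h | h
      · exact absurd h hx1
      · rw [h]; exact v2
  -- word 2
  have hb2 : ∑ p ∈ R, ∑ x ∈ adm p.1 p.2, ‖LboxG (2 ^ p.1) bb (KP j T k G2) x‖ ≤
      K * (1 * Real.sqrt 128 * (1 + Real.log (H / 1)) * 2 ^ (J.1 + 7) * V) := by
    obtain ⟨PP, hPP⟩ := sum_word_le R J hR j T k G2 bb hbb
    have hFa' : ∀ p ∈ R, ∑ y ∈ dI (p.1 + 7) p.2, ‖G2 (j.succAbove e) y‖ ^ 2 ≤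
        1 * 2 ^ (p.1 + 7) := by
      intro p hp
      rw [hG2, Function.update_self, one_mul]
      simp only [norm_mul, mul_pow, Complex.norm_real]
      rw [← Finset.mul_sum, Real.norm_of_nonneg (by positivity)]
      calc η⁻¹ ^ 2 * _ ≤ η⁻¹ ^ 2 * (η ^ 2 * 2 ^ (p.1 + 7)) :=
            mul_le_mul_of_nonneg_left (hFt p hp) (by positivity)
        _ = (η⁻¹ * η) ^ 2 * 2 ^ (p.1 + 7) := by ring
        _ = 2 ^ (p.1 + 7) := by rw [inv_mul_cancel₀ hη.ne', one_pow, one_mul]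
    have hFb' : ∀ p ∈ R, ∑ y ∈ dI (p.1 + 7) p.2, ‖G2 (j.succAbove (e + 1)) y‖ ^ 2 ≤
        1 * 2 ^ (p.1 + 7) := by
      intro p hp
      rw [hF2, upF_ne (sA12 j e), hF21, one_mul]; exact hFb p hp
    have w1 : W2 R κ V j T k G2 (e + 1) := by
      have := W2_one (κ := κ) (E := mE j e (dI (J.1 + 7) J.2) X) zero_le_one hs1 hFa'
      rwa [mul_one] at this
    have w2 : W2 R κ V j T k G2 (e + 2) := by
      have := W2_two (κ := κ) (E := mE j e (dI (J.1 + 7) J.2) X) zero_le_one hs2 hFb'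
      rwa [mul_one] at this
    have v1 := W4_one zero_le_one hg1 w1 hFa'
    have v2 := W4_two zero_le_one hg2 w2 hFb'
    rw [mul_one] at v1 v2
    have w0 : W2 R κ ((1 : ℝ) ^ 2 * V) j T k G2 e := by
      rw [one_pow, one_mul, hF2]; exact W2_zero (fun p hp => hR.1 p hp) (hX2 κ)
    have wh : WH H j T k G2 e := by
      rw [hF2]; exact WH_zero (by linarith) hXh
    exact hPP.trans (hw bb hbb R J hR j e 1 H 128 one_pos hH (by norm_num) V hV T k G2
      (fin3_cases e _ w1 w2) (fin3_cases e _ v1 v2) w0 wh PP)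
  -- sum
  have hpt : ∀ p ∈ R, ∀ x ∈ adm p.1 p.2, ‖LboxG (2 ^ p.1) bb (KP j T k G) x‖ ≤
      ‖LboxG (2 ^ p.1) bb (KP j T k G1) x‖ + η * ‖LboxG (2 ^ p.1) bb (KP j T k G2) x‖ := by
    intro p _ x _
    have e1 : LboxG (2 ^ p.1) bb (KP j T k G) x = LboxG (2 ^ p.1) bb
        (fun s A => KP j T k G1 s A + (η : ℂ) * KP j T k G2 s A) x :=
      LboxG_congr _ bb _ _ x fun u => hsplit _ _
    rw [e1, LboxG_add (2 ^ p.1) bb (KP j T k G1) (fun s A => (η : ℂ) * KP j T k G2 s A) x,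
      LboxG_smul]
    refine (norm_add_le _ _).trans (le_of_eq ?_)
    rw [norm_mul, Complex.norm_real, Real.norm_of_nonneg hη.le]
  refine (Finset.sum_le_sum fun p hp => Finset.sum_le_sum fun x hx => hpt p hp x hx).trans ?_
  simp only [Finset.sum_add_distrib, ← Finset.mul_sum]
  have h3 := add_le_add hb1 (mul_le_mul_of_nonneg_left hb2 hη.le)
  refine h3.trans ?_
  rw [div_one]
  have l1 : 0 ≤ Real.log (h / d ^ 2) := by
    refine Real.log_nonneg ?_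
    rw [le_div_iff₀ (by positivity)]
    have : d ^ 2 ≤ 1 := pow_le_one₀ hd.le hd1
    linarith
  have l2 : 0 ≤ Real.log H := Real.log_nonneg hH
  have p1 : 0 ≤ d * (1 + Real.log (h / d ^ 2)) * (Real.sqrt 128 * (2 ^ (J.1 + 7) * V)) := by positivity
  have p2 : 0 ≤ η * (1 + Real.log H) * (Real.sqrt 128 * (2 ^ (J.1 + 7) * V)) := by positivity
  have q1 := mul_nonneg hK p1
  have q2 := mul_nonneg hK' p2
  nlinarith [q1, q2]

end Crest.Agent.R079.EWe702
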