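import Crest.Agent.R079.RuS1_256
import Crest.Agent.R079.EWe_702

/-! R079, Step II of `RuleNT` (helper255), EDGE-GENERIC version of helper256's `RuS1_256`: the two ERROR
WORDS of a static window, static slot `j.succAbove (e+2)`, static letter of height `σ^(-2/k)`. -/

set_option autoImplicit false
set_option linter.unusedVariables false

namespace Crest.Agent.R079.CoEx255

open Finset Crest.Agent.R079.Grid Crest.Agent.R079.Growth Crest.Agent.R079.QRed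
  Crest.Agent.R079.TWin Crest.Agent.R079.R244 Crest.Agent.R079.F24 Crest.Agent.R079.XR112
  Crest.Agent.R079.XS4x219 Crest.Agent.R079.EWG990 Crest.Agent.R079.Cg408
open Crest.Agent.R079.RuS256 (log_inv_le one_le_neg num_E num_X tall_energy s2w_mono s4w_mono)
open Crest.Agent.R079.EWe702 (wordE wordX)

/-- numbers of the word `X` -/
theorem num_Xe {σ k : ℝ} (hσ : 0 < σ) (hσ1 : σ ≤ 1) (hk : 0 < k) :
    64 * σ ^ (1 / 10 : ℝ) * (1 + Real.log (σ ^ (-(2 / k)) / (64 * σ ^ (1 / 10 : ℝ)) ^ 2)) +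
      σ * (1 + Real.log (4 * σ ^ (-(2 / k + 1)))) ≤ 5120 * (1 + 1 / k) * σ ^ (1 / 20 : ℝ) := by
  have h0 := num_X hσ hσ1 hk
  have h1 := log_inv_le hσ
  have h2 := one_le_neg hσ hσ1 (show (0 : ℝ) ≤ 1 / 20 by norm_num)
  have hl0 : 0 ≤ Real.log (1 / σ) := Real.log_nonneg (by rw [le_div_iff₀ hσ]; linarith)
  have hl4 : 0 ≤ Real.log (4 / σ) := Real.log_nonneg (by rw [le_div_iff₀ hσ]; linarith)
  have hpk : 0 < σ ^ (-(2 / k + 1)) := Real.rpow_pos_of_pos hσ _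
  have h20 : 0 < σ ^ (1 / 20 : ℝ) := Real.rpow_pos_of_pos hσ _
  have e4 : 1 + Real.log (4 * σ ^ (-(2 / k + 1))) ≤
      (23 + 40 * (1 / k)) * σ ^ (-(1 / 20) : ℝ) := by
    have e : Real.log (4 * σ ^ (-(2 / k + 1))) =
        Real.log 4 + (2 * (1 / k) + 1) * Real.log (1 / σ) := by
      rw [Real.log_mul (by norm_num) hpk.ne', Real.log_rpow hσ, one_div σ, Real.log_inv]; ring
    have h4 : Real.log 4 ≤ 2 := by
      have := Real.log_two_lt_d9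
      have e : Real.log 4 = 2 * Real.log 2 := by
        rw [show (4 : ℝ) = 2 ^ 2 by norm_num, Real.log_pow]; norm_num
      rw [e]; linarith
    have h5 : (2 * (1 / k) + 1) * Real.log (1 / σ) ≤
        (2 * (1 / k) + 1) * (20 * σ ^ (-(1 / 20) : ℝ)) :=
      mul_le_mul_of_nonneg_left h1 (by positivity)
    rw [e]
    nlinarith
  have e5 : σ * σ ^ (-(1 / 20) : ℝ) ≤ σ ^ (1 / 20 : ℝ) := by
    nth_rewrite 1 [← Real.rpow_one σ]
    rw [← Real.rpow_add hσ]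
    exact Real.rpow_le_rpow_of_exponent_ge hσ hσ1 (by norm_num)
  have f2 : σ * (1 + Real.log (4 * σ ^ (-(2 / k + 1)))) ≤
      (23 + 40 * (1 / k)) * σ ^ (1 / 20 : ℝ) := by
    calc _ ≤ σ * ((23 + 40 * (1 / k)) * σ ^ (-(1 / 20) : ℝ)) := mul_le_mul_of_nonneg_left e4 hσ.le
      _ = (23 + 40 * (1 / k)) * (σ * σ ^ (-(1 / 20) : ℝ)) := by ring
      _ ≤ _ := mul_le_mul_of_nonneg_left e5 (by positivity)
  have f3 : 0 < 1 / k * σ ^ (1 / 20 : ℝ) := by positivity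
  have f4 : 0 ≤ σ * (1 + Real.log (4 / σ)) := mul_nonneg hσ.le (by linarith)
  nlinarith

theorem sd (j : Fin 4) (e : Fin 3) : sl j - sl (j.succAbove (e + 2)) ≠ 0 ∧
    sl (j.succAbove e) - sl (j.succAbove (e + 2)) ≠ 0 ∧ sl (j.succAbove (e + 1)) - sl (j.succAbove (e + 2)) ≠ 0 := by
  revert j e; decide

/-- **THE TWO ERROR WORDS of a static window** -/
theorem error_words : ∃ K : ℝ, 0 ≤ K ∧ ∀ (bb : ℤ), bb = -1 ∨ bb = -7 →
    ∀ (R : Finset Nd) (J : Nd), Full R J → ∀ (j : Fin 4) (e : Fin 3) (T : Fin 3 → Finset ℤ)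
      (g : Fin 3 → ℤ → ℤ → ℂ) (F : Fin 4 → ℤ → ℂ) (G : ℤ → ℂ) (E X : ℤ → ℤ → ℤ → ℂ) (V σ k : ℝ),
      0 < V → 0 < σ → σ ≤ 1 / 2 ^ 60 → 0 < k →
      (∀ z z', ‖g e z z'‖ ≤ 1) → (∀ z z', ‖g (e + 1) z z'‖ ≤ 1) → (∀ z z', ‖g (e + 2) z z'‖ ≤ 1) →
      BAt112.n2 (T e) (T (e + 1)) (g e) ≤ V → BAt112.n2 (T (e + 1)) (T (e + 2)) (g (e + 1)) ≤ V →
      BAt112.n2 (T (e + 2)) (T e) (g (e + 2)) ≤ V →
      (∀ p ∈ R, TRec.aq (2 + k) p (F (j.succAbove e)) ≤ 1) →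
      (∀ p ∈ R, TRec.aq (2 + k) p (F (j.succAbove (e + 1))) ≤ 1) →
      (∀ p ∈ R, ∑ y ∈ iv p, ‖G y‖ ^ 2 ≤ len p) → (∀ y, ‖G y‖ ≤ σ ^ (-(2 / k))) →
      E2T R (sl j - sl (j.succAbove (e + 2))) (sl (j.succAbove e) - sl (j.succAbove (e + 2)))
        (sl (j.succAbove (e + 1)) - sl (j.succAbove (e + 2))) (T e) (T (e + 1)) (9 * σ ^ 3 * V) E →
      (∀ w z z', ‖E w z z'‖ ≤ 2 / σ) →
      XR R (sl j - sl (j.succAbove (e + 2))) (sl (j.succAbove e) - sl (j.succAbove (e + 2)))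
        (sl (j.succAbove (e + 1)) - sl (j.succAbove (e + 2))) (T e) (T (e + 1))
        (Cc (g e) G (sl j - sl (j.succAbove (e + 2))) (sl (j.succAbove e) - sl (j.succAbove (e + 2)))
          (sl (j.succAbove (e + 1)) - sl (j.succAbove (e + 2)))) V σ (σ ^ 3) (σ ^ 3) X →
      ∑ p ∈ R, ∑ x ∈ adm p.1 p.2,
        ‖LboxG (2 ^ p.1) bb (KP j T (upk g e E) (upF F (j.succAbove (e + 2)))) x‖ +
      ∑ p ∈ R, ∑ x ∈ adm p.1 p.2,
        ‖LboxG (2 ^ p.1) bb (KP j T (upk g e X) (upF F (j.succAbove (e + 2)))) x‖ ≤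
        K * (1 + 1 / k) * σ ^ (1 / 20 : ℝ) * V * len J := by
  obtain ⟨K1, hK1, hE⟩ := wordE
  obtain ⟨K2, hK2, hX⟩ := wordX
  refine ⟨153 * K1 + 51200 * K2, by positivity, ?_⟩
  intro bb hbb R J hR j e T g F G E X V σ k hV hσ hσs hk hge hgf hgg hn0 hn1 hn2 hFa hFb hG hGh hE2
    hEh hXR
  have hσ1 : σ ≤ 1 := hσs.trans (by norm_num)
  obtain ⟨s0, s1, s2⟩ := sd j e
  have hlJ : len J = 2 ^ (J.1 + 7) := rfl
  have h20 : 0 < σ ^ (1 / 20 : ℝ) := Real.rpow_pos_of_pos hσ _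
  have hFa2 : ∀ p ∈ R, ∑ y ∈ dI (p.1 + 7) p.2, ‖F (j.succAbove e) y‖ ^ 2 ≤ 2 ^ (p.1 + 7) := by
    intro p hp
    have := Leaf259.sum2_of_aq (by linarith) (hFa p hp)
    rw [one_mul] at this
    exact this
  have hFb2 : ∀ p ∈ R, ∑ y ∈ dI (p.1 + 7) p.2, ‖F (j.succAbove (e + 1)) y‖ ^ 2 ≤ 2 ^ (p.1 + 7) := by
    intro p hp
    have := Leaf259.sum2_of_aq (by linarith) (hFb p hp)
    rw [one_mul] at this
    exact this
  have hG1 : ∀ p ∈ R, ∑ y ∈ iv p, ‖G y‖ ^ 2 ≤ 1 * len p := fun p hp => by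
    rw [one_mul]; exact hG p hp
  have hc0 : ∑ q ∈ T e ×ˢ T (e + 1), ‖g e q.1 q.2‖ ^ 2 ≤ V := by
    rw [Finset.sum_product]; exact hn0
  have hσ3 : σ ^ 3 ≤ 1 := pow_le_one₀ hσ.le hσ1
  -- word `E`
  have wE := hE bb hbb R J hR.reg j e T g F E V (3 * σ ^ (3 / 2 : ℝ)) (2 / σ) hV.le
    (by have := Real.rpow_pos_of_pos hσ (3 / 2 : ℝ); positivity)
    (by
      have h1 : σ ^ (3 / 2 : ℝ) ≤ σ := by
        calc σ ^ (3 / 2 : ℝ) ≤ σ ^ (1 : ℝ) :=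
              Real.rpow_le_rpow_of_exponent_ge hσ hσ1 (by norm_num)
          _ = σ := Real.rpow_one σ
      rw [le_div_iff₀ hσ]
      have h2 : σ ≤ 1 / 2 := hσs.trans (by norm_num)
      nlinarith)
    hgf hgg hn1 hn2 hFa2 hFb2
    (fun κ => by
      have e : (3 * σ ^ (3 / 2 : ℝ)) ^ 2 * V = 9 * σ ^ 3 * V := by
        rw [mul_pow, ← Real.rpow_natCast (σ ^ (3 / 2 : ℝ)), ← Real.rpow_mul hσ.le,
          show (3 / 2 : ℝ) * ((2 : ℕ) : ℝ) = ((3 : ℕ) : ℝ) by norm_num, Real.rpow_natCast]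
        norm_num
      rw [e]
      exact EW990.s2w_of_total fun p hp S => by
        have := hE2 p hp S
        unfold at' len at this
        rw [mul_comm] at this
        exact this)
    (fun w z _ z' _ _ => hEh w z z')
  -- word `X`
  have e25 : (2 : ℝ) ^ 25 * σ ^ (2 / 5 : ℝ) * V ≤ (64 * σ ^ (1 / 10 : ℝ)) ^ 4 * (10 * V) := by
    have e : (σ ^ (1 / 10 : ℝ)) ^ 4 = σ ^ (2 / 5 : ℝ) := by
      rw [← Real.rpow_natCast, ← Real.rpow_mul hσ.le]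
      norm_num
    rw [mul_pow, e]
    have : 0 < σ ^ (2 / 5 : ℝ) * V := mul_pos (Real.rpow_pos_of_pos hσ _) hV
    nlinarith
  have wX := hX bb hbb R J hR.reg j e T g F X (10 * V) (64 * σ ^ (1 / 10 : ℝ)) (4 * σ ^ (-(2 / k + 1)))
    (σ ^ (-(2 / k))) σ (by positivity)
    (by have := Real.rpow_pos_of_pos hσ (1 / 10 : ℝ); positivity)
    (by
      have h1 : σ ^ (1 / 10 : ℝ) ≤ (1 / 2 ^ 60 : ℝ) ^ (1 / 10 : ℝ) :=
        Real.rpow_le_rpow hσ.le hσs (by norm_num)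
      have h2 : (1 / 2 ^ 60 : ℝ) ^ (1 / 10 : ℝ) = 1 / 64 := by
        have : (1 / 2 ^ 60 : ℝ) = (1 / 64) ^ (10 : ℕ) := by norm_num
        rw [this, ← Real.rpow_natCast, ← Real.rpow_mul (by norm_num)]
        norm_num
      rw [h2] at h1
      linarith)
    (by
      have := one_le_neg hσ hσ1 (show (0 : ℝ) ≤ 2 / k + 1 by positivity)
      linarith)
    (by
      have := one_le_neg hσ hσ1 (show (0 : ℝ) ≤ 2 / k by positivity)
      exact this) hσ hgf hgg (hn1.trans (by linarith)) (hn2.trans (by linarith)) hFa2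
    (fun p hp => tall_energy hk hσ (hFa p hp)) hFb2
    (fun κ => s2w_mono (s2w_of_XR (M := V) (A := 1) (V := V) (σ := σ) (θ := σ ^ 3) (η := σ ^ 3)
      s0 zero_le_one (by rw [mul_one]) hc0 hG1 hXR) (by nlinarith))
    (fun κ => s4w_mono (s4w_of_XR' (M := V) s0 s1 s2 hσ hσ1 (by positivity) le_rfl le_rfl hV.le
      le_rfl hge hc0 hG hXR) e25)
    (fun w z hz z' hz' hy => by
      have h1 := height_of_XR hXR hR.top (Hc := σ ^ (-(2 / k))) (fun x _ x' _ y _ => by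
        calc ‖g e x x'‖ * ‖G y‖ ≤ 1 * σ ^ (-(2 / k)) :=
              mul_le_mul (hge x x') (hGh y) (norm_nonneg _) zero_le_one
          _ = _ := one_mul _) w hz hz' hy
      refine h1.trans ?_
      have h2 : σ ^ (-(2 / k + 1)) = σ ^ (-(2 / k)) * (1 / σ) := by
        rw [show -(2 / k + 1) = -(2 / k) + (-1 : ℝ) by ring, Real.rpow_add hσ,
          Real.rpow_neg_one, one_div]
      have h3 : 1 ≤ σ ^ (-(2 / k)) := one_le_neg hσ hσ1 (by positivity)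
      have h4 : 1 ≤ 1 / σ := by rw [le_div_iff₀ hσ]; linarith
      rw [h2]
      have e5 : 3 / σ = 3 * (1 / σ) := by ring
      rw [e5]
      nlinarith)
  have nE := num_E hσ hσ1
  have nX := num_Xe hσ hσ1 hk
  rw [← hlJ] at wE wX
  have hl : 0 < len J := Growth.len_pos J
  have hk1 : (0 : ℝ) < 1 / k := by positivity
  have f1 : K1 * (3 * σ ^ (3 / 2 : ℝ) * (1 + Real.log (2 / σ / (3 * σ ^ (3 / 2 : ℝ)))) * len J * V) ≤
      153 * K1 * (1 + 1 / k) * σ ^ (1 / 20 : ℝ) * V * len J := by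
    have h1 : K1 * (3 * σ ^ (3 / 2 : ℝ) * (1 + Real.log (2 / σ / (3 * σ ^ (3 / 2 : ℝ)))) * len J * V)
        ≤ K1 * (153 * σ ^ (1 / 20 : ℝ) * len J * V) := by
      refine mul_le_mul_of_nonneg_left ?_ hK1
      exact mul_le_mul_of_nonneg_right (mul_le_mul_of_nonneg_right nE hl.le) hV.le
    refine h1.trans ?_
    have h2 : 0 ≤ K1 * (153 * σ ^ (1 / 20 : ℝ) * len J * V) * (1 / k) := by positivity
    calc _ ≤ K1 * (153 * σ ^ (1 / 20 : ℝ) * len J * V) +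
          K1 * (153 * σ ^ (1 / 20 : ℝ) * len J * V) * (1 / k) := by linarith
      _ = _ := by ring
  have f2 : K2 * ((64 * σ ^ (1 / 10 : ℝ) *
      (1 + Real.log (σ ^ (-(2 / k)) / (64 * σ ^ (1 / 10 : ℝ)) ^ 2)) +
      σ * (1 + Real.log (4 * σ ^ (-(2 / k + 1))))) * len J * (10 * V)) ≤
      51200 * K2 * (1 + 1 / k) * σ ^ (1 / 20 : ℝ) * V * len J := by
    have h1 : K2 * ((64 * σ ^ (1 / 10 : ℝ) *
      (1 + Real.log (σ ^ (-(2 / k)) / (64 * σ ^ (1 / 10 : ℝ)) ^ 2)) +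
      σ * (1 + Real.log (4 * σ ^ (-(2 / k + 1))))) * len J * (10 * V)) ≤
      K2 * ((5120 * (1 + 1 / k) * σ ^ (1 / 20 : ℝ)) * len J * (10 * V)) := by
      refine mul_le_mul_of_nonneg_left ?_ hK2
      exact mul_le_mul_of_nonneg_right (mul_le_mul_of_nonneg_right nX hl.le) (by positivity)
    refine h1.trans (le_of_eq ?_)
    ring
  calc _ ≤ _ := add_le_add (wE.trans f1) (wX.trans f2)
    _ = _ := by ring

end Crest.Agent.R079.CoEx255
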