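import Crest.Agent.R079.HErC_702

/-! R079, Step II (helper702): GENERAL EDGE `e` of the frozen slot `j`: hypothesis `herr` of
`Wr408.wr_total`, free slots `a = j.succAbove e`, `b = j.succAbove (e + 1)`, static slot
`m = j.succAbove (e + 2)`. -/

set_option autoImplicit false
set_option linter.unusedVariables false

namespace Crest.Agent.R079.HErC702

open Finset Crest.Agent.R079.Grid Crest.Agent.R079.Pot Crest.Agent.R079.Glue Crest.Agent.R079.R244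
  Crest.Agent.R079.F24 Crest.Agent.R079.EWG990 Crest.Agent.R079.LK990
  Crest.Agent.R079.EW5702 Crest.Agent.R079.Growth Crest.Agent.R079.Tr230 Crest.Agent.R079.CC702
open Crest.Agent.R079.Wb71 (LK Xs mem_Xs)
open Crest.Agent.R079.F2 Crest.Agent.R079.QRed
open Crest.Agent.R079.XR112 (at' E2T)
open Crest.Agent.R079.HEr702 (tm tm_at kE kE_nonneg Pn_near mem_iv_div LK_add)

/-- the error kernel of the edge `e` -/
noncomputable def PKe (j : Fin 4) (e : Fin 3) (T : Fin 3 → Finset ℤ) (g : Fin 3 → ℤ → ℤ → ℂ)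
    (E : ℤ → ℤ → ℤ → ℂ) (r : ℤ) (κ : ℝ) (x z : ℤ) : ℂ :=
  (κ : ℂ) * Per j T (PhiW (upk g e E)) (cf j e * x + cf j (e + 1) * z) (r + x + z)

theorem PKe_eq (j : Fin 4) (e : Fin 3) (T : Fin 3 → Finset ℤ) (g : Fin 3 → ℤ → ℤ → ℂ)
    (E : ℤ → ℤ → ℤ → ℂ) (r : ℤ) (κ : ℝ) (x z : ℤ) :
    PKe j e T g E r κ x z = PKC (rot e (cf j)) (rot e T) (rot e g) E r κ x z := by
  unfold PKe PKC
  rw [per_eq, per_rot (cf j) e T, rot_upk]
  rfl

theorem PKe_fun (j : Fin 4) (e : Fin 3) (T : Fin 3 → Finset ℤ) (g : Fin 3 → ℤ → ℤ → ℂ)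
    (E : ℤ → ℤ → ℤ → ℂ) (r : ℤ) (κ : ℝ) :
    PKe j e T g E r κ = PKC (rot e (cf j)) (rot e T) (rot e g) E r κ := by
  funext x z; exact PKe_eq j e T g E r κ x z

lemma dst_je (j : Fin 4) (e : Fin 3) :
    Dst (j.succAbove (e + 2)) j (j.succAbove e) (j.succAbove (e + 1)) := by
  revert j e; decide

lemma dst_ie (j : Fin 4) (e : Fin 3) :
    Dst j (j.succAbove (e + 2)) (j.succAbove e) (j.succAbove (e + 1)) := by
  revert j e; decide

lemma PerC_mul_congr (cc : Fin 3 → ℤ) (T : Fin 3 → Finset ℤ) (Φ Φ' : ℤ → ℤ → ℤ → ℤ → ℂ) (y s : ℤ)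
    (c c' : ℂ) (h : ∀ z0 ∈ T 0, ∀ z1 ∈ T 1, ∀ z2 ∈ T 2,
      cc 0 * z0 + cc 1 * z1 + cc 2 * z2 = y →
      Φ (s - z0 - z1 - z2) z0 z1 z2 * c = Φ' (s - z0 - z1 - z2) z0 z1 z2 * c') :
    PerC cc T Φ y s * c = PerC cc T Φ' y s * c' := by
  unfold PerC
  simp only [Finset.sum_mul]
  refine Finset.sum_congr rfl fun z0 h0 => Finset.sum_congr rfl fun z1 h1 =>
    Finset.sum_congr rfl fun z2 h2 => ?_
  split_ifs with hc
  · exact h z0 h0 z1 h1 z2 h2 hc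
  · simp

/-- the error kernel restricted to one node -/
theorem PKC_at {cc : Fin 3 → ℤ} {α γ δ : ℤ} (h0' : cc 0 = γ - α) (h1' : cc 1 = δ - α)
    (h2' : cc 2 = -α) (T : Fin 3 → Finset ℤ) (g : Fin 3 → ℤ → ℤ → ℂ) (E : ℤ → ℤ → ℤ → ℂ) (r : ℤ)
    (κ : ℝ) (p : Nd) (x z Y : ℤ) (hY : α * (r + x + z) + (cc 0 * x + cc 1 * z) = Y)
    [Decidable (Y ∈ iv p)] :
    PKC cc T g (at' α γ δ (T 0) (T 1) E p) r κ x z =
    if Y ∈ iv p then PKC cc T g E r κ x z else 0 := by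
  classical
  have h := PerC_mul_congr cc T (PhiW (upk g 0 (at' α γ δ (T 0) (T 1) E p))) (PhiW (upk g 0 E))
    (cc 0 * x + cc 1 * z) (r + x + z) 1 (if Y ∈ iv p then 1 else 0) (by
      intro z0 h0 z1 h1 z2 h2 hc
      rw [PhiW_zero, PhiW_zero]
      have e : α * (r + x + z - z0 - z1 - z2) + γ * z0 + δ * z1 = Y := by
        rw [← hY]
        have e1 : γ = cc 0 + α := by rw [h0']; ring
        have e2 : δ = cc 1 + α := by rw [h1']; ring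
        rw [e1, e2]
        rw [h2'] at hc
        linear_combination hc
      unfold XR112.at' cK
      rw [if_pos ⟨h0, h1⟩, e]
      unfold res
      by_cases hm : Y ∈ iv p
      · have hm' : Y ∈ dI (p.1 + 7) p.2 := hm
        rw [if_pos hm, if_pos hm']; ring
      · have hm' : ¬ Y ∈ dI (p.1 + 7) p.2 := hm
        rw [if_neg hm, if_neg hm']; ring)
  unfold PKC
  rw [mul_one] at h
  rw [h]
  by_cases hm : Y ∈ iv p
  · rw [if_pos hm, if_pos hm, mul_one]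
  · rw [if_neg hm, if_neg hm, mul_zero, mul_zero]

/-- the error kernel of the edge `e` restricted to one node -/
theorem PKe_at (j : Fin 4) (e : Fin 3) (T : Fin 3 → Finset ℤ) (g : Fin 3 → ℤ → ℤ → ℂ)
    (E : ℤ → ℤ → ℤ → ℂ) (r : ℤ) (κ : ℝ) (p : Nd) (x z : ℤ)
    [Decidable ((sl j * r + sl (j.succAbove e) * x +
      sl (j.succAbove (e + 1)) * z) - sl (j.succAbove (e + 2)) * (r + x + z) ∈ iv p)] :
    PKe j e T g (at' (sl j - sl (j.succAbove (e + 2))) (sl (j.succAbove e) - sl (j.succAbove (e + 2)))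
      (sl (j.succAbove (e + 1)) - sl (j.succAbove (e + 2))) (T e) (T (e + 1)) E p) r κ x z =
    if (sl j * r + sl (j.succAbove e) * x + sl (j.succAbove (e + 1)) * z) -
      sl (j.succAbove (e + 2)) * (r + x + z) ∈ iv p then PKe j e T g E r κ x z else 0 := by
  rw [PKe_eq, PKe_eq]
  refine PKC_at (α := sl j - sl (j.succAbove (e + 2)))
    (γ := sl (j.succAbove e) - sl (j.succAbove (e + 2)))
    (δ := sl (j.succAbove (e + 1)) - sl (j.succAbove (e + 2))) ?_ ?_ ?_ (rot e T) (rot e g) E r κ p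
    x z _ ?_
  · rw [rot_zero]; unfold cf; ring
  · rw [rot_one]; unfold cf; ring
  · rw [rot_two]; unfold cf; ring
  · rw [rot_zero, rot_one]; unfold cf; ring

/-- one node, edge `e`, error `E` -/
theorem LK_Ee (j : Fin 4) (e : Fin 3) (T : Fin 3 → Finset ℤ) (g : Fin 3 → ℤ → ℤ → ℂ) {κ : ℝ}
    (hκ : 0 ≤ κ) (hg2 : ∀ z z', ‖g (e + 2) z z'‖ ≤ 1) {M B' BE : ℝ} (hM0 : 0 ≤ M) (hB : 0 ≤ B')
    (h1 : κ * ∑ z ∈ T (e + 1), ∑ z' ∈ T (e + 2), ‖g (e + 1) z z'‖ ^ 2 ≤ M) (hBE : 0 ≤ BE)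
    {E : ℤ → ℤ → ℤ → ℂ} (α γ δ : ℤ) (p p' : Nd)
    (hE : ∀ R : Finset (ℤ × ℤ × ℤ),
      ∑ t ∈ R, ‖at' α γ δ (T e) (T (e + 1)) E p' t.1 t.2.1 t.2.2‖ ^ 2 ≤ BE) (r : ℤ)
    (c' d' c d : ℤ) (β : ℤ → ℂ)
    (hy : ∀ q : ℤ, ∑ u ∈ range (2 ^ p.1), ‖β (q + (u : ℤ))‖ ^ 2 ≤ B' * len p) :
    LK c' d' c d (PKe j e T g (at' α γ δ (T e) (T (e + 1)) E p') r κ) β p ≤
      128 * B' * (M * (κ * BE)) := by
  rw [PKe_fun]
  have hg2' : ∀ z z', ‖rot e g 2 z z'‖ ≤ 1 := by rw [rot_two]; exact hg2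
  have h1' : κ * ∑ z ∈ rot e T 1, ∑ z' ∈ rot e T 2, ‖rot e g 1 z z'‖ ^ 2 ≤ M := by
    rw [rot_one, rot_one, rot_two]; exact h1
  have h3 := tm_at (rot e T) E α γ δ p'
  rw [rot_zero, rot_one] at h3
  have hE' : ∀ R : Finset (ℤ × ℤ × ℤ), ∑ t ∈ R, ‖tm (rot e T)
      (at' α γ δ (T e) (T (e + 1)) E p') t.1 t.2.1 t.2.2‖ ^ 2 ≤ BE := by
    rw [h3]; exact hE
  exact LK_E (cc := rot e (cf j)) (T := rot e T) (g := rot e g) (rot_cf_ne j e 0)
    (rot_cf_inj j e).2.2 hκ hg2' hM0 hB h1' hBE hE' c' d' c d β p hy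

/-- one node, edge `e`, error `X` -/
theorem LK_Xe (j : Fin 4) (e : Fin 3) (T : Fin 3 → Finset ℤ) (g : Fin 3 → ℤ → ℤ → ℂ) {κ : ℝ}
    (hκ : 0 ≤ κ) (hg2 : ∀ z z', ‖g (e + 2) z z'‖ ≤ 1) {M B' V σ : ℝ} (hM0 : 0 ≤ M) (hB : 0 ≤ B')
    (hV : 0 ≤ V) (hσ : 0 ≤ σ)
    (h1 : κ * ∑ z ∈ T (e + 1), ∑ z' ∈ T (e + 2), ‖g (e + 1) z z'‖ ^ 2 ≤ M)
    (h2 : κ * ∑ z ∈ T (e + 2), ∑ z' ∈ T e, ‖g (e + 2) z z'‖ ^ 2 ≤ M)
    {X : ℤ → ℤ → ℤ → ℂ} (α γ δ : ℤ) (p p' : Nd)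
    (hX : ∀ R : Finset (ℤ × ℤ × ℤ),
      ∑ t ∈ R, e4 (at' α γ δ (T e) (T (e + 1)) X p' t.1) (2 ^ p.1) t.2.1 t.2.2 ≤
        σ * (len p * V)) (r : ℤ) (c' c : ℤ) (d' : ℤ) {d : ℤ} (hd : d ≠ 0) (β : ℤ → ℂ)
    (hy : ∀ q : ℤ, ∑ u ∈ range (2 ^ p.1), ‖β (q + (u : ℤ))‖ ^ 2 ≤ B' * len p) :
    LK c' d' c d (PKe j e T g (at' α γ δ (T e) (T (e + 1)) X p') r κ) β p ≤
      256 * B' * (M * Real.sqrt (M * (κ * V) * σ)) * len p := by
  rw [PKe_fun]
  have hg2' : ∀ z z', ‖rot e g 2 z z'‖ ≤ 1 := by rw [rot_two]; exact hg2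
  have h1' : κ * ∑ z ∈ rot e T 1, ∑ z' ∈ rot e T 2, ‖rot e g 1 z z'‖ ^ 2 ≤ M := by
    rw [rot_one, rot_one, rot_two]; exact h1
  have h2' : κ * ∑ z ∈ rot e T 2, ∑ z' ∈ rot e T 0, ‖rot e g 2 z z'‖ ^ 2 ≤ M := by
    rw [rot_two, rot_two, rot_zero]; exact h2
  have h3 := tm_at (rot e T) X α γ δ p'
  rw [rot_zero, rot_one] at h3
  have hX' : ∀ R : Finset (ℤ × ℤ × ℤ), ∑ t ∈ R, e4 (tm (rot e T)
      (at' α γ δ (T e) (T (e + 1)) X p') t.1) (2 ^ p.1) t.2.1 t.2.2 ≤ σ * (len p * V) := by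
    rw [h3]; exact hX
  exact LK_X (cc := rot e (cf j)) (T := rot e T) (g := rot e g) (rot_cf_ne j e 0)
    (rot_cf_ne j e 1) (rot_cf_inj j e).2.2 hκ hg2' hM0 hB hV hσ h1' h2' p hX' c' c d' hd β hy

/-- **LEAF QUANTITY OF `E`**, sum over the nodes of the static slot -/
theorem LK_E11 (j : Fin 4) (e : Fin 3) (T : Fin 3 → Finset ℤ) (g : Fin 3 → ℤ → ℤ → ℂ) {κ : ℝ} (hκ : 0 ≤ κ)
    (hg2 : ∀ z z', ‖g (e + 2) z z'‖ ≤ 1) {M B' BE : ℝ} (hM0 : 0 ≤ M) (hB : 0 ≤ B')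
    (h1 : κ * ∑ z ∈ T (e + 1), ∑ z' ∈ T (e + 2), ‖g (e + 1) z z'‖ ^ 2 ≤ M) (hBE : 0 ≤ BE) {E : ℤ → ℤ → ℤ → ℂ}
    (p : Nd) (hE : ∀ l, p.2 - 5 ≤ l → l ≤ p.2 + 5 → ∀ R : Finset (ℤ × ℤ × ℤ),
      ∑ t ∈ R, ‖at' (sl j - sl (j.succAbove (e + 2))) (sl (j.succAbove e) - sl (j.succAbove (e + 2)))
        (sl (j.succAbove (e + 1)) - sl (j.succAbove (e + 2))) (T e) (T (e + 1)) E (p.1, l) t.1 t.2.1 t.2.2‖ ^ 2 ≤
        BE * len p) (r : ℤ) (β : ℤ → ℂ)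
    (hy : ∀ q : ℤ, ∑ u ∈ range (2 ^ p.1), ‖β (q + (u : ℤ))‖ ^ 2 ≤ B' * len p) :
    LK ((sl j - sl (j.succAbove (e + 1))) * r) (-dd (j.succAbove e) (j.succAbove (e + 1)))
      ((sl j - sl (j.succAbove e)) * r) (dd (j.succAbove e) (j.succAbove (e + 1)))
      (PKe j e T g E r κ) β p ≤ 11 ^ 2 * (128 * B' * (M * (κ * BE))) * len p := by
  classical
  have hD := dst_je j e
  obtain ⟨hd1, hd3⟩ := LfK71.dd_natAbs _ _ _ _ hD
  have hd : dd (j.succAbove e) (j.succAbove (e + 1)) ≠ 0 := by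
    intro h0; rw [h0] at hd1; simp at hd1
  have hd' : -dd (j.succAbove e) (j.succAbove (e + 1)) ≠ 0 := neg_ne_zero.2 hd
  have hlp : 0 < len p := Qe292.len_pos p
  set S : Finset ℤ := Finset.Icc (p.2 - 5) (p.2 + 5) with hS
  have hc : (S.card : ℝ) = 11 := by
    rw [hS, Int.card_Icc]
    have : (p.2 + 5 + 1 - (p.2 - 5)).toNat = 11 := by
      rw [show p.2 + 5 + 1 - (p.2 - 5) = 11 by ring]; rfl
    rw [this]; norm_num
  rw [LfK71.LK_congr _ _ _ _ (PKe j e T g E r κ) (fun x z => ∑ l ∈ S,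
    PKe j e T g (at' (sl j - sl (j.succAbove (e + 2))) (sl (j.succAbove e) - sl (j.succAbove (e + 2)))
      (sl (j.succAbove (e + 1)) - sl (j.succAbove (e + 2))) (T e) (T (e + 1)) E (p.1, l)) r κ x z) β p ?_]
  · refine (LfK71.LK_sum S _ _ _ _ (fun l => PKe j e T g (at' (sl j - sl (j.succAbove (e + 2)))
      (sl (j.succAbove e) - sl (j.succAbove (e + 2))) (sl (j.succAbove (e + 1)) - sl (j.succAbove (e + 2)))
      (T e) (T (e + 1)) E (p.1, l)) r κ) β p).trans ?_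
    have h2 : ∀ l ∈ S, LK ((sl j - sl (j.succAbove (e + 1))) * r) (-dd (j.succAbove e) (j.succAbove (e + 1)))
      ((sl j - sl (j.succAbove e)) * r) (dd (j.succAbove e) (j.succAbove (e + 1)))
      (PKe j e T g (at' (sl j - sl (j.succAbove (e + 2))) (sl (j.succAbove e) - sl (j.succAbove (e + 2)))
      (sl (j.succAbove (e + 1)) - sl (j.succAbove (e + 2))) (T e) (T (e + 1)) E (p.1, l)) r κ) β p ≤
        128 * B' * (M * (κ * (BE * len p))) := by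
      intro l hl
      have hl' := Finset.mem_Icc.1 hl
      exact LK_Ee j e T g hκ hg2 hM0 hB h1 (by positivity) _ _ _ p _ (hE l hl'.1 hl'.2) r
        _ _ _ _ β hy
    refine (mul_le_mul_of_nonneg_left (Finset.sum_le_sum h2) (by positivity)).trans (le_of_eq ?_)
    rw [Finset.sum_const, nsmul_eq_mul, hc]
    ring
  · intro q hq u hu z hz
    have hq' := (mem_Xs hd').1 hq
    have hz' := (mem_Xs hd).1 hz
    have hn := LfK71.slot_near (i := j) hD p r q z u hu hq' hz'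
    simp only [PKe_at]
    rw [Finset.sum_eq_single_of_mem _ hn]
    · rw [if_pos (mem_iv_div.2 rfl)]
    · intro l _ hl
      rw [if_neg]
      intro hm
      exact hl (mem_iv_div.1 hm).symm

/-- **LEAF QUANTITY OF `X`**, sum over the nodes of the static slot -/
theorem LK_X11 (j : Fin 4) (e : Fin 3) (T : Fin 3 → Finset ℤ) (g : Fin 3 → ℤ → ℤ → ℂ) {κ : ℝ} (hκ : 0 ≤ κ)
    (hg2 : ∀ z z', ‖g (e + 2) z z'‖ ≤ 1) {M B' V σ : ℝ} (hM0 : 0 ≤ M) (hB : 0 ≤ B') (hV : 0 ≤ V)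
    (hσ : 0 ≤ σ) (h1 : κ * ∑ z ∈ T (e + 1), ∑ z' ∈ T (e + 2), ‖g (e + 1) z z'‖ ^ 2 ≤ M)
    (h2 : κ * ∑ z ∈ T (e + 2), ∑ z' ∈ T e, ‖g (e + 2) z z'‖ ^ 2 ≤ M) {X : ℤ → ℤ → ℤ → ℂ}
    (p : Nd) (hX : ∀ l, p.2 - 5 ≤ l → l ≤ p.2 + 5 → ∀ R : Finset (ℤ × ℤ × ℤ),
      ∑ t ∈ R, e4 (at' (sl j - sl (j.succAbove (e + 2))) (sl (j.succAbove e) - sl (j.succAbove (e + 2)))
        (sl (j.succAbove (e + 1)) - sl (j.succAbove (e + 2))) (T e) (T (e + 1)) X (p.1, l) t.1) (2 ^ p.1)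
        t.2.1 t.2.2 ≤ σ * (len p * V)) (r : ℤ) (β : ℤ → ℂ)
    (hy : ∀ q : ℤ, ∑ u ∈ range (2 ^ p.1), ‖β (q + (u : ℤ))‖ ^ 2 ≤ B' * len p) :
    LK ((sl j - sl (j.succAbove (e + 1))) * r) (-dd (j.succAbove e) (j.succAbove (e + 1)))
      ((sl j - sl (j.succAbove e)) * r) (dd (j.succAbove e) (j.succAbove (e + 1)))
      (PKe j e T g X r κ) β p ≤
      11 ^ 2 * (256 * B' * (M * Real.sqrt (M * (κ * V) * σ))) * len p := by
  classical
  have hD := dst_je j e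
  obtain ⟨hd1, hd3⟩ := LfK71.dd_natAbs _ _ _ _ hD
  have hd : dd (j.succAbove e) (j.succAbove (e + 1)) ≠ 0 := by
    intro h0; rw [h0] at hd1; simp at hd1
  have hd' : -dd (j.succAbove e) (j.succAbove (e + 1)) ≠ 0 := neg_ne_zero.2 hd
  have hlp : 0 < len p := Qe292.len_pos p
  set S : Finset ℤ := Finset.Icc (p.2 - 5) (p.2 + 5) with hS
  have hc : (S.card : ℝ) = 11 := by
    rw [hS, Int.card_Icc]
    have : (p.2 + 5 + 1 - (p.2 - 5)).toNat = 11 := by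
      rw [show p.2 + 5 + 1 - (p.2 - 5) = 11 by ring]; rfl
    rw [this]; norm_num
  rw [LfK71.LK_congr _ _ _ _ (PKe j e T g X r κ) (fun x z => ∑ l ∈ S,
    PKe j e T g (at' (sl j - sl (j.succAbove (e + 2))) (sl (j.succAbove e) - sl (j.succAbove (e + 2)))
      (sl (j.succAbove (e + 1)) - sl (j.succAbove (e + 2))) (T e) (T (e + 1)) X (p.1, l)) r κ x z) β p ?_]
  · refine (LfK71.LK_sum S _ _ _ _ (fun l => PKe j e T g (at' (sl j - sl (j.succAbove (e + 2)))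
      (sl (j.succAbove e) - sl (j.succAbove (e + 2))) (sl (j.succAbove (e + 1)) - sl (j.succAbove (e + 2)))
      (T e) (T (e + 1)) X (p.1, l)) r κ) β p).trans ?_
    have h2 : ∀ l ∈ S, LK ((sl j - sl (j.succAbove (e + 1))) * r) (-dd (j.succAbove e) (j.succAbove (e + 1)))
      ((sl j - sl (j.succAbove e)) * r) (dd (j.succAbove e) (j.succAbove (e + 1)))
      (PKe j e T g (at' (sl j - sl (j.succAbove (e + 2))) (sl (j.succAbove e) - sl (j.succAbove (e + 2)))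
      (sl (j.succAbove (e + 1)) - sl (j.succAbove (e + 2))) (T e) (T (e + 1)) X (p.1, l)) r κ) β p ≤
        256 * B' * (M * Real.sqrt (M * (κ * V) * σ)) * len p := by
      intro l hl
      have hl' := Finset.mem_Icc.1 hl
      exact LK_Xe j e T g hκ hg2 hM0 hB hV hσ h1 h2 _ _ _ p _ (hX l hl'.1 hl'.2) r
        _ _ _ hd β hy
    refine (mul_le_mul_of_nonneg_left (Finset.sum_le_sum h2) (by positivity)).trans (le_of_eq ?_)
    rw [Finset.sum_const, nsmul_eq_mul, hc]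
    ring
  · intro q hq u hu z hz
    have hq' := (mem_Xs hd').1 hq
    have hz' := (mem_Xs hd).1 hz
    have hn := LfK71.slot_near (i := j) hD p r q z u hu hq' hz'
    simp only [PKe_at]
    rw [Finset.sum_eq_single_of_mem _ hn]
    · rw [if_pos (mem_iv_div.2 rfl)]
    · intro l _ hl
      rw [if_neg]
      intro hm
      exact hl (mem_iv_div.1 hm).symm

/-- **HYPOTHESIS `herr` OF `Wr408.wr_total`** (frozen slot `j`, static slot `j.succAbove (e + 2)`, free slots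
`a = j.succAbove e`, `b = j.succAbove (e + 1)`; `K` = any kernel equal to the sum of the two periodised error
kernels at the points whose four shadows lie in `iv I`). -/
theorem herr_val (j : Fin 4) (e : Fin 3) (T : Fin 3 → Finset ℤ) (g : Fin 3 → ℤ → ℤ → ℂ) {κ : ℝ} (hκ : 0 ≤ κ)
    (hg2 : ∀ z z', ‖g (e + 2) z z'‖ ≤ 1) {M V BE σ B : ℝ} (hM0 : 0 ≤ M) (hV : 0 ≤ V) (hBE : 0 ≤ BE)
    (hσ : 0 ≤ σ) (hB0 : 0 ≤ B)
    (h1 : κ * ∑ z ∈ T (e + 1), ∑ z' ∈ T (e + 2), ‖g (e + 1) z z'‖ ^ 2 ≤ M)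
    (h2 : κ * ∑ z ∈ T (e + 2), ∑ z' ∈ T e, ‖g (e + 2) z z'‖ ^ 2 ≤ M)
    {W : Finset Nd} {I : Nd} (hW : Full W I) (C : ℕ) (hC : 7 ≤ C) (r : ℤ) (f F : ℤ → ℂ)
    (hf : ∀ z, ‖f z‖ ≤ ‖F ((sl j - sl (j.succAbove (e + 1))) * r +
      -dd (j.succAbove e) (j.succAbove (e + 1)) * z)‖)
    (hB : ∀ p ∈ W, ∑ y ∈ iv p, ‖F y‖ ^ 2 ≤ B * len p) {E X : ℤ → ℤ → ℤ → ℂ}
    (hE : E2T W (sl j - sl (j.succAbove (e + 2))) (sl (j.succAbove e) - sl (j.succAbove (e + 2)))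
      (sl (j.succAbove (e + 1)) - sl (j.succAbove (e + 2))) (T e) (T (e + 1)) BE E) {κ' : ℕ}
    (hX : EW49.S4W W κ' V σ (sl j - sl (j.succAbove (e + 2))) (sl (j.succAbove e) - sl (j.succAbove (e + 2)))
      (sl (j.succAbove (e + 1)) - sl (j.succAbove (e + 2))) (T e) (T (e + 1)) X (fun _ => 1))
    (K : ℤ → ℤ → ℂ)
    (hK : ∀ z z' : ℤ,
      (sl j - sl (j.succAbove e)) * r + dd (j.succAbove e) (j.succAbove (e + 1)) * z' ∈ iv I →
      (sl j - sl (j.succAbove (e + 1))) * r + -dd (j.succAbove e) (j.succAbove (e + 1)) * z ∈ iv I →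
      (sl (j.succAbove e) - sl j) * z + (sl (j.succAbove (e + 1)) - sl j) * z' ∈ iv I →
      (sl j - sl (j.succAbove (e + 2))) * r + (sl (j.succAbove e) - sl (j.succAbove (e + 2))) * z +
        (sl (j.succAbove (e + 1)) - sl (j.succAbove (e + 2))) * z' ∈ iv I →
      K z z' = PKe j e T g E r κ z z' + PKe j e T g X r κ z z')
    (k : ℕ) (p : Nd) (hp : p ∈ Wa71.Pn W C ((sl j - sl (j.succAbove (e + 1))) * r)
      (-dd (j.succAbove e) (j.succAbove (e + 1))) k) :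
    LK ((sl j - sl (j.succAbove (e + 1))) * r) (-dd (j.succAbove e) (j.succAbove (e + 1)))
      ((sl j - sl (j.succAbove e)) * r) (dd (j.succAbove e) (j.succAbove (e + 1))) K
      (Wb71.mk W C ((sl j - sl (j.succAbove (e + 1))) * r) (-dd (j.succAbove e) (j.succAbove (e + 1))) f k) p ≤
      kE κ M V BE σ B * len p := by
  classical
  have hD := dst_je j e
  have hD' := dst_ie j e
  obtain ⟨hd1, hd3⟩ := LfK71.dd_natAbs _ _ _ _ hD
  have hd : dd (j.succAbove e) (j.succAbove (e + 1)) ≠ 0 := by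
    intro h0; rw [h0] at hd1; simp at hd1
  have hd' : -dd (j.succAbove e) (j.succAbove (e + 1)) ≠ 0 := neg_ne_zero.2 hd
  have hd3' : |-dd (j.succAbove e) (j.succAbove (e + 1))| ≤ 3 := by
    rw [abs_neg, Int.abs_eq_natAbs]
    exact_mod_cast hd3
  have hd128 : |-dd (j.succAbove e) (j.succAbove (e + 1))| ≤ 128 := by linarith
  have hlp : 0 < len p := Qe292.len_pos p
  have hpk : p.1 = k := (Wa71.mem_Pn.1 hp).2.1
  subst hpk
  have hnear : ∀ l, p.2 - 5 ≤ l → l ≤ p.2 + 5 → ((p.1, l) : Nd) ∈ W :=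
    fun l h3 h4 => Pn_near hW C hC _ hd' hd128 hp h3 h4
  have hsub : ∀ y : ℤ, y / 2 ^ (p.1 + 7) ∈ Finset.Icc (p.2 - 5) (p.2 + 5) → y ∈ iv I := by
    intro y hy
    obtain ⟨h3, h4⟩ := Finset.mem_Icc.1 hy
    exact hW.reg.1 _ (hnear _ h3 h4) (mem_iv_div.2 rfl)
  have hy : ∀ q : ℤ, ∑ u ∈ range (2 ^ p.1), ‖Wb71.mk W C ((sl j - sl (j.succAbove (e + 1))) * r)
      (-dd (j.succAbove e) (j.succAbove (e + 1))) f p.1 (q + (u : ℤ))‖ ^ 2 ≤ (3 * B) * len p :=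
    fun q => LfK71.mk_win W C _ hd' hd128 f F p.1 hf B hB0 hB q
  rw [LfK71.LK_congr _ _ _ _ K (fun x z => PKe j e T g E r κ x z + PKe j e T g X r κ x z) _ p ?_]
  · refine (LK_add _ _ _ _ (PKe j e T g E r κ) (PKe j e T g X r κ) _ p).trans ?_
    have hEe := LK_E11 j e T g hκ hg2 hM0 (by positivity : 0 ≤ 3 * B) h1 hBE p
      (fun l h3 h4 R => hE _ (hnear l h3 h4) R) r _ hy
    have hXx := LK_X11 j e T g hκ hg2 hM0 (by positivity : 0 ≤ 3 * B) hV hσ h1 h2 p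
      (fun l h3 h4 R => hX _ (hnear l h3 h4) 0 (Nat.zero_le _) R) r _ hy
    calc _ ≤ 2 * (11 ^ 2 * (128 * (3 * B) * (M * (κ * BE))) * len p +
          11 ^ 2 * (256 * (3 * B) * (M * Real.sqrt (M * (κ * V) * σ))) * len p) := by
          have := add_le_add hEe hXx
          linarith
      _ = _ := by unfold kE; ring
  · intro q hq u hu z hz
    have hq' := (mem_Xs hd').1 hq
    have hz' := (mem_Xs hd).1 hz
    have n1 := hsub _ (LfK71.slot_near (i := j) hD p r q z u hu hq' hz')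
    have n2 := hsub _ (LfK71.slot_near (i := j) hD' p r q z u hu hq' hz')
    have hL : (0 : ℤ) < 2 ^ (p.1 + 7) := by positivity
    refine hK _ _ (hW.reg.1 p (Wa71.mem_Pn.1 hp).1 hz') ?_ ?_ ?_
    · refine hsub _ ?_
      rw [Ero526.mem_iv'] at hq'
      have hLp : (2 : ℤ) ^ (p.1 + 7) = 128 * 2 ^ p.1 := by ring
      have hU0 := Int.natCast_nonneg u
      have hU1 : (u : ℤ) < 2 ^ p.1 := by exact_mod_cast hu
      have h3 : |-dd (j.succAbove e) (j.succAbove (e + 1)) * (u : ℤ)| ≤ 3 * (u : ℤ) := by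
        rw [abs_mul, abs_of_nonneg hU0]
        exact mul_le_mul_of_nonneg_right hd3' hU0
      rw [abs_le] at h3
      have ee : (sl j - sl (j.succAbove (e + 1))) * r + -dd (j.succAbove e) (j.succAbove (e + 1)) *
          (q + (u : ℤ)) = ((sl j - sl (j.succAbove (e + 1))) * r +
          -dd (j.succAbove e) (j.succAbove (e + 1)) * q) +
          -dd (j.succAbove e) (j.succAbove (e + 1)) * (u : ℤ) := by ring
      rw [ee, Finset.mem_Icc]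
      generalize (sl j - sl (j.succAbove (e + 1))) * r +
          -dd (j.succAbove e) (j.succAbove (e + 1)) * q = Y at hq' ⊢
      generalize -dd (j.succAbove e) (j.succAbove (e + 1)) * (u : ℤ) = D at h3 ⊢
      constructor
      · rw [Int.le_ediv_iff_mul_le hL]; nlinarith
      · have : (Y + D) / 2 ^ (p.1 + 7) < p.2 + 6 := by
          rw [Int.ediv_lt_iff_lt_mul hL]; nlinarith
        linarith
    · refine (congrArg (· ∈ iv I) ?_).mp n2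
      ring
    · refine (congrArg (· ∈ iv I) ?_).mp n1
      ring

end Crest.Agent.R079.HErC702
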