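import Crest.Agent.R079.Plug_429

/-! R079, RuleS assembly, leaf S2 (helper112): NODE FORM of the `S₄`-small error `X` (row / column form,
text of helper988 28605, note 781 (T5)).

At every node `p` of the window: `X = Y + D` on `p`, `Y = C - f_p` (near-minimiser at the node `p`):
level `2σV`, rows and columns of `Y` bounded by those of `C` up to `η V len p`, `D` small in total `ℓ²`. -/

set_option autoImplicit false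
set_option linter.unusedVariables false

namespace Crest.Agent.R079.XR112

open Finset Crest.Agent.R079.Grid Crest.Agent.R079.Growth Crest.Agent.R079.QRed
  Crest.Agent.R079.TWin Crest.Agent.R079.R244 Crest.Agent.R079.F24

/-- the kernel `C` restricted to the node `p` (points with `z ∈ T`, `z' ∈ T'`, shadow in `iv p`) -/
noncomputable def at' (α γ δ : ℤ) (T T' : Finset ℤ) (C : ℤ → ℤ → ℤ → ℂ) (p : Nd)
    (w z z' : ℤ) : ℂ := cK α γ δ T T' (C w) (res p fun _ => 1) w z z'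

/-- what the decomposition gives at ONE node `p` -/
structure XNode (p : Nd) (α γ δ : ℤ) (T T' : Finset ℤ) (C : ℤ → ℤ → ℤ → ℂ) (V σ θ η : ℝ)
    (X Y D : ℤ → ℤ → ℤ → ℂ) : Prop where
  eq : ∀ w z z', at' α γ δ T T' X p w z z' = Y w z z' + D w z z'
  supY : ∀ w z z', Y w z z' ≠ 0 → z ∈ T ∧ z' ∈ T' ∧ α * w + γ * z + δ * z' ∈ iv p
  supD : ∀ w z z', D w z z' ≠ 0 → z ∈ T ∧ z' ∈ T' ∧ α * w + γ * z + δ * z' ∈ iv p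
  hD : ∀ w z z', ‖D w z z'‖ ≤ 2 / σ
  hY : ∀ w z z', ‖at' α γ δ T T' C p w z z' - Y w z z'‖ ≤ 1 / σ
  /-- total energy of `D` -/
  eD : ∀ S : Finset (ℤ × ℤ × ℤ), ∑ t ∈ S, ‖D t.1 t.2.1 t.2.2‖ ^ 2 ≤ 3 * θ * V * len p
  /-- level of `Y` against products -/
  lev : ∀ A : Finset ℤ, XDual988.LevP A (fun _ => (1 : ℝ)) Y T T' (2 * σ * V * len p)
  /-- rows (any finite set of rows `(w, z)`) -/
  rows : ∀ S : Finset (ℤ × ℤ), ∑ r ∈ S, ∑ z' ∈ T', ‖Y r.1 r.2 z'‖ ^ 2 ≤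
    ∑ r ∈ S, ∑ z' ∈ T', ‖at' α γ δ T T' C p r.1 r.2 z'‖ ^ 2 + η * V * len p
  /-- columns (any finite set of columns `(w, z')`) -/
  cols : ∀ S : Finset (ℤ × ℤ), ∑ r ∈ S, ∑ z ∈ T, ‖Y r.1 z r.2‖ ^ 2 ≤
    ∑ r ∈ S, ∑ z ∈ T, ‖at' α γ δ T T' C p r.1 z r.2‖ ^ 2 + η * V * len p

/-- row / column form of `X` on the region `W` -/
def XR (W : Finset Nd) (α γ δ : ℤ) (T T' : Finset ℤ) (C : ℤ → ℤ → ℤ → ℂ) (V σ θ η : ℝ)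
    (X : ℤ → ℤ → ℤ → ℂ) : Prop :=
  ∀ p ∈ W, ∃ Y D : ℤ → ℤ → ℤ → ℂ, XNode p α γ δ T T' C V σ θ η X Y D

/-- total `ℓ²` form of the error `E` -/
def E2T (W : Finset Nd) (α γ δ : ℤ) (T T' : Finset ℤ) (B : ℝ) (E : ℤ → ℤ → ℤ → ℂ) : Prop :=
  ∀ p ∈ W, ∀ S : Finset (ℤ × ℤ × ℤ),
    ∑ t ∈ S, ‖at' α γ δ T T' E p t.1 t.2.1 t.2.2‖ ^ 2 ≤ B * len p

/-- the frozen kernel -/
def Cc (c : ℤ → ℤ → ℂ) (F : ℤ → ℂ) (α γ δ : ℤ) (w z z' : ℤ) : ℂ :=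
  c z z' * F (α * w + γ * z + δ * z')

/-- **LITERAL of leaf S2** (`plug2`): static windows of `c z z' * F (α w + γ z + δ z')`; `V` = any
number with `M A ≤ V`; no height hypothesis; count `2 + 16/θ`, mass `≤ 1/σ`. -/
def Plug2 : Prop :=
  ∀ {R : Finset Nd} {J : Nd}, Full R J → ∀ {α γ δ : ℤ}, α ≠ 0 → γ ≠ 0 → δ ≠ 0 →
    ∀ (T T' : Finset ℤ) (c : ℤ → ℤ → ℂ) (F : ℤ → ℂ) {M A V : ℝ}, 0 ≤ M → 0 ≤ A → 0 < V →
    M * A ≤ V → (∑ q ∈ T ×ˢ T', ‖c q.1 q.2‖ ^ 2 ≤ M) →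
    (∀ p ∈ R, ∑ y ∈ iv p, ‖F y‖ ^ 2 ≤ A * len p) →
    ∀ {σ θ η : ℝ}, 0 < σ → 0 < θ → 0 < η →
    ∃ (S : Finset Nd) (W : Nd → Finset Nd), Part R S W (2 + 16 / θ) ∧
      ∀ K ∈ S, ∃ (n : ℕ) (u v : Fin n → ℤ → ℤ → ℂ) (d : Fin n → ℂ) (E X : ℤ → ℤ → ℤ → ℂ),
        (∀ j w z, ‖u j w z‖ ≤ 1) ∧ (∀ j w z, ‖v j w z‖ ≤ 1) ∧ ∑ j, ‖d j‖ ≤ 1 / σ ∧
        (∀ w, ∀ z ∈ T, ∀ z' ∈ T', α * w + γ * z + δ * z' ∈ iv K →
          Cc c F α γ δ w z z' = ∑ j, d j * (u j w z * v j w z') + E w z z' + X w z z') ∧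
        (∀ w z z', ‖E w z z'‖ ≤ 2 / σ) ∧
        E2T (W K) α γ δ T T' (9 * θ * V) E ∧
        XR (W K) α γ δ T T' (Cc c F α γ δ) V σ θ η X

end Crest.Agent.R079.XR112
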