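import Crest.Agent.R079.HEr_702
import Crest.Agent.R079.XR_112

/-! R079, Step II (RULE S), leaf S5 of note 781 (helper702): hypothesis `herr` of `Wr408.wr_total` for the
errors `E` (`XR112.E2T`) and `X` (`EW49.S4W`). -/

set_option autoImplicit false
set_option linter.unusedVariables false

namespace Crest.Agent.R079.HEr702

open Finset Crest.Agent.R079.Grid Crest.Agent.R079.Pot Crest.Agent.R079.Glue Crest.Agent.R079.R244
  Crest.Agent.R079.F24 Crest.Agent.R079.EWG990 Crest.Agent.R079.LK990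
  Crest.Agent.R079.EW5702 Crest.Agent.R079.Growth Crest.Agent.R079.Tr230 Crest.Agent.R079.PerT530
open Crest.Agent.R079.Wb71 (LK Xs mem_Xs)
open Crest.Agent.R079.F2 Crest.Agent.R079.QRed
open Crest.Agent.R079.XR112 (at' E2T)

/-! ### the node of the slot `j.succAbove 2` -/

lemma mem_iv_div {p : Nd} {y : ℤ} : y ∈ iv p ↔ y / 2 ^ (p.1 + 7) = p.2 :=
  Crest.Agent.R079.Qh249.mem_iv

/-- the error kernel restricted to one node -/
theorem PK_at (j : Fin 4) (T : Fin 3 → Finset ℤ) (g : Fin 3 → ℤ → ℤ → ℂ) (E : ℤ → ℤ → ℤ → ℂ) (r : ℤ)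
    (κ : ℝ) (p : Nd) (x z : ℤ) [Decidable ((sl j * r + sl (j.succAbove 0) * x +
      sl (j.succAbove 1) * z) - sl (j.succAbove 2) * (r + x + z) ∈ iv p)] :
    PK j T g (at' (sl j - sl (j.succAbove 2)) (sl (j.succAbove 0) - sl (j.succAbove 2))
      (sl (j.succAbove 1) - sl (j.succAbove 2)) (T 0) (T 1) E p) r κ x z =
    if (sl j * r + sl (j.succAbove 0) * x + sl (j.succAbove 1) * z) -
      sl (j.succAbove 2) * (r + x + z) ∈ iv p then PK j T g E r κ x z else 0 := by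
  classical
  have h := Per_mul_congr j T
    (PhiW (upk g 0 (at' (sl j - sl (j.succAbove 2)) (sl (j.succAbove 0) - sl (j.succAbove 2))
      (sl (j.succAbove 1) - sl (j.succAbove 2)) (T 0) (T 1) E p))) (PhiW (upk g 0 E))
    (cf j 0 * x + cf j 1 * z) (r + x + z) 1
    (if (sl j * r + sl (j.succAbove 0) * x + sl (j.succAbove 1) * z) -
      sl (j.succAbove 2) * (r + x + z) ∈ iv p then 1 else 0) (by
      intro z0 h0 z1 h1 z2 h2 hc
      rw [PhiW_zero, PhiW_zero]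
      have e : (sl j - sl (j.succAbove 2)) * (r + x + z - z0 - z1 - z2) +
          (sl (j.succAbove 0) - sl (j.succAbove 2)) * z0 +
          (sl (j.succAbove 1) - sl (j.succAbove 2)) * z1 =
          (sl j * r + sl (j.succAbove 0) * x + sl (j.succAbove 1) * z) -
            sl (j.succAbove 2) * (r + x + z) := by
        unfold cf at hc
        linear_combination hc
      unfold XR112.at' cK
      rw [if_pos ⟨h0, h1⟩, e]
      unfold res
      by_cases hm : (sl j * r + sl (j.succAbove 0) * x + sl (j.succAbove 1) * z) -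
            sl (j.succAbove 2) * (r + x + z) ∈ iv p
      · have hm' : (sl j * r + sl (j.succAbove 0) * x + sl (j.succAbove 1) * z) -
            sl (j.succAbove 2) * (r + x + z) ∈ dI (p.1 + 7) p.2 := hm
        rw [if_pos hm, if_pos hm']; ring
      · have hm' : ¬ (sl j * r + sl (j.succAbove 0) * x + sl (j.succAbove 1) * z) -
            sl (j.succAbove 2) * (r + x + z) ∈ dI (p.1 + 7) p.2 := hm
        rw [if_neg hm, if_neg hm']; ring)
  unfold PK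
  rw [mul_one] at h
  rw [h]
  by_cases hm : (sl j * r + sl (j.succAbove 0) * x + sl (j.succAbove 1) * z) -
        sl (j.succAbove 2) * (r + x + z) ∈ iv p
  · rw [if_pos hm, if_pos hm, mul_one]
  · rw [if_neg hm, if_neg hm, mul_zero, mul_zero]

lemma tm_at (T : Fin 3 → Finset ℤ) (E : ℤ → ℤ → ℤ → ℂ) (α γ δ : ℤ) (p : Nd) :
    tm T (at' α γ δ (T 0) (T 1) E p) = at' α γ δ (T 0) (T 1) E p := by
  funext w z z'
  unfold tm XR112.at' cK
  split_ifs <;> rfl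

lemma dst_j (j : Fin 4) : Dst (j.succAbove 2) j (j.succAbove 0) (j.succAbove 1) := by
  refine ⟨?_, ?_, ?_, ?_, ?_, ?_⟩ <;> fin_cases j <;> decide

lemma dst_i (j : Fin 4) : Dst j (j.succAbove 2) (j.succAbove 0) (j.succAbove 1) := by
  refine ⟨?_, ?_, ?_, ?_, ?_, ?_⟩ <;> fin_cases j <;> decide

/-- **nodes near a paying node are alive** -/
theorem Pn_near {W : Finset Nd} {I : Nd} (hW : Full W I) (C : ℕ) (hC : 7 ≤ C) (c : ℤ) {d : ℤ}
    (hd : d ≠ 0) (hd' : |d| ≤ 128) {k : ℕ} {p : Nd} (hp : p ∈ Wa71.Pn W C c d k) {l : ℤ}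
    (h1 : p.2 - 5 ≤ l) (h2 : l ≤ p.2 + 5) : ((p.1, l) : Nd) ∈ W := by
  obtain ⟨hpW, hpk, q, hq, x, hx1, hx2, hxp⟩ := Wa71.mem_Pn.1 hp
  obtain ⟨_, x0, hx01, hx02, hx03⟩ := (Cmp408.mem_pos hW C c hd k q).1 hq
  have hk : p.1 = k := hpk
  subst hk
  have hL : (0 : ℤ) < 2 ^ (p.1 + 7) := by positivity
  have hxx : |x - x0| ≤ 2 ^ p.1 := by rw [abs_le]; constructor <;> linarith
  have h3 : |(c + d * x) - (c + d * x0)| ≤ 2 ^ (p.1 + 7) := by
    have : (c + d * x) - (c + d * x0) = d * (x - x0) := by ring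
    rw [this, abs_mul]
    calc |d| * |x - x0| ≤ 128 * 2 ^ p.1 := by gcongr
      _ = 2 ^ (p.1 + 7) := by ring
  rw [Ero526.mem_iv'] at hxp
  have hC' : (7 : ℤ) ≤ C := by exact_mod_cast hC
  have hz := hx03 (l * 2 ^ (p.1 + 7)) (by
    have h4 : |l * 2 ^ (p.1 + 7) - (c + d * x)| ≤ 6 * 2 ^ (p.1 + 7) := by
      rw [abs_le]; constructor <;> nlinarith
    have e : l * 2 ^ (p.1 + 7) - (c + d * x0) =
        (l * 2 ^ (p.1 + 7) - (c + d * x)) + ((c + d * x) - (c + d * x0)) := by ring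
    rw [e]
    calc _ ≤ |l * 2 ^ (p.1 + 7) - (c + d * x)| + |(c + d * x) - (c + d * x0)| := abs_add_le _ _
      _ ≤ 6 * 2 ^ (p.1 + 7) + 2 ^ (p.1 + 7) := add_le_add h4 h3
      _ = 7 * 2 ^ (p.1 + 7) := by ring
      _ ≤ C * 2 ^ (p.1 + 7) := by gcongr)
  unfold Ero526.Alv at hz
  rwa [Int.mul_ediv_cancel _ hL.ne'] at hz

/-- **LEAF QUANTITY OF `E`**, sum over the nodes of the static slot -/
theorem LK_E11 (j : Fin 4) (T : Fin 3 → Finset ℤ) (g : Fin 3 → ℤ → ℤ → ℂ) {κ : ℝ} (hκ : 0 ≤ κ)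
    (hg2 : ∀ z z', ‖g 2 z z'‖ ≤ 1) {M B' BE : ℝ} (hM0 : 0 ≤ M) (hB : 0 ≤ B')
    (h1 : κ * ∑ z ∈ T 1, ∑ z' ∈ T 2, ‖g 1 z z'‖ ^ 2 ≤ M) (hBE : 0 ≤ BE) {E : ℤ → ℤ → ℤ → ℂ}
    (p : Nd) (hE : ∀ l, p.2 - 5 ≤ l → l ≤ p.2 + 5 → ∀ R : Finset (ℤ × ℤ × ℤ),
      ∑ t ∈ R, ‖at' (sl j - sl (j.succAbove 2)) (sl (j.succAbove 0) - sl (j.succAbove 2))
        (sl (j.succAbove 1) - sl (j.succAbove 2)) (T 0) (T 1) E (p.1, l) t.1 t.2.1 t.2.2‖ ^ 2 ≤
        BE * len p) (r : ℤ) (β : ℤ → ℂ)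
    (hy : ∀ q : ℤ, ∑ u ∈ range (2 ^ p.1), ‖β (q + (u : ℤ))‖ ^ 2 ≤ B' * len p) :
    LK ((sl j - sl (j.succAbove 1)) * r) (-dd (j.succAbove 0) (j.succAbove 1))
      ((sl j - sl (j.succAbove 0)) * r) (dd (j.succAbove 0) (j.succAbove 1))
      (PK j T g E r κ) β p ≤ 11 ^ 2 * (128 * B' * (M * (κ * BE))) * len p := by
  classical
  have hD := dst_j j
  obtain ⟨hd1, hd3⟩ := LfK71.dd_natAbs _ _ _ _ hD
  have hd : dd (j.succAbove 0) (j.succAbove 1) ≠ 0 := by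
    intro h0; rw [h0] at hd1; simp at hd1
  have hd' : -dd (j.succAbove 0) (j.succAbove 1) ≠ 0 := neg_ne_zero.2 hd
  have hlp : 0 < len p := Qe292.len_pos p
  set S : Finset ℤ := Finset.Icc (p.2 - 5) (p.2 + 5) with hS
  have hc : (S.card : ℝ) = 11 := by
    rw [hS, Int.card_Icc]
    have : (p.2 + 5 + 1 - (p.2 - 5)).toNat = 11 := by
      rw [show p.2 + 5 + 1 - (p.2 - 5) = 11 by ring]; rfl
    rw [this]; norm_num
  rw [LfK71.LK_congr _ _ _ _ (PK j T g E r κ) (fun x z => ∑ l ∈ S,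
    PK j T g (at' (sl j - sl (j.succAbove 2)) (sl (j.succAbove 0) - sl (j.succAbove 2))
      (sl (j.succAbove 1) - sl (j.succAbove 2)) (T 0) (T 1) E (p.1, l)) r κ x z) β p ?_]
  · refine (LfK71.LK_sum S _ _ _ _ (fun l => PK j T g (at' (sl j - sl (j.succAbove 2))
      (sl (j.succAbove 0) - sl (j.succAbove 2)) (sl (j.succAbove 1) - sl (j.succAbove 2))
      (T 0) (T 1) E (p.1, l)) r κ) β p).trans ?_
    have h2 : ∀ l ∈ S, LK ((sl j - sl (j.succAbove 1)) * r) (-dd (j.succAbove 0) (j.succAbove 1))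
      ((sl j - sl (j.succAbove 0)) * r) (dd (j.succAbove 0) (j.succAbove 1))
      (PK j T g (at' (sl j - sl (j.succAbove 2)) (sl (j.succAbove 0) - sl (j.succAbove 2))
      (sl (j.succAbove 1) - sl (j.succAbove 2)) (T 0) (T 1) E (p.1, l)) r κ) β p ≤
        128 * B' * (M * (κ * (BE * len p))) := by
      intro l hl
      have hl' := Finset.mem_Icc.1 hl
      refine LK_E hκ hg2 hM0 hB h1 (by positivity) ?_ _ _ _ _ β p hy
      rw [tm_at]
      exact hE l hl'.1 hl'.2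
    refine (mul_le_mul_of_nonneg_left (Finset.sum_le_sum h2) (by positivity)).trans (le_of_eq ?_)
    rw [Finset.sum_const, nsmul_eq_mul, hc]
    ring
  · intro q hq u hu z hz
    have hq' := (mem_Xs hd').1 hq
    have hz' := (mem_Xs hd).1 hz
    have hn := LfK71.slot_near (i := j) hD p r q z u hu hq' hz'
    simp only [PK_at]
    rw [Finset.sum_eq_single_of_mem _ hn]
    · rw [if_pos (mem_iv_div.2 rfl)]
    · intro l _ hl
      rw [if_neg]
      intro hm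
      exact hl (mem_iv_div.1 hm).symm

/-- **LEAF QUANTITY OF `X`**, sum over the nodes of the static slot -/
theorem LK_X11 (j : Fin 4) (T : Fin 3 → Finset ℤ) (g : Fin 3 → ℤ → ℤ → ℂ) {κ : ℝ} (hκ : 0 ≤ κ)
    (hg2 : ∀ z z', ‖g 2 z z'‖ ≤ 1) {M B' V σ : ℝ} (hM0 : 0 ≤ M) (hB : 0 ≤ B') (hV : 0 ≤ V)
    (hσ : 0 ≤ σ) (h1 : κ * ∑ z ∈ T 1, ∑ z' ∈ T 2, ‖g 1 z z'‖ ^ 2 ≤ M)
    (h2 : κ * ∑ z ∈ T 2, ∑ z' ∈ T 0, ‖g 2 z z'‖ ^ 2 ≤ M) {X : ℤ → ℤ → ℤ → ℂ}
    (p : Nd) (hX : ∀ l, p.2 - 5 ≤ l → l ≤ p.2 + 5 → ∀ R : Finset (ℤ × ℤ × ℤ),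
      ∑ t ∈ R, e4 (at' (sl j - sl (j.succAbove 2)) (sl (j.succAbove 0) - sl (j.succAbove 2))
        (sl (j.succAbove 1) - sl (j.succAbove 2)) (T 0) (T 1) X (p.1, l) t.1) (2 ^ p.1)
        t.2.1 t.2.2 ≤ σ * (len p * V)) (r : ℤ) (β : ℤ → ℂ)
    (hy : ∀ q : ℤ, ∑ u ∈ range (2 ^ p.1), ‖β (q + (u : ℤ))‖ ^ 2 ≤ B' * len p) :
    LK ((sl j - sl (j.succAbove 1)) * r) (-dd (j.succAbove 0) (j.succAbove 1))
      ((sl j - sl (j.succAbove 0)) * r) (dd (j.succAbove 0) (j.succAbove 1))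
      (PK j T g X r κ) β p ≤
      11 ^ 2 * (256 * B' * (M * Real.sqrt (M * (κ * V) * σ))) * len p := by
  classical
  have hD := dst_j j
  obtain ⟨hd1, hd3⟩ := LfK71.dd_natAbs _ _ _ _ hD
  have hd : dd (j.succAbove 0) (j.succAbove 1) ≠ 0 := by
    intro h0; rw [h0] at hd1; simp at hd1
  have hd' : -dd (j.succAbove 0) (j.succAbove 1) ≠ 0 := neg_ne_zero.2 hd
  have hlp : 0 < len p := Qe292.len_pos p
  set S : Finset ℤ := Finset.Icc (p.2 - 5) (p.2 + 5) with hS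
  have hc : (S.card : ℝ) = 11 := by
    rw [hS, Int.card_Icc]
    have : (p.2 + 5 + 1 - (p.2 - 5)).toNat = 11 := by
      rw [show p.2 + 5 + 1 - (p.2 - 5) = 11 by ring]; rfl
    rw [this]; norm_num
  rw [LfK71.LK_congr _ _ _ _ (PK j T g X r κ) (fun x z => ∑ l ∈ S,
    PK j T g (at' (sl j - sl (j.succAbove 2)) (sl (j.succAbove 0) - sl (j.succAbove 2))
      (sl (j.succAbove 1) - sl (j.succAbove 2)) (T 0) (T 1) X (p.1, l)) r κ x z) β p ?_]
  · refine (LfK71.LK_sum S _ _ _ _ (fun l => PK j T g (at' (sl j - sl (j.succAbove 2))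
      (sl (j.succAbove 0) - sl (j.succAbove 2)) (sl (j.succAbove 1) - sl (j.succAbove 2))
      (T 0) (T 1) X (p.1, l)) r κ) β p).trans ?_
    have h2 : ∀ l ∈ S, LK ((sl j - sl (j.succAbove 1)) * r) (-dd (j.succAbove 0) (j.succAbove 1))
      ((sl j - sl (j.succAbove 0)) * r) (dd (j.succAbove 0) (j.succAbove 1))
      (PK j T g (at' (sl j - sl (j.succAbove 2)) (sl (j.succAbove 0) - sl (j.succAbove 2))
      (sl (j.succAbove 1) - sl (j.succAbove 2)) (T 0) (T 1) X (p.1, l)) r κ) β p ≤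
        256 * B' * (M * Real.sqrt (M * (κ * V) * σ)) * len p := by
      intro l hl
      have hl' := Finset.mem_Icc.1 hl
      refine LK_X hκ hg2 hM0 hB hV hσ h1 h2 p ?_ _ _ _ hd β hy
      rw [tm_at]
      exact hX l hl'.1 hl'.2
    refine (mul_le_mul_of_nonneg_left (Finset.sum_le_sum h2) (by positivity)).trans (le_of_eq ?_)
    rw [Finset.sum_const, nsmul_eq_mul, hc]
    ring
  · intro q hq u hu z hz
    have hq' := (mem_Xs hd').1 hq
    have hz' := (mem_Xs hd).1 hz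
    have hn := LfK71.slot_near (i := j) hD p r q z u hu hq' hz'
    simp only [PK_at]
    rw [Finset.sum_eq_single_of_mem _ hn]
    · rw [if_pos (mem_iv_div.2 rfl)]
    · intro l _ hl
      rw [if_neg]
      intro hm
      exact hl (mem_iv_div.1 hm).symm

/-- the leaf value of the two errors -/
noncomputable def kE (κ M V BE σ B : ℝ) : ℝ :=
  92928 * B * M * (κ * BE + 2 * Real.sqrt (M * (κ * V) * σ))

lemma kE_nonneg {κ M V BE σ B : ℝ} (hκ : 0 ≤ κ) (hM0 : 0 ≤ M) (hBE : 0 ≤ BE) (hB : 0 ≤ B) :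
    0 ≤ kE κ M V BE σ B := by
  unfold kE; positivity

/-- **HYPOTHESIS `herr` OF `Wr408.wr_total`** (frozen slot `j`, static slot `j.succAbove 2`, free slots
`a = j.succAbove 0`, `b = j.succAbove 1`; `K` = any kernel equal to the sum of the two periodised error
kernels at the points whose four shadows lie in `iv I`). -/
theorem herr_val (j : Fin 4) (T : Fin 3 → Finset ℤ) (g : Fin 3 → ℤ → ℤ → ℂ) {κ : ℝ} (hκ : 0 ≤ κ)
    (hg2 : ∀ z z', ‖g 2 z z'‖ ≤ 1) {M V BE σ B : ℝ} (hM0 : 0 ≤ M) (hV : 0 ≤ V) (hBE : 0 ≤ BE)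
    (hσ : 0 ≤ σ) (hB0 : 0 ≤ B)
    (h1 : κ * ∑ z ∈ T 1, ∑ z' ∈ T 2, ‖g 1 z z'‖ ^ 2 ≤ M)
    (h2 : κ * ∑ z ∈ T 2, ∑ z' ∈ T 0, ‖g 2 z z'‖ ^ 2 ≤ M)
    {W : Finset Nd} {I : Nd} (hW : Full W I) (C : ℕ) (hC : 7 ≤ C) (r : ℤ) (f F : ℤ → ℂ)
    (hf : ∀ z, ‖f z‖ ≤ ‖F ((sl j - sl (j.succAbove 1)) * r +
      -dd (j.succAbove 0) (j.succAbove 1) * z)‖)
    (hB : ∀ p ∈ W, ∑ y ∈ iv p, ‖F y‖ ^ 2 ≤ B * len p) {E X : ℤ → ℤ → ℤ → ℂ}
    (hE : E2T W (sl j - sl (j.succAbove 2)) (sl (j.succAbove 0) - sl (j.succAbove 2))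
      (sl (j.succAbove 1) - sl (j.succAbove 2)) (T 0) (T 1) BE E) {κ' : ℕ}
    (hX : EW49.S4W W κ' V σ (sl j - sl (j.succAbove 2)) (sl (j.succAbove 0) - sl (j.succAbove 2))
      (sl (j.succAbove 1) - sl (j.succAbove 2)) (T 0) (T 1) X (fun _ => 1))
    (K : ℤ → ℤ → ℂ)
    (hK : ∀ z z' : ℤ,
      (sl j - sl (j.succAbove 0)) * r + dd (j.succAbove 0) (j.succAbove 1) * z' ∈ iv I →
      (sl j - sl (j.succAbove 1)) * r + -dd (j.succAbove 0) (j.succAbove 1) * z ∈ iv I →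
      (sl (j.succAbove 0) - sl j) * z + (sl (j.succAbove 1) - sl j) * z' ∈ iv I →
      (sl j - sl (j.succAbove 2)) * r + (sl (j.succAbove 0) - sl (j.succAbove 2)) * z +
        (sl (j.succAbove 1) - sl (j.succAbove 2)) * z' ∈ iv I →
      K z z' = PK j T g E r κ z z' + PK j T g X r κ z z')
    (k : ℕ) (p : Nd) (hp : p ∈ Wa71.Pn W C ((sl j - sl (j.succAbove 1)) * r)
      (-dd (j.succAbove 0) (j.succAbove 1)) k) :
    LK ((sl j - sl (j.succAbove 1)) * r) (-dd (j.succAbove 0) (j.succAbove 1))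
      ((sl j - sl (j.succAbove 0)) * r) (dd (j.succAbove 0) (j.succAbove 1)) K
      (Wb71.mk W C ((sl j - sl (j.succAbove 1)) * r) (-dd (j.succAbove 0) (j.succAbove 1)) f k) p ≤
      kE κ M V BE σ B * len p := by
  classical
  have hD := dst_j j
  have hD' := dst_i j
  obtain ⟨hd1, hd3⟩ := LfK71.dd_natAbs _ _ _ _ hD
  have hd : dd (j.succAbove 0) (j.succAbove 1) ≠ 0 := by
    intro h0; rw [h0] at hd1; simp at hd1
  have hd' : -dd (j.succAbove 0) (j.succAbove 1) ≠ 0 := neg_ne_zero.2 hd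
  have hd3' : |-dd (j.succAbove 0) (j.succAbove 1)| ≤ 3 := by
    rw [abs_neg, Int.abs_eq_natAbs]
    exact_mod_cast hd3
  have hd128 : |-dd (j.succAbove 0) (j.succAbove 1)| ≤ 128 := by linarith
  have hlp : 0 < len p := Qe292.len_pos p
  have hpk : p.1 = k := (Wa71.mem_Pn.1 hp).2.1
  subst hpk
  have hnear : ∀ l, p.2 - 5 ≤ l → l ≤ p.2 + 5 → ((p.1, l) : Nd) ∈ W :=
    fun l h3 h4 => Pn_near hW C hC _ hd' hd128 hp h3 h4
  have hsub : ∀ y : ℤ, y / 2 ^ (p.1 + 7) ∈ Finset.Icc (p.2 - 5) (p.2 + 5) → y ∈ iv I := by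
    intro y hy
    obtain ⟨h3, h4⟩ := Finset.mem_Icc.1 hy
    exact hW.reg.1 _ (hnear _ h3 h4) (mem_iv_div.2 rfl)
  have hy : ∀ q : ℤ, ∑ u ∈ range (2 ^ p.1), ‖Wb71.mk W C ((sl j - sl (j.succAbove 1)) * r)
      (-dd (j.succAbove 0) (j.succAbove 1)) f p.1 (q + (u : ℤ))‖ ^ 2 ≤ (3 * B) * len p :=
    fun q => LfK71.mk_win W C _ hd' hd128 f F p.1 hf B hB0 hB q
  rw [LfK71.LK_congr _ _ _ _ K (fun x z => PK j T g E r κ x z + PK j T g X r κ x z) _ p ?_]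
  · refine (LK_add _ _ _ _ (PK j T g E r κ) (PK j T g X r κ) _ p).trans ?_
    have hEe := LK_E11 j T g hκ hg2 hM0 (by positivity : 0 ≤ 3 * B) h1 hBE p
      (fun l h3 h4 R => hE _ (hnear l h3 h4) R) r _ hy
    have hXx := LK_X11 j T g hκ hg2 hM0 (by positivity : 0 ≤ 3 * B) hV hσ h1 h2 p
      (fun l h3 h4 R => hX _ (hnear l h3 h4) 0 (Nat.zero_le _) R) r _ hy
    calc _ ≤ 2 * (11 ^ 2 * (128 * (3 * B) * (M * (κ * BE))) * len p +
          11 ^ 2 * (256 * (3 * B) * (M * Real.sqrt (M * (κ * V) * σ))) * len p) := by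
          have := add_le_add hEe hXx
          linarith
      _ = _ := by unfold kE; ring
  · intro q hq u hu z hz
    have hq' := (mem_Xs hd').1 hq
    have hz' := (mem_Xs hd).1 hz
    have n1 := hsub _ (LfK71.slot_near (i := j) hD p r q z u hu hq' hz')
    have n2 := hsub _ (LfK71.slot_near (i := j) hD' p r q z u hu hq' hz')
    have hL : (0 : ℤ) < 2 ^ (p.1 + 7) := by positivity
    refine hK _ _ (hW.reg.1 p (Wa71.mem_Pn.1 hp).1 hz') ?_ ?_ ?_
    · refine hsub _ ?_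
      rw [Ero526.mem_iv'] at hq'
      have hLp : (2 : ℤ) ^ (p.1 + 7) = 128 * 2 ^ p.1 := by ring
      have hU0 := Int.natCast_nonneg u
      have hU1 : (u : ℤ) < 2 ^ p.1 := by exact_mod_cast hu
      have h3 : |-dd (j.succAbove 0) (j.succAbove 1) * (u : ℤ)| ≤ 3 * (u : ℤ) := by
        rw [abs_mul, abs_of_nonneg hU0]
        exact mul_le_mul_of_nonneg_right hd3' hU0
      rw [abs_le] at h3
      have e : (sl j - sl (j.succAbove 1)) * r + -dd (j.succAbove 0) (j.succAbove 1) *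
          (q + (u : ℤ)) = ((sl j - sl (j.succAbove 1)) * r +
          -dd (j.succAbove 0) (j.succAbove 1) * q) +
          -dd (j.succAbove 0) (j.succAbove 1) * (u : ℤ) := by ring
      rw [e, Finset.mem_Icc]
      generalize (sl j - sl (j.succAbove 1)) * r +
          -dd (j.succAbove 0) (j.succAbove 1) * q = Y at hq' ⊢
      generalize -dd (j.succAbove 0) (j.succAbove 1) * (u : ℤ) = D at h3 ⊢
      constructor
      · rw [Int.le_ediv_iff_mul_le hL]; nlinarith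
      · have : (Y + D) / 2 ^ (p.1 + 7) < p.2 + 6 := by
          rw [Int.ediv_lt_iff_lt_mul hL]; nlinarith
        linarith
    · refine (congrArg (· ∈ iv I) ?_).mp n2
      ring
    · refine (congrArg (· ∈ iv I) ?_).mp n1
      ring

end Crest.Agent.R079.HEr702
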