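import Crest.Agent.R079.XR_112
import Crest.Agent.R079.Lift2_700

/-! R079, T5 leaf [S2], part 2 (helper700): proof of `XR112.Plug2` (literal of helper112). -/

set_option autoImplicit false
set_option linter.unusedVariables false

namespace Crest.Agent.R079.Plug2700

open Finset Crest.Agent.R079.Grid Crest.Agent.R079.Growth Crest.Agent.R079.QRed
  Crest.Agent.R079.TWin Crest.Agent.R079.R244 Crest.Agent.R079.F24 Crest.Agent.R079.Plug429
  Crest.Agent.R079.XR112 Crest.Agent.R079.LiftW Crest.Agent.R079.Lift2700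

lemma res_one {p : Nd} {y : ℤ} (h : y ∈ iv p) : res p (fun _ => (1 : ℂ)) y = 1 := by
  unfold res
  have h' : y ∈ dI (p.1 + 7) p.2 := h
  rw [if_pos h']

lemma res_zero {p : Nd} {y : ℤ} (h : y ∉ iv p) : res p (fun _ => (1 : ℂ)) y = 0 := by
  unfold res
  have h' : ¬ y ∈ dI (p.1 + 7) p.2 := h
  rw [if_neg h']

/-- value of `at'` -/
lemma at_in {α γ δ : ℤ} {T T' : Finset ℤ} (C : ℤ → ℤ → ℤ → ℂ) {p : Nd} {w z z' : ℤ}
    (hz : z ∈ T) (hz' : z' ∈ T') (hy : α * w + γ * z + δ * z' ∈ iv p) :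
    at' α γ δ T T' C p w z z' = C w z z' := by
  unfold at' cK
  rw [if_pos ⟨hz, hz'⟩, res_one hy, mul_one]

lemma at_out {α γ δ : ℤ} {T T' : Finset ℤ} (C : ℤ → ℤ → ℤ → ℂ) {p : Nd} {w z z' : ℤ}
    (h : ¬ (z ∈ T ∧ z' ∈ T' ∧ α * w + γ * z + δ * z' ∈ iv p)) :
    at' α γ δ T T' C p w z z' = 0 := by
  unfold at' cK
  by_cases h1 : z ∈ T ∧ z' ∈ T'
  · rw [if_pos h1, res_zero (fun h2 => h ⟨h1.1, h1.2, h2⟩), mul_zero]
  · rw [if_neg h1]

lemma at_sup {α γ δ : ℤ} {T T' : Finset ℤ} {C : ℤ → ℤ → ℤ → ℂ} {p : Nd} {w z z' : ℤ}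
    (h : at' α γ δ T T' C p w z z' ≠ 0) : z ∈ T ∧ z' ∈ T' ∧ α * w + γ * z + δ * z' ∈ iv p := by
  by_contra h'
  exact h (at_out C h')

/-- mask of a finite family of points of the lifted line -/
def MkQ {ι : Type*} (Q : Finset ι) (Yv : ι → ℤ) (Kv : ι → ℕ) (y : ℤ) (k : ℕ) : Prop :=
  ∃ i ∈ Q, Yv i = y ∧ Kv i = k

open Classical in
/-- sums over a mask -/
lemma sum_mask {ι : Type*} (Q : Finset ι) (Yv : ι → ℤ) (Kv : ι → ℕ) (r : ℕ) (I : Finset ℤ)
    (hinj : Set.InjOn (fun i => (Yv i, Kv i)) (Q : Set ι)) (hk : ∀ i ∈ Q, Kv i < 2 ^ r)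
    (g : ℤ → ℕ → ℝ) :
    ∑ y ∈ I, ∑ k ∈ range (2 ^ r), (if MkQ Q Yv Kv y k then g y k else 0) =
      ∑ i ∈ Q, if Yv i ∈ I then g (Yv i) (Kv i) else 0 := by
  rw [← Finset.sum_product', ← Finset.sum_filter, ← Finset.sum_filter]
  symm
  refine Finset.sum_bij (fun i _ => (Yv i, Kv i)) ?_ ?_ ?_ ?_
  · intro i hi
    rw [Finset.mem_filter] at hi ⊢
    refine ⟨Finset.mem_product.2 ⟨hi.2, Finset.mem_range.2 (hk i hi.1)⟩, i, hi.1, rfl, rfl⟩
  · intro i hi i' hi' h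
    rw [Finset.mem_filter] at hi hi'
    exact hinj hi.1 hi'.1 h
  · rintro ⟨y, k⟩ h
    rw [Finset.mem_filter] at h
    obtain ⟨h1, i, hi, hy, hk'⟩ := h
    refine ⟨i, ?_, ?_⟩
    · rw [Finset.mem_filter]
      refine ⟨hi, ?_⟩
      have h2 := (Finset.mem_product.1 h1).1
      simp only at h2 hy
      rw [hy]
      exact h2
    · simp only at hy hk'
      rw [hy, hk']
  · intro i _
    rfl

section
variable {T T' : Finset ℤ} {enc : ℤ × ℤ → ℕ} {α γ δ : ℤ}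

lemma Bk_add (lam : ℝ) (P : Finset (ℤ × ℤ)) (G H : ℤ → ℕ → ℂ) (w z z' : ℤ) :
    Bk P enc α γ δ lam (fun y k => G y k + H y k) w z z' =
      Bk P enc α γ δ lam G w z z' + Bk P enc α γ δ lam H w z z' := by
  unfold Bk
  ring

/-- total energy of a letter that comes back from the lifted line -/
lemma tot_Bk (hinj : Set.InjOn enc (T ×ˢ T' : Finset (ℤ × ℤ))) (hα : α ≠ 0)
    (r : ℕ) (henc : ∀ q ∈ T ×ˢ T', enc q < 2 ^ r) {lam : ℝ} (hlam : 0 < lam)
    (G : ℤ → ℕ → ℂ) (p : Nd) (S : Finset (ℤ × ℤ × ℤ)) :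
    ∑ t ∈ S, ‖at' α γ δ T T' (Bk (T ×ˢ T') enc α γ δ lam G) p t.1 t.2.1 t.2.2‖ ^ 2 ≤
      lam⁻¹ ^ 2 * ∑ y ∈ iv p, ∑ k ∈ range (2 ^ r), ‖G y k‖ ^ 2 := by
  classical
  set Y : ℤ × ℤ × ℤ → ℤ × ℕ := fun t => (α * t.1 + γ * t.2.1 + δ * t.2.2, enc (t.2.1, t.2.2)) with hY
  set S' := S.filter (fun t => (t.2.1 ∈ T ∧ t.2.2 ∈ T') ∧ α * t.1 + γ * t.2.1 + δ * t.2.2 ∈ iv p)
    with hS'
  have h1 : ∑ t ∈ S, ‖at' α γ δ T T' (Bk (T ×ˢ T') enc α γ δ lam G) p t.1 t.2.1 t.2.2‖ ^ 2 =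
      ∑ t ∈ S', lam⁻¹ ^ 2 * ‖G (Y t).1 (Y t).2‖ ^ 2 := by
    rw [hS', Finset.sum_filter]
    refine Finset.sum_congr rfl fun t _ => ?_
    by_cases h2 : (t.2.1 ∈ T ∧ t.2.2 ∈ T') ∧ α * t.1 + γ * t.2.1 + δ * t.2.2 ∈ iv p
    · rw [if_pos h2, at_in _ h2.1.1 h2.1.2 h2.2]
      unfold Bk
      rw [norm_mul, norm_inv, Complex.norm_real, Real.norm_of_nonneg hlam.le, mul_pow]
    · rw [if_neg h2, at_out _ (fun h => h2 ⟨⟨h.1, h.2.1⟩, h.2.2⟩)]
      simp
  have hYinj : Set.InjOn Y S' := by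
    rintro ⟨w, z, z'⟩ ht ⟨w₁, z₁, z₁'⟩ ht₁ h
    rw [Finset.mem_coe, hS', Finset.mem_filter] at ht ht₁
    simp only [hY, Prod.mk.injEq] at h
    have h2 : ((z, z') : ℤ × ℤ) = (z₁, z₁') := by
      refine hinj ?_ ?_ h.2
      · exact Finset.mem_coe.2 (Finset.mem_product.2 ht.2.1)
      · exact Finset.mem_coe.2 (Finset.mem_product.2 ht₁.2.1)
    simp only [Prod.mk.injEq] at h2
    obtain ⟨rfl, rfl⟩ := h2
    have h4 : α * w = α * w₁ := by linarith [h.1]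
    have h5 := mul_left_cancel₀ hα h4
    subst h5
    rfl
  rw [h1]
  have e := Finset.sum_image (f := fun x : ℤ × ℕ => lam⁻¹ ^ 2 * ‖G x.1 x.2‖ ^ 2) hYinj
  rw [← e]
  have e3 : lam⁻¹ ^ 2 * ∑ y ∈ iv p, ∑ k ∈ range (2 ^ r), ‖G y k‖ ^ 2 =
      ∑ x ∈ iv p ×ˢ range (2 ^ r), lam⁻¹ ^ 2 * ‖G x.1 x.2‖ ^ 2 := by
    rw [Finset.sum_product, Finset.mul_sum]
    exact Finset.sum_congr rfl fun y _ => Finset.mul_sum _ _ _
  rw [e3]
  refine Finset.sum_le_sum_of_subset_of_nonneg ?_ (fun _ _ _ => by positivity)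
  intro x hx
  obtain ⟨t, ht, rfl⟩ := Finset.mem_image.1 hx
  rw [hS', Finset.mem_filter] at ht
  refine Finset.mem_product.2 ⟨ht.2.2, Finset.mem_range.2 (henc _ ?_)⟩
  exact Finset.mem_product.2 ht.2.1

open Classical in
/-- masked tests, rows -/
lemma msk_rows (hinj : Set.InjOn enc (T ×ˢ T' : Finset (ℤ × ℤ))) (hα : α ≠ 0)
    (S : Finset (ℤ × ℤ)) {ψ : ℤ → ℕ → ℂ} (hψ : Tst (T ×ˢ T') enc α γ δ ψ) :
    Tst (T ×ˢ T') enc α γ δ (msk (MkQ ((S ×ˢ T').filter (fun x => x.1.2 ∈ T))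
      (fun x => α * x.1.1 + γ * x.1.2 + δ * x.2) (fun x => enc (x.1.2, x.2))) ψ) := by
  obtain ⟨u, v, hu, hv, rfl⟩ := hψ
  refine ⟨fun w z => if (w, z) ∈ S then 0 else u w z, v, fun w z => ?_, hv, ?_⟩
  · show ‖(if (w, z) ∈ S then (0 : ℂ) else u w z)‖ ≤ 1
    split_ifs
    · simp
    · exact hu w z
  · funext y k
    unfold msk
    by_cases h : ∃ q ∈ T ×ˢ T', enc q = k
    · obtain ⟨⟨z, z'⟩, hq, rfl⟩ := h
      have hq' := Finset.mem_product.1 hq
      rw [Lf_code hinj y hq, Lf_code hinj y hq]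
      simp only
      by_cases hd : α ∣ y - γ * z - δ * z'
      · rw [if_pos hd, if_pos hd]
        obtain ⟨w, hw⟩ := hd
        have hw' : (y - γ * z - δ * z') / α = w := by
          rw [hw, Int.mul_ediv_cancel_left _ hα]
        rw [hw']
        by_cases hS : (w, z) ∈ S
        · rw [if_pos hS, zero_mul, if_pos]
          refine ⟨((w, z), z'), ?_, ?_, rfl⟩
          · rw [Finset.mem_filter]
            exact ⟨Finset.mem_product.2 ⟨hS, hq'.2⟩, hq'.1⟩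
          · show α * w + γ * z + δ * z' = y
            linarith
        · rw [if_neg hS, if_neg]
          rintro ⟨⟨⟨w₁, z₁⟩, z₁'⟩, hx, h1, h2⟩
          rw [Finset.mem_filter] at hx
          have hx' := Finset.mem_product.1 hx.1
          simp only at hx hx' h1 h2
          have h3 := hinj (Finset.mem_coe.2 (Finset.mem_product.2 ⟨hx.2, hx'.2⟩))
            (Finset.mem_coe.2 hq) h2
          simp only [Prod.mk.injEq] at h3
          obtain ⟨rfl, rfl⟩ := h3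
          have h4 : α * w = α * w₁ := by linarith
          have h5 := mul_left_cancel₀ hα h4
          subst h5
          exact hS hx'.1
      · rw [if_neg hd, if_neg hd]
        split_ifs <;> rfl
    · rw [Lf_zero y k (fun q hq hk => h ⟨q, hq, hk⟩), Lf_zero y k (fun q hq hk => h ⟨q, hq, hk⟩)]
      split_ifs <;> rfl

open Classical in
/-- masked tests, columns -/
lemma msk_cols (hinj : Set.InjOn enc (T ×ˢ T' : Finset (ℤ × ℤ))) (hα : α ≠ 0)
    (S : Finset (ℤ × ℤ)) {ψ : ℤ → ℕ → ℂ} (hψ : Tst (T ×ˢ T') enc α γ δ ψ) :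
    Tst (T ×ˢ T') enc α γ δ (msk (MkQ ((S ×ˢ T).filter (fun x => x.1.2 ∈ T'))
      (fun x => α * x.1.1 + γ * x.2 + δ * x.1.2) (fun x => enc (x.2, x.1.2))) ψ) := by
  obtain ⟨u, v, hu, hv, rfl⟩ := hψ
  refine ⟨u, fun w z => if (w, z) ∈ S then 0 else v w z, hu, fun w z => ?_, ?_⟩
  · show ‖(if (w, z) ∈ S then (0 : ℂ) else v w z)‖ ≤ 1
    split_ifs
    · simp
    · exact hv w z
  · funext y k
    unfold msk
    by_cases h : ∃ q ∈ T ×ˢ T', enc q = k
    · obtain ⟨⟨z, z'⟩, hq, rfl⟩ := h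
      have hq' := Finset.mem_product.1 hq
      rw [Lf_code hinj y hq, Lf_code hinj y hq]
      simp only
      by_cases hd : α ∣ y - γ * z - δ * z'
      · rw [if_pos hd, if_pos hd]
        obtain ⟨w, hw⟩ := hd
        have hw' : (y - γ * z - δ * z') / α = w := by
          rw [hw, Int.mul_ediv_cancel_left _ hα]
        rw [hw']
        by_cases hS : (w, z') ∈ S
        · rw [if_pos hS, mul_zero, if_pos]
          refine ⟨((w, z'), z), ?_, ?_, rfl⟩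
          · rw [Finset.mem_filter]
            exact ⟨Finset.mem_product.2 ⟨hS, hq'.1⟩, hq'.2⟩
          · show α * w + γ * z + δ * z' = y
            linarith
        · rw [if_neg hS, if_neg]
          rintro ⟨⟨⟨w₁, z₁'⟩, z₁⟩, hx, h1, h2⟩
          rw [Finset.mem_filter] at hx
          have hx' := Finset.mem_product.1 hx.1
          simp only at hx hx' h1 h2
          have h3 := hinj (Finset.mem_coe.2 (Finset.mem_product.2 ⟨hx'.2, hx.2⟩))
            (Finset.mem_coe.2 hq) h2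
          simp only [Prod.mk.injEq] at h3
          obtain ⟨rfl, rfl⟩ := h3
          have h4 : α * w = α * w₁ := by linarith
          have h5 := mul_left_cancel₀ hα h4
          subst h5
          exact hS hx'.1
      · rw [if_neg hd, if_neg hd]
        split_ifs <;> rfl
    · rw [Lf_zero y k (fun q hq hk => h ⟨q, hq, hk⟩), Lf_zero y k (fun q hq hk => h ⟨q, hq, hk⟩)]
      split_ifs <;> rfl

open Classical in
/-- row sums of a letter that comes back from the lifted line -/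
lemma rows_Bk (hinj : Set.InjOn enc (T ×ˢ T' : Finset (ℤ × ℤ))) (hα : α ≠ 0)
    (r : ℕ) (henc : ∀ q ∈ T ×ˢ T', enc q < 2 ^ r) {lam : ℝ} (hlam : 0 < lam)
    (G : ℤ → ℕ → ℂ) (p : Nd) (S : Finset (ℤ × ℤ)) :
    ∑ s ∈ S, ∑ z' ∈ T', ‖at' α γ δ T T' (Bk (T ×ˢ T') enc α γ δ lam G) p s.1 s.2 z'‖ ^ 2 =
      lam⁻¹ ^ 2 * ∑ y ∈ iv p, ∑ k ∈ range (2 ^ r),
        (if MkQ ((S ×ˢ T').filter (fun x => x.1.2 ∈ T))
          (fun x => α * x.1.1 + γ * x.1.2 + δ * x.2) (fun x => enc (x.1.2, x.2)) y k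
          then ‖G y k‖ ^ 2 else 0) := by
  rw [sum_mask ((S ×ˢ T').filter (fun x => x.1.2 ∈ T)) (fun x => α * x.1.1 + γ * x.1.2 + δ * x.2)
    (fun x => enc (x.1.2, x.2)) r (iv p) ?_ ?_ (fun y k => ‖G y k‖ ^ 2)]
  · rw [← Finset.sum_product', Finset.sum_filter, Finset.mul_sum]
    refine Finset.sum_congr rfl fun x hx => ?_
    have hx' := Finset.mem_product.1 hx
    by_cases h1 : x.1.2 ∈ T
    · rw [if_pos h1]
      by_cases h2 : α * x.1.1 + γ * x.1.2 + δ * x.2 ∈ iv p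
      · rw [if_pos h2, at_in _ h1 hx'.2 h2]
        unfold Bk
        rw [norm_mul, norm_inv, Complex.norm_real, Real.norm_of_nonneg hlam.le, mul_pow]
      · rw [if_neg h2, at_out _ (fun h => h2 h.2.2)]
        simp
    · rw [if_neg h1, at_out _ (fun h => h1 h.1)]
      simp
  · rintro ⟨⟨w, z⟩, z'⟩ hx ⟨⟨w₁, z₁⟩, z₁'⟩ hx₁ h
    rw [Finset.mem_coe, Finset.mem_filter] at hx hx₁
    have hx' := Finset.mem_product.1 hx.1
    have hx₁' := Finset.mem_product.1 hx₁.1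
    simp only [Prod.mk.injEq] at h hx hx₁ hx' hx₁'
    have h3 := hinj (Finset.mem_coe.2 (Finset.mem_product.2 ⟨hx.2, hx'.2⟩))
      (Finset.mem_coe.2 (Finset.mem_product.2 ⟨hx₁.2, hx₁'.2⟩)) h.2
    simp only [Prod.mk.injEq] at h3
    obtain ⟨rfl, rfl⟩ := h3
    have h4 : α * w = α * w₁ := by linarith [h.1]
    have h5 := mul_left_cancel₀ hα h4
    subst h5
    rfl
  · intro x hx
    rw [Finset.mem_filter] at hx
    have hx' := Finset.mem_product.1 hx.1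
    exact henc _ (Finset.mem_product.2 ⟨hx.2, hx'.2⟩)

open Classical in
/-- column sums of a letter that comes back from the lifted line -/
lemma cols_Bk (hinj : Set.InjOn enc (T ×ˢ T' : Finset (ℤ × ℤ))) (hα : α ≠ 0)
    (r : ℕ) (henc : ∀ q ∈ T ×ˢ T', enc q < 2 ^ r) {lam : ℝ} (hlam : 0 < lam)
    (G : ℤ → ℕ → ℂ) (p : Nd) (S : Finset (ℤ × ℤ)) :
    ∑ s ∈ S, ∑ z ∈ T, ‖at' α γ δ T T' (Bk (T ×ˢ T') enc α γ δ lam G) p s.1 z s.2‖ ^ 2 =
      lam⁻¹ ^ 2 * ∑ y ∈ iv p, ∑ k ∈ range (2 ^ r),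
        (if MkQ ((S ×ˢ T).filter (fun x => x.1.2 ∈ T'))
          (fun x => α * x.1.1 + γ * x.2 + δ * x.1.2) (fun x => enc (x.2, x.1.2)) y k
          then ‖G y k‖ ^ 2 else 0) := by
  rw [sum_mask ((S ×ˢ T).filter (fun x => x.1.2 ∈ T')) (fun x => α * x.1.1 + γ * x.2 + δ * x.1.2)
    (fun x => enc (x.2, x.1.2)) r (iv p) ?_ ?_ (fun y k => ‖G y k‖ ^ 2)]
  · rw [← Finset.sum_product', Finset.sum_filter, Finset.mul_sum]
    refine Finset.sum_congr rfl fun x hx => ?_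
    have hx' := Finset.mem_product.1 hx
    by_cases h1 : x.1.2 ∈ T'
    · rw [if_pos h1]
      by_cases h2 : α * x.1.1 + γ * x.2 + δ * x.1.2 ∈ iv p
      · rw [if_pos h2, at_in _ hx'.2 h1 h2]
        unfold Bk
        rw [norm_mul, norm_inv, Complex.norm_real, Real.norm_of_nonneg hlam.le, mul_pow]
      · rw [if_neg h2, at_out _ (fun h => h2 h.2.2)]
        simp
    · rw [if_neg h1, at_out _ (fun h => h1 h.2.1)]
      simp
  · rintro ⟨⟨w, z'⟩, z⟩ hx ⟨⟨w₁, z₁'⟩, z₁⟩ hx₁ h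
    rw [Finset.mem_coe, Finset.mem_filter] at hx hx₁
    have hx' := Finset.mem_product.1 hx.1
    have hx₁' := Finset.mem_product.1 hx₁.1
    simp only [Prod.mk.injEq] at h hx hx₁ hx' hx₁'
    have h3 := hinj (Finset.mem_coe.2 (Finset.mem_product.2 ⟨hx'.2, hx.2⟩))
      (Finset.mem_coe.2 (Finset.mem_product.2 ⟨hx₁'.2, hx₁.2⟩)) h.2
    simp only [Prod.mk.injEq] at h3
    obtain ⟨rfl, rfl⟩ := h3
    have h4 : α * w = α * w₁ := by linarith [h.1]
    have h5 := mul_left_cancel₀ hα h4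
    subst h5
    rfl
  · intro x hx
    rw [Finset.mem_filter] at hx
    have hx' := Finset.mem_product.1 hx.1
    exact henc _ (Finset.mem_product.2 ⟨hx'.2, hx.2⟩)

/-- level of a letter that comes back from the lifted line, `at'` form -/
lemma lev_at (hinj : Set.InjOn enc (T ×ˢ T' : Finset (ℤ × ℤ))) (hα : α ≠ 0)
    (r : ℕ) (henc : ∀ q ∈ T ×ˢ T', enc q < 2 ^ r) {lam Λ : ℝ} (hlam : 0 < lam)
    (X : ℤ → ℕ → ℂ) (p : Nd)
    (hX : ∀ φ, Tst (T ×ˢ T') enc α γ δ φ →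
      ‖∑ y ∈ iv p, ∑ k ∈ range (2 ^ r), X y k * φ y k‖ ≤ lam * Λ) (A : Finset ℤ) :
    XDual988.LevP A (fun _ => (1 : ℝ))
      (fun w z z' => at' α γ δ T T' (Bk (T ×ˢ T') enc α γ δ lam X) p w z z') T T' Λ :=
  lev_Bk hinj hα r henc hlam X p hX A

end

open Classical in
/-- **leaf S2**: the literal of helper112 -/
theorem plug2 : Plug2 := by
  intro R J hR α γ δ hα hγ hδ T T' c F M A V hM hA hV hMA hc hF σ θ η hσ hθ hη
  obtain ⟨r, hr⟩ : ∃ r : ℕ, (T ×ˢ T').card ≤ 2 ^ r :=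
    ⟨(T ×ˢ T').card, Nat.lt_two_pow_self.le⟩
  obtain ⟨enc, hinj, henc⟩ := exists_enc (T ×ˢ T') r hr
  set P : Finset (ℤ × ℤ) := T ×ˢ T' with hP
  -- scaling
  obtain ⟨lam, hlam, hlV⟩ : ∃ lam : ℝ, 0 < lam ∧ lam ^ 2 * V = 2 ^ r := by
    refine ⟨Real.sqrt (2 ^ r / V), Real.sqrt_pos.2 (by positivity), ?_⟩
    rw [Real.sq_sqrt (by positivity)]
    field_simp
  have hl0 : (lam : ℂ) ≠ 0 := by exact_mod_cast hlam.ne'
  have hV' : lam⁻¹ ^ 2 * (2 : ℝ) ^ r = V := by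
    rw [← hlV]; field_simp
  set C : ℤ → ℕ → ℂ := Lf P enc α γ δ
    (fun w z z' => ((lam : ℂ) * c z z') * F (α * w + γ * z + δ * z')) with hCdef
  have hsc : ∑ q ∈ P, ‖(lam : ℂ) * c q.1 q.2‖ ^ 2 ≤ lam ^ 2 * M := by
    have e : ∑ q ∈ P, ‖(lam : ℂ) * c q.1 q.2‖ ^ 2 = lam ^ 2 * ∑ q ∈ P, ‖c q.1 q.2‖ ^ 2 := by
      rw [Finset.mul_sum]
      refine Finset.sum_congr rfl fun q _ => ?_
      rw [norm_mul, mul_pow, Complex.norm_real, Real.norm_of_nonneg hlam.le]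
    rw [e]
    exact mul_le_mul_of_nonneg_left hc (by positivity)
  have hC : ∀ p ∈ R, ∑ y ∈ iv p, ∑ k ∈ range (2 ^ r), ‖C y k‖ ^ 2 ≤ 2 ^ r * len p := by
    intro p hp
    have hlen : 0 < len p := by unfold len; positivity
    calc ∑ y ∈ iv p, ∑ k ∈ range (2 ^ r), ‖C y k‖ ^ 2
        ≤ ∑ y ∈ iv p, (lam ^ 2 * M) * ‖F y‖ ^ 2 := by
          refine Finset.sum_le_sum fun y _ => ?_
          refine (energy_Lf (α := α) (γ := γ) (δ := δ) hinj r henc
            (fun z z' => (lam : ℂ) * c z z') F y).trans ?_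
          exact mul_le_mul_of_nonneg_right hsc (by positivity)
      _ = (lam ^ 2 * M) * ∑ y ∈ iv p, ‖F y‖ ^ 2 := by rw [Finset.mul_sum]
      _ ≤ (lam ^ 2 * M) * (A * len p) := mul_le_mul_of_nonneg_left (hF p hp) (by positivity)
      _ = (lam ^ 2 * (M * A)) * len p := by ring
      _ ≤ (lam ^ 2 * V) * len p := by gcongr
      _ = 2 ^ r * len p := by rw [hlV]
  have hσl : 0 < σ / lam := by positivity
  obtain ⟨S, W, hpart, hdec⟩ := lift_windows2 hR r C hC (Tst P enc α γ δ)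
    (by
      rintro ψ ⟨u, v, hu, hv, rfl⟩
      refine ⟨fun w z => (starRingEnd ℂ) (u w z), fun w z => (starRingEnd ℂ) (v w z),
        fun w z => by rw [RCLike.norm_conj]; exact hu w z,
        fun w z => by rw [RCLike.norm_conj]; exact hv w z, ?_⟩
      funext y k
      rw [Lf_conj]
      simp only [map_mul])
    (by
      rintro ψ ⟨u, v, hu, hv, rfl⟩ y k _
      refine Lf_norm_le hinj zero_le_one (fun w z z' => ?_) y k
      rw [norm_mul]
      exact mul_le_one₀ (hu w z) (norm_nonneg _) (hv w z')) hσl hθ hη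
  have eσ : ∀ a : ℝ, lam⁻¹ * (a / (σ / lam)) = a / σ := fun a => by field_simp
  refine ⟨S, W, hpart, fun K hK => ?_⟩
  obtain ⟨n, ψ, d, E, X, Y, hψ, hd, hform, hE, hX, hEh, hD, hDh, hYl, hYC, hmask⟩ := hdec K hK
  choose u v hu hv huv using hψ
  have hKJ : iv K ⊆ iv J := hR.reg.1 K (hpart.sub hK)
  have hWK : ∀ p ∈ W K, iv p ⊆ iv K := fun p hp => (hpart.full K hK).reg.1 p hp
  -- the kernel itself
  have hBC : ∀ p : Nd, ∀ w z z', at' α γ δ T T' (Cc c F α γ δ) p w z z' =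
      at' α γ δ T T' (Bk P enc α γ δ lam C) p w z z' := by
    intro p w z z'
    by_cases h : z ∈ T ∧ z' ∈ T' ∧ α * w + γ * z + δ * z' ∈ iv p
    · rw [at_in _ h.1 h.2.1 h.2.2, at_in _ h.1 h.2.1 h.2.2]
      have hq : ((z, z') : ℤ × ℤ) ∈ P := Finset.mem_product.2 ⟨h.1, h.2.1⟩
      have h2 := Lf_enc (α := α) (γ := γ) (δ := δ)
        (G := fun w z z' => ((lam : ℂ) * c z z') * F (α * w + γ * z + δ * z')) hinj hα hq w
      unfold Bk Cc
      rw [hCdef, h2]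
      field_simp
    · rw [at_out _ h, at_out _ h]
  refine ⟨n, u, v, fun j => (lam : ℂ)⁻¹ * d j,
    fun w z z' => if z ∈ T ∧ z' ∈ T' ∧ α * w + γ * z + δ * z' ∈ iv K then
      Bk P enc α γ δ lam E w z z' else 0, Bk P enc α γ δ lam X, hu, hv, ?_, ?_, ?_, ?_, ?_⟩
  · have e : ∑ j, ‖(lam : ℂ)⁻¹ * d j‖ = lam⁻¹ * ∑ j, ‖d j‖ := by
      rw [Finset.mul_sum]
      refine Finset.sum_congr rfl fun j _ => ?_
      rw [norm_mul, norm_inv, Complex.norm_real, Real.norm_of_nonneg hlam.le]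
    rw [e, ← eσ 1]
    exact mul_le_mul_of_nonneg_left hd (by positivity)
  · intro w z hz z' hz' hy
    have hq : ((z, z') : ℤ × ℤ) ∈ P := Finset.mem_product.2 ⟨hz, hz'⟩
    have h1 := hform _ hy (enc (z, z')) (henc _ hq)
    have h2 := Lf_enc (α := α) (γ := γ) (δ := δ)
      (G := fun w z z' => ((lam : ℂ) * c z z') * F (α * w + γ * z + δ * z')) hinj hα hq w
    have h3 : ∀ j, ψ j (α * w + γ * z + δ * z') (enc (z, z')) = u j w z * v j w z' := by
      intro j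
      rw [huv j]
      exact Lf_enc (α := α) (γ := γ) (δ := δ) (G := fun w z z' => u j w z * v j w z') hinj hα hq w
    simp only at h2
    rw [hCdef, h2] at h1
    simp only [h3] at h1
    simp only
    rw [if_pos ⟨hz, hz', hy⟩]
    unfold Bk Cc
    have e : c z z' * F (α * w + γ * z + δ * z') = (lam : ℂ)⁻¹ *
        ((lam : ℂ) * c z z' * F (α * w + γ * z + δ * z')) := by
      field_simp
    rw [e, h1, mul_add, mul_add, Finset.mul_sum]
    congr 2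
    exact Finset.sum_congr rfl fun j _ => by ring
  · intro w z z'
    by_cases h : z ∈ T ∧ z' ∈ T' ∧ α * w + γ * z + δ * z' ∈ iv K
    · simp only [if_pos h]
      have hq : ((z, z') : ℤ × ℤ) ∈ P := Finset.mem_product.2 ⟨h.1, h.2.1⟩
      unfold Bk
      rw [norm_mul, norm_inv, Complex.norm_real, Real.norm_of_nonneg hlam.le, ← eσ 2]
      exact mul_le_mul_of_nonneg_left (hEh _ h.2.2 _ (henc _ hq)) (by positivity)
    · simp only [if_neg h, norm_zero]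
      positivity
  · intro p hp Q
    have e1 : ∑ t ∈ Q, ‖at' α γ δ T T' (fun w z z' =>
        if z ∈ T ∧ z' ∈ T' ∧ α * w + γ * z + δ * z' ∈ iv K then
          Bk P enc α γ δ lam E w z z' else 0) p t.1 t.2.1 t.2.2‖ ^ 2 =
        ∑ t ∈ Q, ‖at' α γ δ T T' (Bk P enc α γ δ lam E) p t.1 t.2.1 t.2.2‖ ^ 2 := by
      refine Finset.sum_congr rfl fun t _ => ?_
      by_cases h : t.2.1 ∈ T ∧ t.2.2 ∈ T' ∧ α * t.1 + γ * t.2.1 + δ * t.2.2 ∈ iv p
      · rw [at_in _ h.1 h.2.1 h.2.2, at_in _ h.1 h.2.1 h.2.2,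
          if_pos ⟨h.1, h.2.1, hWK p hp h.2.2⟩]
      · rw [at_out _ h, at_out _ h]
    rw [e1]
    refine (tot_Bk hinj hα r henc hlam E p Q).trans ?_
    refine (mul_le_mul_of_nonneg_left (hE p hp) (by positivity)).trans (le_of_eq ?_)
    calc lam⁻¹ ^ 2 * (9 * θ * (2 ^ r * len p)) = 9 * θ * (lam⁻¹ ^ 2 * 2 ^ r) * len p := by ring
      _ = 9 * θ * V * len p := by rw [hV']
  · intro p hp
    have hlen : 0 < len p := by unfold len; positivity
    refine ⟨fun w z z' => at' α γ δ T T' (Bk P enc α γ δ lam (Y p)) p w z z',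
      fun w z z' => at' α γ δ T T' (Bk P enc α γ δ lam (fun y k => X y k - Y p y k)) p w z z',
      ?_⟩
    refine ⟨?_, ?_, ?_, ?_, ?_, ?_, ?_, ?_, ?_⟩
    · intro w z z'
      by_cases h : z ∈ T ∧ z' ∈ T' ∧ α * w + γ * z + δ * z' ∈ iv p
      · rw [at_in _ h.1 h.2.1 h.2.2, at_in _ h.1 h.2.1 h.2.2, at_in _ h.1 h.2.1 h.2.2]
        unfold Bk
        ring
      · rw [at_out _ h, at_out _ h, at_out _ h, add_zero]
    · intro w z z' h
      exact at_sup h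
    · intro w z z' h
      exact at_sup h
    · intro w z z'
      by_cases h : z ∈ T ∧ z' ∈ T' ∧ α * w + γ * z + δ * z' ∈ iv p
      · have hq : ((z, z') : ℤ × ℤ) ∈ P := Finset.mem_product.2 ⟨h.1, h.2.1⟩
        rw [at_in _ h.1 h.2.1 h.2.2]
        unfold Bk
        rw [norm_mul, norm_inv, Complex.norm_real, Real.norm_of_nonneg hlam.le, ← eσ 2]
        exact mul_le_mul_of_nonneg_left (hDh p hp _ h.2.2 _ (henc _ hq)) (by positivity)
      · rw [at_out _ h, norm_zero]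
        positivity
    · intro w z z'
      rw [hBC p w z z']
      by_cases h : z ∈ T ∧ z' ∈ T' ∧ α * w + γ * z + δ * z' ∈ iv p
      · have hq : ((z, z') : ℤ × ℤ) ∈ P := Finset.mem_product.2 ⟨h.1, h.2.1⟩
        rw [at_in _ h.1 h.2.1 h.2.2, at_in _ h.1 h.2.1 h.2.2]
        unfold Bk
        rw [← mul_sub, norm_mul, norm_inv, Complex.norm_real, Real.norm_of_nonneg hlam.le, ← eσ 1]
        exact mul_le_mul_of_nonneg_left (hYC p hp _ h.2.2 _ (henc _ hq)) (by positivity)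
      · rw [at_out _ h, at_out _ h, sub_zero, norm_zero]
        positivity
    · intro Q
      refine (tot_Bk hinj hα r henc hlam (fun y k => X y k - Y p y k) p Q).trans ?_
      refine (mul_le_mul_of_nonneg_left (hD p hp) (by positivity)).trans (le_of_eq ?_)
      calc lam⁻¹ ^ 2 * (3 * θ * (2 ^ r * len p)) = 3 * θ * (lam⁻¹ ^ 2 * 2 ^ r) * len p := by ring
        _ = 3 * θ * V * len p := by rw [hV']
    · intro B
      refine lev_at hinj hα r henc hlam (Y p) p (fun φ hφ => ?_) B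
      refine (hYl p hp φ hφ).trans (le_of_eq ?_)
      rw [← hV']
      field_simp
    · intro Q
      have h1 := hmask p hp _ (fun ψ hψ => msk_rows (γ := γ) (δ := δ) hinj hα Q hψ)
      have e2 : ∑ s ∈ Q, ∑ z' ∈ T', ‖at' α γ δ T T' (Cc c F α γ δ) p s.1 s.2 z'‖ ^ 2 =
          ∑ s ∈ Q, ∑ z' ∈ T', ‖at' α γ δ T T' (Bk P enc α γ δ lam C) p s.1 s.2 z'‖ ^ 2 :=
        Finset.sum_congr rfl fun s _ => Finset.sum_congr rfl fun z' _ => by rw [hBC]
      rw [e2, rows_Bk hinj hα r henc hlam, rows_Bk hinj hα r henc hlam]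
      have h2 := mul_le_mul_of_nonneg_left h1 (by positivity : (0 : ℝ) ≤ lam⁻¹ ^ 2)
      rw [mul_add] at h2
      refine h2.trans (le_of_eq ?_)
      congr 1
      calc lam⁻¹ ^ 2 * (η * (2 ^ r * len p)) = η * (lam⁻¹ ^ 2 * 2 ^ r) * len p := by ring
        _ = η * V * len p := by rw [hV']
    · intro Q
      have h1 := hmask p hp _ (fun ψ hψ => msk_cols (γ := γ) (δ := δ) hinj hα Q hψ)
      have e2 : ∑ s ∈ Q, ∑ z ∈ T, ‖at' α γ δ T T' (Cc c F α γ δ) p s.1 z s.2‖ ^ 2 =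
          ∑ s ∈ Q, ∑ z ∈ T, ‖at' α γ δ T T' (Bk P enc α γ δ lam C) p s.1 z s.2‖ ^ 2 :=
        Finset.sum_congr rfl fun s _ => Finset.sum_congr rfl fun z' _ => by rw [hBC]
      rw [e2, cols_Bk hinj hα r henc hlam, cols_Bk hinj hα r henc hlam]
      have h2 := mul_le_mul_of_nonneg_left h1 (by positivity : (0 : ℝ) ≤ lam⁻¹ ^ 2)
      rw [mul_add] at h2
      refine h2.trans (le_of_eq ?_)
      congr 1
      calc lam⁻¹ ^ 2 * (η * (2 ^ r * len p)) = η * (lam⁻¹ ^ 2 * 2 ^ r) * len p := by ring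
        _ = η * V * len p := by rw [hV']

end Crest.Agent.R079.Plug2700
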