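import Crest.Agent.R079.RuS1_256
import Crest.Agent.R079.KbS_259
import Crest.Agent.R079.HEs_702
import Crest.Agent.R079.Plug2_700

/-! R079, RuleS assembly, leaf S9 part 2 (helper256): ONE STATIC WINDOW, dictionary-free.  Frozen slot
`j`, static slot `3`, `P` = bounded atom on `iv I`, data of `XR112.Plug2` on the outer window `WK`,
Gram data `LabOK` on `V' ⊆ WK`; output = the two kernels of `BadN360.CoreG`. -/

set_option autoImplicit false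
set_option linter.unusedVariables false

namespace Crest.Agent.R079.RuS256

open Finset Crest.Agent.R079.Grid Crest.Agent.R079.Growth Crest.Agent.R079.QRed
  Crest.Agent.R079.Glue Crest.Agent.R079.TWin Crest.Agent.R079.R244 Crest.Agent.R079.F24
  Crest.Agent.R079.XR112 Crest.Agent.R079.XS4x219 Crest.Agent.R079.EWG990 Crest.Agent.R079.EW5702
  Crest.Agent.R079.Cg408 Crest.Agent.R079.Tr230 Crest.Agent.R079.LK990 Crest.Agent.R079.MainW259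
  Crest.Agent.R079.KbS259 Crest.Agent.R079.HEr702 Crest.Agent.R079.S2D530
  Crest.Agent.R079.F2 Crest.Agent.R079.Ero526 Crest.Agent.R079.LfK71 Crest.Agent.R079.OpLev

/-- data of one bounded atom: `κ`, `T`, `g` with `|g| ≤ 1` and `κ ∑|g_e|² ≤ M` -/
structure AtD (κ M : ℝ) (T : Fin 3 → Finset ℤ) (g : Fin 3 → ℤ → ℤ → ℂ) : Prop where
  k0 : 0 < κ
  M0 : 0 < M
  g0 : ∀ z z', ‖g 0 z z'‖ ≤ 1
  g1 : ∀ z z', ‖g 1 z z'‖ ≤ 1
  g2 : ∀ z z', ‖g 2 z z'‖ ≤ 1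
  n0 : κ * BAt112.n2 (T 0) (T 1) (g 0) ≤ M
  n1 : κ * BAt112.n2 (T 1) (T 2) (g 1) ≤ M
  n2 : κ * BAt112.n2 (T 2) (T 0) (g 2) ≤ M

/-- output of `Plug2` on the window `WK` (top `K`) -/
structure PlD (j : Fin 4) (κ M σ : ℝ) (T : Fin 3 → Finset ℤ) (g : Fin 3 → ℤ → ℤ → ℂ) (G : ℤ → ℂ)
    (WK : Finset Nd) (K : Nd) {n : ℕ} (u v : Fin n → ℤ → ℤ → ℂ) (d : Fin n → ℂ)
    (E X : ℤ → ℤ → ℤ → ℂ) : Prop where
  full : Full WK K
  hu : ∀ l w z, ‖u l w z‖ ≤ 1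
  hv : ∀ l w z, ‖v l w z‖ ≤ 1
  hd : ∑ l, ‖d l‖ ≤ 1 / σ
  dec : ∀ w, ∀ z ∈ T 0, ∀ z' ∈ T 1, (sl j - sl 3) * w + (sl (j.succAbove 0) - sl 3) * z +
        (sl (j.succAbove 1) - sl 3) * z' ∈ iv K →
      Cc (g 0) G (sl j - sl 3) (sl (j.succAbove 0) - sl 3) (sl (j.succAbove 1) - sl 3) w z z' =
        ∑ l, d l * (u l w z * v l w z') + E w z z' + X w z z'
  hE : ∀ w z z', ‖E w z z'‖ ≤ 2 / σ
  e2 : E2T WK (sl j - sl 3) (sl (j.succAbove 0) - sl 3) (sl (j.succAbove 1) - sl 3) (T 0) (T 1)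
    (9 * σ ^ 3 * (M / κ)) E
  xr : XR WK (sl j - sl 3) (sl (j.succAbove 0) - sl 3) (sl (j.succAbove 1) - sl 3) (T 0) (T 1)
    (Cc (g 0) G (sl j - sl 3) (sl (j.succAbove 0) - sl 3) (sl (j.succAbove 1) - sl 3)) (M / κ) σ
    (σ ^ 3) (σ ^ 3) X

/-- number of the main word -/
noncomputable def Qm (q3 M σ θ s ε h : ℝ) : ℝ :=
  (2 ^ 54 * h ^ 2 * s + 2 ^ 20 * h ^ (2 - q3) + 2 ^ 18 * ε ^ 2) + 2 ^ 31 * M ^ 2 * σ ^ (1 / 5 : ℝ) +
    θ * (1 / σ * M)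

theorem kE_le {κ M σ : ℝ} (hκ : 0 < κ) (hM : 0 < M) (hσ : 0 < σ) (hσ1 : σ ≤ 1) :
    kE κ M (M / κ) (9 * σ ^ 3 * (M / κ)) (2 ^ 25 * σ ^ (2 / 5 : ℝ)) 1 ≤
      2 ^ 31 * M ^ 2 * σ ^ (1 / 5 : ℝ) := by
  unfold kE
  have e1 : κ * (M / κ) = M := by field_simp
  have e2 : κ * (9 * σ ^ 3 * (M / κ)) = 9 * σ ^ 3 * M := by field_simp
  have h5 : 0 < σ ^ (1 / 5 : ℝ) := Real.rpow_pos_of_pos hσ _
  have e3 : Real.sqrt (M * M * (2 ^ 25 * σ ^ (2 / 5 : ℝ))) ≤ M * (5793 * σ ^ (1 / 5 : ℝ)) := by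
    rw [Real.sqrt_le_left (by positivity)]
    have e : (M * (5793 * σ ^ (1 / 5 : ℝ))) ^ 2 = M * M * (5793 ^ 2 * σ ^ (2 / 5 : ℝ)) := by
      have : (σ ^ (1 / 5 : ℝ)) ^ 2 = σ ^ (2 / 5 : ℝ) := by
        rw [← Real.rpow_natCast, ← Real.rpow_mul hσ.le]; norm_num
      rw [mul_pow, mul_pow, this]; ring
    rw [e]
    refine mul_le_mul_of_nonneg_left ?_ (by positivity)
    exact mul_le_mul_of_nonneg_right (by norm_num) (Real.rpow_nonneg hσ.le _)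
  have e4 : σ ^ 3 ≤ σ ^ (1 / 5 : ℝ) := by
    rw [← Real.rpow_natCast]
    exact Real.rpow_le_rpow_of_exponent_ge hσ hσ1 (by norm_num)
  rw [e1, e2]
  calc 92928 * 1 * M * (9 * σ ^ 3 * M + 2 * Real.sqrt (M * M * (2 ^ 25 * σ ^ (2 / 5 : ℝ))))
      ≤ 92928 * 1 * M * (9 * σ ^ (1 / 5 : ℝ) * M + 2 * (M * (5793 * σ ^ (1 / 5 : ℝ)))) := by
        refine mul_le_mul_of_nonneg_left ?_ (by positivity)
        refine add_le_add ?_ (mul_le_mul_of_nonneg_left e3 (by norm_num))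
        exact mul_le_mul_of_nonneg_right (mul_le_mul_of_nonneg_left e4 (by norm_num)) hM.le
    _ = (92928 * (9 + 2 * 5793)) * (M ^ 2 * σ ^ (1 / 5 : ℝ)) := by ring
    _ ≤ 2 ^ 31 * (M ^ 2 * σ ^ (1 / 5 : ℝ)) :=
        mul_le_mul_of_nonneg_right (by norm_num) (by positivity)
    _ = _ := by ring

open Classical in
/-- **ONE STATIC WINDOW** -/
theorem window_core : ∃ K1 : ℝ, 0 ≤ K1 ∧ ∀ (j : Fin 4), j ≠ 3 →
    ∀ (k q3 κ M σ θ s ε h : ℝ), 0 < k → 2 < q3 → 0 < σ → σ ≤ 1 / 2 ^ 60 → 0 < θ → 0 ≤ s →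
    ε ≤ 1 → 0 < h → ∀ (T : Fin 3 → Finset ℤ) (g : Fin 3 → ℤ → ℤ → ℂ), AtD κ M T g →
    ∀ (κ0 : ℕ), 13 ≤ κ0 → ∀ (P G X0 E0 : ℤ → ℂ) (I : Nd),
      (∀ y ∈ iv I, P y = atom j κ T (g 0) (g 1) (g 2) y) → (∀ y, ‖G y‖ ≤ 1 / σ) →
      (∀ y ∈ iv I, P y = X0 y + E0 y) →
    ∀ (WK : Finset Nd) (K : Nd), iv K ⊆ iv I → ∀ (n : ℕ) (u v : Fin n → ℤ → ℤ → ℂ) (d : Fin n → ℂ)
      (E X : ℤ → ℤ → ℤ → ℂ), PlD j κ M σ T g G WK K u v d E X →
    ∀ V' : Finset Nd, V' ⊆ WK →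
      LabOK (j := j) (κ := κ) (T := T) (g := g) v d (Sh j T (Z0 j I)) V' θ →
    ∀ (W : Finset Nd) (J : Nd), Full W J → W ⊆ V' → ∀ F : Fin 4 → ℤ → ℂ, F j = P → F 3 = G →
      (∀ i, i ≠ j → i ≠ 3 → ∀ p ∈ W, TRec.aq (2 + k) p (F i) ≤ 1) →
      (∀ p ∈ W, TRec.aq (2 + k) p P ≤ 1) → (∀ p ∈ W, TRec.aq q3 p G ≤ 1) →
      (∀ p ∈ W, av p E0 ≤ ε) → (∀ p ∈ W, av p X0 ≤ 2 → OLev κ0 j p X0 s) →
    ∀ bb : ℤ, (bb = -1 ∨ bb = -7) →
      ∃ Ka Kb : ℤ → ℤ → ℂ, (∀ T A, ∏ i, rs J F i (A - sl i * T) = Ka T A + Kb T A) ∧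
        ∑ p ∈ W.filter (fun p => ¬ Bad W 7 p), ∑ x ∈ adm p.1 p.2, ‖LboxG (2 ^ p.1) bb Ka x‖ ≤
          K1 * √(Qm q3 M σ θ s ε h) * len J ∧
        ∑ p ∈ W.filter (fun p => ¬ Bad W 7 p), ∑ x ∈ adm p.1 p.2, ‖LboxG (2 ^ p.1) bb Kb x‖ ≤
          K1 * (1 + 1 / k) * σ ^ (1 / 20 : ℝ) * M * len J := by
  obtain ⟨K2, hK2, hW2⟩ := error_words
  refine ⟨K2 + 96 * (16 * (2 * (7 + 2 + 1) + 1) + 1), by positivity, ?_⟩
  intro j hj k q3 κ M σ θ s ε h hk hq3 hσ hσs hθ hs hε hh T g hg κ0 hκ0 P G X0 E0 I hP hG hPX WK K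
    hKI n u v d E X hD V' hV' hlab W J hW hWV F hFj hF3 hF haP haG hE0 hO bb hbb
  have hσ1 : σ ≤ 1 := hσs.trans (by norm_num)
  have hκ := hg.k0
  have hM := hg.M0
  have hV : 0 < M / κ := div_pos hM hκ
  have h32 : j.succAbove 2 = 3 := sA2 j hj
  have hWK : W ⊆ WK := hWV.trans hV'
  have hJK : iv J ⊆ iv K := hD.full.reg.1 J (hWK hW.top)
  have hJI : iv J ⊆ iv I := hJK.trans hKI
  have hpJ : ∀ p ∈ W, iv p ⊆ iv J := hW.reg.1
  have ha0 : j.succAbove 0 ≠ 3 := (dst_j j hj).2.2.2.1.symm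
  have ha1 : j.succAbove 1 ≠ 3 := (dst_j j hj).2.2.2.2.1.symm
  have haF0 : ∀ p ∈ W, TRec.aq (2 + k) p (F (j.succAbove 0)) ≤ 1 :=
    hF _ (Fin.succAbove_ne j 0) ha0
  have haF1 : ∀ p ∈ W, TRec.aq (2 + k) p (F (j.succAbove 1)) ≤ 1 :=
    hF _ (Fin.succAbove_ne j 1) ha1
  have hn : ∀ (A A' : Finset ℤ) (a : ℤ → ℤ → ℂ), κ * BAt112.n2 A A' a ≤ M →
      BAt112.n2 A A' a ≤ M / κ := fun A A' a h1 => by
    rw [le_div_iff₀ hκ, mul_comm]; exact h1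
  have hG2 : ∀ p ∈ W, ∑ y ∈ iv p, ‖G y‖ ^ 2 ≤ len p := fun p hp => by
    have := Leaf259.sum2_of_aq hq3.le (haG p hp)
    rwa [one_mul] at this
  have hE2W : E2T W (sl j - sl 3) (sl (j.succAbove 0) - sl 3) (sl (j.succAbove 1) - sl 3) (T 0)
      (T 1) (9 * σ ^ 3 * (M / κ)) E := fun p hp => hD.e2 p (hWK hp)
  have hXRW : XR W (sl j - sl 3) (sl (j.succAbove 0) - sl 3) (sl (j.succAbove 1) - sl 3) (T 0)
      (T 1) (Cc (g 0) G (sl j - sl 3) (sl (j.succAbove 0) - sl 3) (sl (j.succAbove 1) - sl 3))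
      (M / κ) σ (σ ^ 3) (σ ^ 3) X := fun p hp => hD.xr p (hWK hp)
  have hFj' : ∀ y ∈ iv J, F j y = atom j κ T (g 0) (g 1) (g 2) y := fun y hy => by
    rw [hFj]; exact hP y (hJI hy)
  refine ⟨Km j κ T g u v d (rs J F), Kb j κ T g u v d J F, split_kb j κ T g u v d J F, ?_, ?_⟩
  · -- main word
    have hrs : ∀ i y, ‖rs J F i y‖ ≤ ‖F i y‖ := by
      intro i y
      unfold rs
      split_ifs
      · exact le_rfl
      · simp
    have hr0 : ∀ p ∈ W, TRec.aq (2 + k) p (rs J F (j.succAbove 0)) ≤ 1 := fun p hp =>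
      (BadN360.aq_mono (by linarith) fun y _ => hrs _ y).trans (haF0 p hp)
    have hr1 : ∀ p ∈ W, TRec.aq (2 + k) p (rs J F (j.succAbove 1)) ≤ 1 := fun p hp =>
      (BadN360.aq_mono (by linarith) fun y _ => hrs _ y).trans (haF1 p hp)
    set k1 : ℝ := 2 ^ 54 * h ^ 2 * s + 2 ^ 20 * h ^ (2 - q3) + 2 ^ 18 * ε ^ 2 with hk1
    have hk10 : 0 ≤ k1 := by positivity
    set kEE : ℝ := kE κ M (M / κ) (9 * σ ^ 3 * (M / κ)) (2 ^ 25 * σ ^ (2 / 5 : ℝ)) 1 with hkEE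
    have hkE0 : 0 ≤ kEE := kE_nonneg hκ.le hM.le (by positivity) zero_le_one
    have hG1 : ∀ p ∈ W, ∑ y ∈ iv p, ‖G y‖ ^ 2 ≤ 1 * len p := fun p hp => by
      rw [one_mul]; exact hG2 p hp
    have hc0 : ∑ q ∈ T 0 ×ˢ T 1, ‖g 0 q.1 q.2‖ ^ 2 ≤ M / κ := by
      rw [Finset.sum_product]; exact hn _ _ _ hg.n0
    have hS4 : EW49.S4W W 0 (M / κ) (2 ^ 25 * σ ^ (2 / 5 : ℝ)) (sl j - sl (j.succAbove 2))
        (sl (j.succAbove 0) - sl (j.succAbove 2)) (sl (j.succAbove 1) - sl (j.succAbove 2))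
        (T 0) (T 1) X (fun _ => 1) := by
      obtain ⟨s0, s1, s2⟩ := sd j
      refine s4w_of_XR' (M := M / κ) (c := g 0) (F := G) s0 s1 s2 hσ hσ1
        (show (0 : ℝ) ≤ σ ^ 3 by positivity) le_rfl (le_refl (σ ^ 3)) hV.le le_rfl hg.g0 hc0 hG2 ?_
      rw [h32]; exact hXRW
    have main := main_word hj hκ.le T g hM.le (show (0 : ℝ) ≤ 1 / σ by positivity) hg.n2 u v d
      hD.hu hD.hd I hW hJI hWV hθ hlab (rs J F)
      (fun p hp => Leaf259.sum2_of_aq (by linarith) (hr0 p hp))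
      (fun p hp => Leaf259.sum2_of_aq (by linarith) (hr1 p hp)) hbb 7 (by norm_num) P G hk10 hkE0
      (fun r hr m p hp => ?_) (fun r hr m p hp => ?_) (W.filter (fun p => ¬ Bad W 7 p))
      (Finset.filter_subset _ _) (fun p hp => (Finset.mem_filter.1 hp).2)
    · have e1 : 48 * (16 * (2 * (((7 : ℕ) : ℝ) + 2 + 1) + 1) + 1) *
          (2 * √(k1 + kEE + θ * (1 / σ * M))) * len J =
          96 * (16 * (2 * (7 + 2 + 1) + 1) + 1) * √(k1 + kEE + θ * (1 / σ * M)) * len J := by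
        push_cast; ring
      refine main.trans (e1.le.trans ?_)
      have hl := Growth.len_pos J
      refine mul_le_mul_of_nonneg_right ?_ hl.le
      refine mul_le_mul (by linarith) (Real.sqrt_le_sqrt ?_) (Real.sqrt_nonneg _) (by positivity)
      unfold Qm
      have := kE_le hκ hM hσ hσ1
      linarith
    · exact Leaf259.hleaf_core (dst_j j hj) hpJ 7 le_rfl (r : ℤ)
        (by
          have h1 : (r : ℤ) < 3 := by exact_mod_cast hr.trans_le (dj_le j)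
          rw [abs_of_nonneg (Int.natCast_nonneg r)]
          exact h1.le) hk.le hq3.le _ (rs J F (j.succAbove 1)) (fun z => by rw [norm_star]) hr1
        (fun y hy => hPX y (hJI hy)) haP haG hε hE0 hO hs hκ0 hh m p hp
    · refine herr_val j T g hκ.le hg.g2 hM.le hV.le (by positivity) (by positivity) zero_le_one
        hg.n1 hg.n2 hW 7 le_rfl (r : ℤ) _ (rs J F (j.succAbove 1)) (fun z => by rw [norm_star])
        (fun p hp => Leaf259.sum2_of_aq (by linarith) (hr1 p hp))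
        (by rw [h32]; exact hE2W) hS4 _ ?_ m p hp
      intro z z' y1 y2 y3 y4
      have hr3 : r < 3 := hr.trans_le (dj_le j)
      refine er0_eq hj hκ.le T g u v d E X P G I K hD.dec hr3 (hJI y1) (hJI y2) ?_ ?_
      · rw [h32] at y4
        refine (congrArg (· ∈ iv K) ?_).mp (hJK y4)
        ring
      · refine hP _ (hJI ?_)
        exact y3
  · -- error words
    have h1 := kb_sum hj hκ.le T g u v d E X hJK F hFj' (by rw [hF3]; exact hD.dec) hbb hpJ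
      (Finset.filter_subset (fun p => ¬ Bad W 7 p) W)
    refine h1.trans ?_
    have h2 := hW2 bb hbb W J hW j T g F G E X (M / κ) σ k hV hσ hσs hk hg.g0 hg.g1 hg.g2
      (hn _ _ _ hg.n0) (hn _ _ _ hg.n1) (hn _ _ _ hg.n2) haF0 haF1 hG2 hG
      (by rw [h32]; exact hE2W) hD.hE (by rw [h32]; exact hXRW)
    rw [← mul_add]
    refine (mul_le_mul_of_nonneg_left h2 hκ.le).trans ?_
    have e1 : κ * (K2 * (1 + 1 / k) * σ ^ (1 / 20 : ℝ) * (M / κ) * len J) =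
        K2 * ((1 + 1 / k) * σ ^ (1 / 20 : ℝ) * M * len J) := by field_simp
    rw [e1]
    have hl := Growth.len_pos J
    have h20 : 0 < σ ^ (1 / 20 : ℝ) := Real.rpow_pos_of_pos hσ _
    have h3 : 0 ≤ (1 + 1 / k) * σ ^ (1 / 20 : ℝ) * M * len J := by positivity
    calc _ ≤ (K2 + 96 * (16 * (2 * (7 + 2 + 1) + 1) + 1)) *
          ((1 + 1 / k) * σ ^ (1 / 20 : ℝ) * M * len J) :=
          mul_le_mul_of_nonneg_right (by linarith) h3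
      _ = _ := by ring

end Crest.Agent.R079.RuS256
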