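import Crest.Agent.R079.CoE1_255
import Crest.Agent.R079.MainE_255
import Crest.Agent.R079.KbSe_259
import Crest.Agent.R079.HEsC_702
import Crest.Agent.R079.RuS2_256

/-! R079, Step II of `RuleNT` (helper255), EDGE-GENERIC version of helper256's `RuS2_256`: ONE STATIC
WINDOW, dictionary-free.  Frozen slot `j`, static slot `j.succAbove (e+2)`, leaf value `k1` as a
hypothesis. -/

set_option autoImplicit false
set_option linter.unusedVariables false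

namespace Crest.Agent.R079.CoEx255

open Finset Crest.Agent.R079.Grid Crest.Agent.R079.Growth Crest.Agent.R079.QRed
  Crest.Agent.R079.Glue Crest.Agent.R079.TWin Crest.Agent.R079.R244 Crest.Agent.R079.F24
  Crest.Agent.R079.XR112 Crest.Agent.R079.XS4x219 Crest.Agent.R079.EWG990
  Crest.Agent.R079.Cg408 Crest.Agent.R079.Tr230 Crest.Agent.R079.LK990 Crest.Agent.R079.MainEx255
  Crest.Agent.R079.KbSe259 Crest.Agent.R079.S2D530
  Crest.Agent.R079.F2 Crest.Agent.R079.Ero526 Crest.Agent.R079.LfK71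
open Crest.Agent.R079.RuS256 (AtD kE_le)
open Crest.Agent.R079.HEr702 (kE kE_nonneg)

/-- three components of an edge-indexed property -/
lemma all3 {p : Fin 3 → Prop} (h0 : p 0) (h1 : p 1) (h2 : p 2) (e : Fin 3) : p e := by
  obtain rfl | rfl | rfl := LabEx255.e3 e
  · exact h0
  · exact h1
  · exact h2

lemma AtD.gg {κ M : ℝ} {T : Fin 3 → Finset ℤ} {g : Fin 3 → ℤ → ℤ → ℂ} (h : AtD κ M T g)
    (e : Fin 3) : ∀ z z', ‖g e z z'‖ ≤ 1 :=
  all3 (p := fun e => ∀ z z', ‖g e z z'‖ ≤ 1) h.g0 h.g1 h.g2 e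

lemma AtD.nn {κ M : ℝ} {T : Fin 3 → Finset ℤ} {g : Fin 3 → ℤ → ℤ → ℂ} (h : AtD κ M T g)
    (e : Fin 3) : κ * BAt112.n2 (T e) (T (e + 1)) (g e) ≤ M :=
  all3 (p := fun e => κ * BAt112.n2 (T e) (T (e + 1)) (g e) ≤ M) h.n0 h.n1 h.n2 e

lemma AtD.nn1 {κ M : ℝ} {T : Fin 3 → Finset ℤ} {g : Fin 3 → ℤ → ℤ → ℂ} (h : AtD κ M T g)
    (e : Fin 3) : κ * BAt112.n2 (T (e + 1)) (T (e + 2)) (g (e + 1)) ≤ M := by
  have := AtD.nn h (e + 1)
  rwa [LabEx255.ee1] at this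

lemma AtD.nn2 {κ M : ℝ} {T : Fin 3 → Finset ℤ} {g : Fin 3 → ℤ → ℤ → ℂ} (h : AtD κ M T g)
    (e : Fin 3) : κ * BAt112.n2 (T (e + 2)) (T e) (g (e + 2)) ≤ M := by
  have := AtD.nn h (e + 2)
  rwa [LabEx255.ee2] at this

/-- output of `Plug2` on the window `WK` (top `K`), edge `e` -/
structure PlDe (j : Fin 4) (e : Fin 3) (κ M σ : ℝ) (T : Fin 3 → Finset ℤ)
    (g : Fin 3 → ℤ → ℤ → ℂ) (G : ℤ → ℂ)
    (WK : Finset Nd) (K : Nd) {n : ℕ} (u v : Fin n → ℤ → ℤ → ℂ) (d : Fin n → ℂ)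
    (E X : ℤ → ℤ → ℤ → ℂ) : Prop where
  full : Full WK K
  hu : ∀ l w z, ‖u l w z‖ ≤ 1
  hv : ∀ l w z, ‖v l w z‖ ≤ 1
  hd : ∑ l, ‖d l‖ ≤ 1 / σ
  dec : ∀ w, ∀ z ∈ T e, ∀ z' ∈ T (e + 1), (sl j - sl (j.succAbove (e + 2))) * w +
        (sl (j.succAbove e) - sl (j.succAbove (e + 2))) * z +
        (sl (j.succAbove (e + 1)) - sl (j.succAbove (e + 2))) * z' ∈ iv K →
      Cc (g e) G (sl j - sl (j.succAbove (e + 2))) (sl (j.succAbove e) - sl (j.succAbove (e + 2)))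
        (sl (j.succAbove (e + 1)) - sl (j.succAbove (e + 2))) w z z' =
        ∑ l, d l * (u l w z * v l w z') + E w z z' + X w z z'
  hE : ∀ w z z', ‖E w z z'‖ ≤ 2 / σ
  e2 : E2T WK (sl j - sl (j.succAbove (e + 2))) (sl (j.succAbove e) - sl (j.succAbove (e + 2)))
    (sl (j.succAbove (e + 1)) - sl (j.succAbove (e + 2))) (T e) (T (e + 1))
    (9 * σ ^ 3 * (M / κ)) E
  xr : XR WK (sl j - sl (j.succAbove (e + 2))) (sl (j.succAbove e) - sl (j.succAbove (e + 2)))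
    (sl (j.succAbove (e + 1)) - sl (j.succAbove (e + 2))) (T e) (T (e + 1))
    (Cc (g e) G (sl j - sl (j.succAbove (e + 2))) (sl (j.succAbove e) - sl (j.succAbove (e + 2)))
      (sl (j.succAbove (e + 1)) - sl (j.succAbove (e + 2)))) (M / κ) σ
    (σ ^ 3) (σ ^ 3) X

/-- the leaf values of the window are at most `k1` (every letter of local `L²` norm `≤ 1`) -/
def HL (j : Fin 4) (e : Fin 3) (P G : ℤ → ℂ) (W : Finset Nd) (C : ℕ) (k1 : ℝ) : Prop :=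
  ∀ fb : ℤ → ℂ, (∀ p ∈ W, ∑ y ∈ iv p, ‖fb y‖ ^ 2 ≤ 1 * len p) →
    ∀ r : ℕ, r < (dd (j.succAbove e) (j.succAbove (e + 1))).natAbs → ∀ k,
      ∀ p ∈ Wa71.Pn W C ((sl j - sl (j.succAbove (e + 1))) * r)
        (-dd (j.succAbove e) (j.succAbove (e + 1))) k,
      Wb71.LK ((sl j - sl (j.succAbove (e + 1))) * r) (-dd (j.succAbove e) (j.succAbove (e + 1)))
        ((sl j - sl (j.succAbove e)) * r) (dd (j.succAbove e) (j.succAbove (e + 1)))
        (K2 j j (j.succAbove (e + 2)) (j.succAbove e) (j.succAbove (e + 1)) P G r)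
        (Wb71.mk W C ((sl j - sl (j.succAbove (e + 1))) * r)
          (-dd (j.succAbove e) (j.succAbove (e + 1)))
          (fun z => star (fb ((sl j - sl (j.succAbove (e + 1))) * r +
            -dd (j.succAbove e) (j.succAbove (e + 1)) * z))) k) p ≤ k1 * len p

open Classical in
/-- **ONE STATIC WINDOW** -/
theorem window_core : ∃ K1 : ℝ, 0 ≤ K1 ∧ ∀ (j : Fin 4) (e : Fin 3),
    ∀ (k κ M σ θ k1 : ℝ), 0 < k → 0 < σ → σ ≤ 1 / 2 ^ 60 → 0 < θ → 0 ≤ k1 →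
    ∀ (T : Fin 3 → Finset ℤ) (g : Fin 3 → ℤ → ℤ → ℂ), AtD κ M T g →
    ∀ (P G : ℤ → ℂ) (I : Nd),
      (∀ y ∈ iv I, P y = atom j κ T (g 0) (g 1) (g 2) y) → (∀ y, ‖G y‖ ≤ σ ^ (-(2 / k))) →
    ∀ (WK : Finset Nd) (K : Nd), iv K ⊆ iv I → ∀ (n : ℕ) (u v : Fin n → ℤ → ℤ → ℂ) (d : Fin n → ℂ)
      (E X : ℤ → ℤ → ℤ → ℂ), PlDe j e κ M σ T g G WK K u v d E X →
    ∀ V' : Finset Nd, V' ⊆ WK →
      LabOK (j := j) (e := e) (κ := κ) (T := T) (g := g) v d (Sh j T (Z0 j e I)) V' θ →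
    ∀ (W : Finset Nd) (J : Nd), Full W J → W ⊆ V' → ∀ F : Fin 4 → ℤ → ℂ, F j = P →
      F (j.succAbove (e + 2)) = G →
      (∀ i, i ≠ j → i ≠ j.succAbove (e + 2) → ∀ p ∈ W, TRec.aq (2 + k) p (F i) ≤ 1) →
      (∀ p ∈ W, ∑ y ∈ iv p, ‖G y‖ ^ 2 ≤ len p) → HL j e P G W 7 k1 →
    ∀ bb : ℤ, (bb = -1 ∨ bb = -7) →
      ∃ Ka Kb : ℤ → ℤ → ℂ, (∀ T A, ∏ i, rs J F i (A - sl i * T) = Ka T A + Kb T A) ∧
        ∑ p ∈ W.filter (fun p => ¬ Bad W 7 p), ∑ x ∈ adm p.1 p.2, ‖LboxG (2 ^ p.1) bb Ka x‖ ≤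
          K1 * √(k1 + 2 ^ 31 * M ^ 2 * σ ^ (1 / 5 : ℝ) + θ * (1 / σ * M)) * len J ∧
        ∑ p ∈ W.filter (fun p => ¬ Bad W 7 p), ∑ x ∈ adm p.1 p.2, ‖LboxG (2 ^ p.1) bb Kb x‖ ≤
          K1 * (1 + 1 / k) * σ ^ (1 / 20 : ℝ) * M * len J := by
  obtain ⟨K2, hK2, hW2⟩ := error_words
  refine ⟨K2 + 96 * (16 * (2 * (7 + 2 + 1) + 1) + 1), by positivity, ?_⟩
  intro j e k κ M σ θ k1 hk hσ hσs hθ hk10 T g hg P G I hP hG WK K
    hKI n u v d E X hD V' hV' hlab W J hW hWV F hFj hF3 hF hG2 hL bb hbb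
  have hσ1 : σ ≤ 1 := hσs.trans (by norm_num)
  have hκ := hg.k0
  have hM := hg.M0
  have hV : 0 < M / κ := div_pos hM hκ
  have hWK : W ⊆ WK := hWV.trans hV'
  have hJK : iv J ⊆ iv K := hD.full.reg.1 J (hWK hW.top)
  have hJI : iv J ⊆ iv I := hJK.trans hKI
  have hpJ : ∀ p ∈ W, iv p ⊆ iv J := hW.reg.1
  have ha0 : j.succAbove e ≠ j.succAbove (e + 2) := (dst_j j e).2.2.2.1.symm
  have ha1 : j.succAbove (e + 1) ≠ j.succAbove (e + 2) := (dst_j j e).2.2.2.2.1.symm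
  have haF0 : ∀ p ∈ W, TRec.aq (2 + k) p (F (j.succAbove e)) ≤ 1 :=
    hF _ (Fin.succAbove_ne j e) ha0
  have haF1 : ∀ p ∈ W, TRec.aq (2 + k) p (F (j.succAbove (e + 1))) ≤ 1 :=
    hF _ (Fin.succAbove_ne j (e + 1)) ha1
  have hn : ∀ (A A' : Finset ℤ) (a : ℤ → ℤ → ℂ), κ * BAt112.n2 A A' a ≤ M →
      BAt112.n2 A A' a ≤ M / κ := fun A A' a h1 => by
    rw [le_div_iff₀ hκ, mul_comm]; exact h1
  have hE2W : E2T W (sl j - sl (j.succAbove (e + 2)))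
      (sl (j.succAbove e) - sl (j.succAbove (e + 2)))
      (sl (j.succAbove (e + 1)) - sl (j.succAbove (e + 2))) (T e)
      (T (e + 1)) (9 * σ ^ 3 * (M / κ)) E := fun p hp => hD.e2 p (hWK hp)
  have hXRW : XR W (sl j - sl (j.succAbove (e + 2)))
      (sl (j.succAbove e) - sl (j.succAbove (e + 2)))
      (sl (j.succAbove (e + 1)) - sl (j.succAbove (e + 2))) (T e)
      (T (e + 1)) (Cc (g e) G (sl j - sl (j.succAbove (e + 2)))
        (sl (j.succAbove e) - sl (j.succAbove (e + 2)))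
        (sl (j.succAbove (e + 1)) - sl (j.succAbove (e + 2))))
      (M / κ) σ (σ ^ 3) (σ ^ 3) X := fun p hp => hD.xr p (hWK hp)
  have hFj' : ∀ y ∈ iv J, F j y = atom j κ T (g 0) (g 1) (g 2) y := fun y hy => by
    rw [hFj]; exact hP y (hJI hy)
  refine ⟨Kme j e κ T g u v d (rs J F), Kbe j e κ T g u v d J F,
    split_kbe j e κ T g u v d J F, ?_, ?_⟩
  · -- main word
    have hrs : ∀ i y, ‖rs J F i y‖ ≤ ‖F i y‖ := by
      intro i y
      unfold rs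
      split_ifs
      · exact le_rfl
      · simp
    have hr0 : ∀ p ∈ W, TRec.aq (2 + k) p (rs J F (j.succAbove e)) ≤ 1 := fun p hp =>
      (BadN360.aq_mono (by linarith) fun y _ => hrs _ y).trans (haF0 p hp)
    have hr1 : ∀ p ∈ W, TRec.aq (2 + k) p (rs J F (j.succAbove (e + 1))) ≤ 1 := fun p hp =>
      (BadN360.aq_mono (by linarith) fun y _ => hrs _ y).trans (haF1 p hp)
    set kEE : ℝ := kE κ M (M / κ) (9 * σ ^ 3 * (M / κ)) (2 ^ 25 * σ ^ (2 / 5 : ℝ)) 1 with hkEE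
    have hkE0 : 0 ≤ kEE := kE_nonneg hκ.le hM.le (by positivity) zero_le_one
    have hc0 : ∑ q ∈ T e ×ˢ T (e + 1), ‖g e q.1 q.2‖ ^ 2 ≤ M / κ := by
      rw [Finset.sum_product]; exact hn _ _ _ (AtD.nn hg e)
    have hS4 : EW49.S4W W 0 (M / κ) (2 ^ 25 * σ ^ (2 / 5 : ℝ)) (sl j - sl (j.succAbove (e + 2)))
        (sl (j.succAbove e) - sl (j.succAbove (e + 2)))
        (sl (j.succAbove (e + 1)) - sl (j.succAbove (e + 2)))
        (T e) (T (e + 1)) X (fun _ => 1) := by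
      obtain ⟨s0, s1, s2⟩ := sd j e
      exact s4w_of_XR' (M := M / κ) (c := g e) (F := G) s0 s1 s2 hσ hσ1
        (show (0 : ℝ) ≤ σ ^ 3 by positivity) le_rfl (le_refl (σ ^ 3)) hV.le le_rfl
        (AtD.gg hg e) hc0 hG2 hXRW
    have main := main_word (e := e) hκ.le T g hM.le (show (0 : ℝ) ≤ 1 / σ by positivity)
      (AtD.nn2 hg e) u v d
      hD.hu hD.hd I hW hJI hWV hθ hlab (rs J F)
      (fun p hp => Leaf259.sum2_of_aq (by linarith) (hr0 p hp))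
      (fun p hp => Leaf259.sum2_of_aq (by linarith) (hr1 p hp)) hbb 7 (by norm_num) P G hk10 hkE0
      (hL _ fun p hp => Leaf259.sum2_of_aq (by linarith) (hr1 p hp))
      (fun r hr m p hp => ?_) (W.filter (fun p => ¬ Bad W 7 p))
      (Finset.filter_subset _ _) (fun p hp => (Finset.mem_filter.1 hp).2)
    · have e1 : 48 * (16 * (2 * (((7 : ℕ) : ℝ) + 2 + 1) + 1) + 1) *
          (2 * √(k1 + kEE + θ * (1 / σ * M))) * len J =
          96 * (16 * (2 * (7 + 2 + 1) + 1) + 1) * √(k1 + kEE + θ * (1 / σ * M)) * len J := by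
        push_cast; ring
      refine main.trans (e1.le.trans ?_)
      have hl := Growth.len_pos J
      refine mul_le_mul_of_nonneg_right ?_ hl.le
      refine mul_le_mul (by linarith) (Real.sqrt_le_sqrt ?_) (Real.sqrt_nonneg _) (by positivity)
      have := kE_le hκ hM hσ hσ1
      linarith
    · refine HErC702.herr_val j e T g hκ.le (AtD.gg hg (e + 2)) hM.le hV.le (by positivity)
        (by positivity) zero_le_one
        (AtD.nn1 hg e) (AtD.nn2 hg e) hW 7 le_rfl (r : ℤ) _ (rs J F (j.succAbove (e + 1)))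
        (fun z => by rw [norm_star])
        (fun p hp => Leaf259.sum2_of_aq (by linarith) (hr1 p hp))
        hE2W hS4 _ ?_ m p hp
      intro z z' y1 y2 y3 y4
      have hr3 : r < 3 := hr.trans_le (dj_le j e)
      refine er0_eq e hκ.le T g u v d E X P G I K hD.dec hr3 (hJI y1) (hJI y2) ?_ ?_
      · refine (congrArg (· ∈ iv K) ?_).mp (hJK y4)
        ring
      · refine hP _ (hJI ?_)
        exact y3
  · -- error words
    have h1 := kbe_sum j e hκ.le T g u v d E X hJK F hFj' (by rw [hF3]; exact hD.dec) hbb hpJ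
      (Finset.filter_subset (fun p => ¬ Bad W 7 p) W)
    refine h1.trans ?_
    have h2 := hW2 bb hbb W J hW j e T g F G E X (M / κ) σ k hV hσ hσs hk (AtD.gg hg e)
      (AtD.gg hg (e + 1)) (AtD.gg hg (e + 2))
      (hn _ _ _ (AtD.nn hg e)) (hn _ _ _ (AtD.nn1 hg e)) (hn _ _ _ (AtD.nn2 hg e)) haF0 haF1
      hG2 hG hE2W hD.hE hXRW
    rw [← mul_add]
    refine (mul_le_mul_of_nonneg_left h2 hκ.le).trans ?_
    have e1 : κ * (K2 * (1 + 1 / k) * σ ^ (1 / 20 : ℝ) * (M / κ) * len J) =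
        K2 * ((1 + 1 / k) * σ ^ (1 / 20 : ℝ) * M * len J) := by field_simp
    rw [e1]
    have hl := Growth.len_pos J
    have h20 : 0 < σ ^ (1 / 20 : ℝ) := Real.rpow_pos_of_pos hσ _
    have h3 : 0 ≤ (1 + 1 / k) * σ ^ (1 / 20 : ℝ) * M * len J := by positivity
    calc _ ≤ (K2 + 96 * (16 * (2 * (7 + 2 + 1) + 1) + 1)) *
          ((1 + 1 / k) * σ ^ (1 / 20 : ℝ) * M * len J) :=
          mul_le_mul_of_nonneg_right (by linarith) h3
      _ = _ := by ring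

end Crest.Agent.R079.CoEx255
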