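import Crest.Agent.R079.RuS2_256

/-! R079, RuleS assembly, leaf S9 part 3 (helper256): REGIONS (windows of `plug2` and of the labels),
numerology, `CoreG`, `RuleS`, hypothesis `hS` of `Par4_734`. -/

set_option autoImplicit false
set_option linter.unusedVariables false

namespace Crest.Agent.R079.RuS256

open Finset Crest.Agent.R079.Grid Crest.Agent.R079.Growth Crest.Agent.R079.QRed
  Crest.Agent.R079.Glue Crest.Agent.R079.TWin Crest.Agent.R079.R244 Crest.Agent.R079.F24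
  Crest.Agent.R079.XR112 Crest.Agent.R079.XS4x219 Crest.Agent.R079.EWG990 Crest.Agent.R079.EW5702
  Crest.Agent.R079.Cg408 Crest.Agent.R079.Tr230 Crest.Agent.R079.LK990 Crest.Agent.R079.MainW259
  Crest.Agent.R079.S2D530 Crest.Agent.R079.F2 Crest.Agent.R079.Ero526 Crest.Agent.R079.OpLev

/-- the windows of `plug2` in the form `PlD` -/
theorem plug_windows {j : Fin 4} (hj : j ≠ 3) {κ M σ : ℝ} {T : Fin 3 → Finset ℤ}
    {g : Fin 3 → ℤ → ℤ → ℂ} (hg : AtD κ M T g) (hσ : 0 < σ) {R : Finset Nd} {I : Nd} (hR : Full R I)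
    {G : ℤ → ℂ} (hG : ∀ p ∈ R, ∑ y ∈ iv p, ‖G y‖ ^ 2 ≤ len p) :
    ∃ (S : Finset Nd) (V : Nd → Finset Nd), Part R S V (2 + 16 / σ ^ 3) ∧
      ∀ K ∈ S, ∃ (n : ℕ) (u v : Fin n → ℤ → ℤ → ℂ) (d : Fin n → ℂ) (E X : ℤ → ℤ → ℤ → ℂ),
        PlD j κ M σ T g G (V K) K u v d E X := by
  have h32 : j.succAbove 2 = 3 := sA2 j hj
  obtain ⟨s0, s1, s2⟩ := sd j
  rw [h32] at s0 s1 s2
  have hV : 0 < M / κ := div_pos hg.M0 hg.k0
  obtain ⟨S, V, hP, hS⟩ := Plug2700.plug2 hR s0 s1 s2 (T 0) (T 1) (g 0) G (M := M / κ) (A := 1)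
    (V := M / κ) hV.le zero_le_one hV (by rw [mul_one]) (by
      rw [Finset.sum_product]
      have := hg.n0
      rw [le_div_iff₀ hg.k0, mul_comm]
      exact this) (fun p hp => by rw [one_mul]; exact hG p hp) (σ := σ) (θ := σ ^ 3) (η := σ ^ 3) hσ
    (by positivity) (by positivity)
  refine ⟨S, V, hP, fun K hK => ?_⟩
  obtain ⟨n, u, v, d, E, X, h1, h2, h3, h4, h5, h6, h7⟩ := hS K hK
  exact ⟨n, u, v, d, E, X,
    { full := hP.full K hK, hu := h1, hv := h2, hd := h3, dec := h4, hE := h5, e2 := h6, xr := h7 }⟩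

open Classical in
/-- **THE REGION**: windows of the labels inside the windows of `plug2` -/
theorem region_core : ∃ K1 : ℝ, 0 ≤ K1 ∧ ∀ (j : Fin 4), j ≠ 3 →
    ∀ (k q3 κ M σ θ s ε h : ℝ), 0 < k → 2 < q3 → 0 < σ → σ ≤ 1 / 2 ^ 60 → 0 < θ → 0 ≤ s →
    ε ≤ 1 → 0 < h → ∀ (T : Fin 3 → Finset ℤ) (g : Fin 3 → ℤ → ℤ → ℂ), AtD κ M T g →
    ∀ (κ0 : ℕ), 13 ≤ κ0 → ∀ (P G X0 E0 : ℤ → ℂ) (R : Finset Nd) (I : Nd), Full R I →
      (∀ y ∈ iv I, P y = atom j κ T (g 0) (g 1) (g 2) y) → (∀ y, ‖G y‖ ≤ 1 / σ) →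
      (∀ y ∈ iv I, P y = X0 y + E0 y) → (∀ p ∈ R, TRec.aq (2 + k) p P ≤ 1) →
      (∀ p ∈ R, TRec.aq q3 p G ≤ 1) → (∀ p ∈ R, av p E0 ≤ ε) →
      (∀ p ∈ R, av p X0 ≤ 2 → OLev κ0 j p X0 s) →
    ∃ (S : Finset Nd) (V : Nd → Finset Nd),
      Part R S V ((1 + 3 * (2 + 40 * (1 / σ * M) ^ 2 / θ ^ 2)) * (1 + (2 + 16 / σ ^ 3))) ∧
      ∀ K' ∈ S, ∀ (W : Finset Nd) (J : Nd), Full W J → W ⊆ V K' → ∀ F : Fin 4 → ℤ → ℂ, F j = P →
        F 3 = G → (∀ i, i ≠ j → i ≠ 3 → ∀ p ∈ W, TRec.aq (2 + k) p (F i) ≤ 1) →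
        ∀ bb : ℤ, (bb = -1 ∨ bb = -7) →
        ∃ Ka Kb : ℤ → ℤ → ℂ, (∀ T A, ∏ i, rs J F i (A - sl i * T) = Ka T A + Kb T A) ∧
          ∑ p ∈ W.filter (fun p => ¬ Bad W 7 p), ∑ x ∈ adm p.1 p.2, ‖LboxG (2 ^ p.1) bb Ka x‖ ≤
            K1 * √(Qm q3 M σ θ s ε h) * len J ∧
          ∑ p ∈ W.filter (fun p => ¬ Bad W 7 p), ∑ x ∈ adm p.1 p.2, ‖LboxG (2 ^ p.1) bb Kb x‖ ≤
            K1 * (1 + 1 / k) * σ ^ (1 / 20 : ℝ) * M * len J := by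
  obtain ⟨K1, hK1, hw⟩ := window_core
  refine ⟨K1, hK1, ?_⟩
  intro j hj k q3 κ M σ θ s ε h hk hq3 hσ hσs hθ hs hε hh T g hg κ0 hκ0 P G X0 E0 R I hR hP hG hPX
    haP haG hE0 hO
  have hG2 : ∀ p ∈ R, ∑ y ∈ iv p, ‖G y‖ ^ 2 ≤ len p := fun p hp => by
    have := Leaf259.sum2_of_aq hq3.le (haG p hp)
    rwa [one_mul] at this
  obtain ⟨S0, V0, hP0, hS0⟩ := plug_windows hj hg hσ hR hG2
  have hex : ∀ K : Nd, ∃ (n : ℕ) (u v : Fin n → ℤ → ℤ → ℂ) (d : Fin n → ℂ)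
      (E X : ℤ → ℤ → ℤ → ℂ), K ∈ S0 → PlD j κ M σ T g G (V0 K) K u v d E X := by
    intro K
    by_cases hK : K ∈ S0
    · obtain ⟨n, u, v, d, E, X, h1⟩ := hS0 K hK
      exact ⟨n, u, v, d, E, X, fun _ => h1⟩
    · exact ⟨0, fun _ _ _ => 0, fun _ _ _ => 0, fun _ => 0, fun _ _ _ => 0, fun _ _ _ => 0,
        fun h => absurd h hK⟩
  choose n u v d E X hD using hex
  obtain ⟨S, V, hPt, hSV⟩ := main_windows hR j hg.k0.le T g hg.M0.le hg.n1 hP0 I n v d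
    (D := 1 / σ) (fun K hK => (hD K hK).hv) (fun K hK => (hD K hK).hd) hθ
  refine ⟨S, V, hPt, ?_⟩
  intro K' hK' W J hW hWV F hFj hF3 hF bb hbb
  obtain ⟨K, hK, hK'K, hVK, hlab⟩ := hSV K' hK'
  have hWR : ∀ p ∈ W, p ∈ R := fun p hp => hP0.wsub K hK (hVK (hWV hp))
  exact hw j hj k q3 κ M σ θ s ε h hk hq3 hσ hσs hθ hs hε hh T g hg κ0 hκ0 P G X0 E0 I hP hG hPX
    (V0 K) K (hR.reg.1 K (hP0.sub hK)) (n K) (u K) (v K) (d K) (E K) (X K) (hD K hK) (V K') hVK hlab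
    W J hW hWV F hFj hF3 hF (fun p hp => haP p (hWR p hp)) (fun p hp => haG p (hWR p hp))
    (fun p hp => hE0 p (hWR p hp)) (fun p hp => hO p (hWR p hp)) bb hbb

/-! ### numerology -/

/-- the gain -/
noncomputable def gS (q3 gm s1 : ℝ) : ℝ := min (gm / 4) (min s1 (gm * (q3 - 2) / 8))

theorem gS_pos {q3 gm s1 : ℝ} (hq3 : 2 < q3) (hgm : 0 < gm) (hs1 : 0 < s1) : 0 < gS q3 gm s1 :=
  lt_min (by positivity) (lt_min hs1 (by have : 0 < q3 - 2 := by linarith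
                                         positivity))

theorem gS_1 (q3 gm s1 : ℝ) : gS q3 gm s1 ≤ gm / 4 := min_le_left _ _
theorem gS_2 (q3 gm s1 : ℝ) : gS q3 gm s1 ≤ s1 := (min_le_right _ _).trans (min_le_left _ _)
theorem gS_3 (q3 gm s1 : ℝ) : gS q3 gm s1 ≤ gm * (q3 - 2) / 8 :=
  (min_le_right _ _).trans (min_le_right _ _)

theorem num_Q {q3 C gm s1 A A2 b t c : ℝ} (hq3 : 2 < q3) (hA : 0 ≤ A) (hA2 : 0 ≤ A2)
    (h1 : c ≤ gm / 4) (h2 : c ≤ s1) (h3 : c ≤ gm * (q3 - 2) / 8)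
    (h4 : 4 * C + 2 * c ≤ b / 5) (ht : 0 < t) (ht1 : t ≤ 1) :
    Qm q3 ((A + 1) * t ^ (-(2 * C))) (t ^ b) (t ^ (b + 2 * C + 2 * c)) (A2 * t ^ gm) (t ^ s1)
      (t ^ (-(gm / 4))) ≤
      (2 ^ 54 * A2 + 2 ^ 20 + 2 ^ 18 + 2 ^ 31 * (A + 1) ^ 2 + (A + 1)) * t ^ (2 * c) := by
  have mono : ∀ {x y : ℝ}, x ≤ y → t ^ y ≤ t ^ x := fun h =>
    Real.rpow_le_rpow_of_exponent_ge ht ht1 h
  have e1 : 2 ^ 54 * (t ^ (-(gm / 4))) ^ 2 * (A2 * t ^ gm) = 2 ^ 54 * A2 * t ^ (gm / 2) := by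
    have : (t ^ (-(gm / 4))) ^ 2 * t ^ gm = t ^ (gm / 2) := by
      rw [← Real.rpow_natCast, ← Real.rpow_mul ht.le, ← Real.rpow_add ht]
      congr 1
      push_cast
      ring
    rw [← this]; ring
  have e2 : (t ^ (-(gm / 4))) ^ (2 - q3) = t ^ (gm * (q3 - 2) / 4) := by
    rw [← Real.rpow_mul ht.le]
    congr 1
    ring
  have e3 : (t ^ s1) ^ 2 = t ^ (2 * s1) := by
    rw [← Real.rpow_natCast, ← Real.rpow_mul ht.le]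
    congr 1
    push_cast
    ring
  have e4 : ((A + 1) * t ^ (-(2 * C))) ^ 2 * (t ^ b) ^ (1 / 5 : ℝ) =
      (A + 1) ^ 2 * t ^ (b / 5 - 4 * C) := by
    rw [mul_pow, mul_assoc]
    congr 1
    rw [← Real.rpow_natCast (t ^ (-(2 * C))), ← Real.rpow_mul ht.le, ← Real.rpow_mul ht.le,
      ← Real.rpow_add ht]
    congr 1
    push_cast
    ring
  have e5 : t ^ (b + 2 * C + 2 * c) * (1 / t ^ b * ((A + 1) * t ^ (-(2 * C)))) =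
      (A + 1) * t ^ (2 * c) := by
    rw [one_div, ← Real.rpow_neg ht.le]
    have : t ^ (b + 2 * C + 2 * c) * t ^ (-b) * t ^ (-(2 * C)) = t ^ (2 * c) := by
      rw [← Real.rpow_add ht, ← Real.rpow_add ht]
      congr 1
      ring
    rw [← this]; ring
  have f1 : t ^ (gm / 2) ≤ t ^ (2 * c) := mono (by linarith)
  have f2 : t ^ (gm * (q3 - 2) / 4) ≤ t ^ (2 * c) := mono (by linarith)
  have f3 : t ^ (2 * s1) ≤ t ^ (2 * c) := mono (by linarith)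
  have f4 : t ^ (b / 5 - 4 * C) ≤ t ^ (2 * c) := mono (by linarith)
  have e4' : 2 ^ 31 * ((A + 1) * t ^ (-(2 * C))) ^ 2 * (t ^ b) ^ (1 / 5 : ℝ) =
      2 ^ 31 * ((A + 1) ^ 2 * t ^ (b / 5 - 4 * C)) :=
    (mul_assoc _ _ _).trans (congrArg (fun x : ℝ => 2 ^ 31 * x) e4)
  have e2' : 2 ^ 20 * (t ^ (-(gm / 4))) ^ (2 - q3) = 2 ^ 20 * t ^ (gm * (q3 - 2) / 4) :=
    congrArg (fun x : ℝ => 2 ^ 20 * x) e2
  have e3' : 2 ^ 18 * (t ^ s1) ^ 2 = 2 ^ 18 * t ^ (2 * s1) :=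
    congrArg (fun x : ℝ => 2 ^ 18 * x) e3
  unfold Qm
  have p1 : (0 : ℝ) ≤ 2 ^ 54 * A2 := mul_nonneg (by norm_num) hA2
  have p4 : (0 : ℝ) ≤ 2 ^ 31 * (A + 1) ^ 2 := mul_nonneg (by norm_num) (sq_nonneg _)
  have g1 := mul_le_mul_of_nonneg_left f1 p1
  have g4 := mul_le_mul_of_nonneg_left f4 p4
  have g2 : 2 ^ 20 * t ^ (gm * (q3 - 2) / 4) ≤ 2 ^ 20 * t ^ (2 * c) :=
    mul_le_mul_of_nonneg_left f2 (by norm_num)
  have g3 : 2 ^ 18 * t ^ (2 * s1) ≤ 2 ^ 18 * t ^ (2 * c) :=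
    mul_le_mul_of_nonneg_left f3 (by norm_num)
  rw [e1, e2', e3', e4', e5]
  generalize t ^ (2 * c) = y at *
  linarith

theorem num_cnt {C A b t c : ℝ} (hA : 0 ≤ A) (hC : 0 ≤ C) (hb : 0 ≤ b) (hc : 0 ≤ c) (ht : 0 < t)
    (ht1 : t ≤ 1) :
    (1 + 3 * (2 + 40 * (1 / t ^ b * ((A + 1) * t ^ (-(2 * C)))) ^ 2 /
      (t ^ (b + 2 * C + 2 * c)) ^ 2)) * (1 + (2 + 16 / (t ^ b) ^ 3)) ≤
      (7 + 120 * (A + 1) ^ 2) * 19 * t ^ (-(7 * b + 8 * C + 4 * c)) := by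
  have e1 : 40 * (1 / t ^ b * ((A + 1) * t ^ (-(2 * C)))) ^ 2 / (t ^ (b + 2 * C + 2 * c)) ^ 2 =
      40 * (A + 1) ^ 2 * t ^ (-(4 * b + 8 * C + 4 * c)) := by
    rw [one_div, ← Real.rpow_neg ht.le, div_eq_mul_inv, ← Real.rpow_natCast (t ^ (b + _ + _)),
      ← Real.rpow_mul ht.le, ← Real.rpow_neg ht.le]
    have : (t ^ (-b) * ((A + 1) * t ^ (-(2 * C)))) ^ 2 = (A + 1) ^ 2 * t ^ (-(2 * b + 4 * C)) := by
      have h : t ^ (-b) * ((A + 1) * t ^ (-(2 * C))) = (A + 1) * t ^ (-b + -(2 * C)) := by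
        rw [Real.rpow_add ht]; ring
      rw [h, mul_pow, ← Real.rpow_natCast (t ^ _), ← Real.rpow_mul ht.le]
      congr 2
      push_cast
      ring
    rw [this, mul_assoc, mul_assoc, ← Real.rpow_add ht, mul_assoc]
    congr 4
    push_cast
    ring
  have e2 : 16 / (t ^ b) ^ 3 = 16 * t ^ (-(3 * b)) := by
    rw [div_eq_mul_inv, ← Real.rpow_natCast (t ^ b), ← Real.rpow_mul ht.le, ← Real.rpow_neg ht.le]
    congr 2
    push_cast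
    ring
  have one : ∀ {x : ℝ}, 0 ≤ x → 1 ≤ t ^ (-x) := fun h => one_le_neg ht ht1 h
  have f1 := one (show 0 ≤ 4 * b + 8 * C + 4 * c by positivity)
  have f2 := one (show 0 ≤ 3 * b by positivity)
  have g1 : 1 + 3 * (2 + 40 * (A + 1) ^ 2 * t ^ (-(4 * b + 8 * C + 4 * c))) ≤
      (7 + 120 * (A + 1) ^ 2) * t ^ (-(4 * b + 8 * C + 4 * c)) := by
    nlinarith
  have g2 : 1 + (2 + 16 * t ^ (-(3 * b))) ≤ 19 * t ^ (-(3 * b)) := by linarith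
  rw [e1, e2]
  calc _ ≤ ((7 + 120 * (A + 1) ^ 2) * t ^ (-(4 * b + 8 * C + 4 * c))) * (19 * t ^ (-(3 * b))) :=
        mul_le_mul g1 g2 (by positivity) (by positivity)
    _ = (7 + 120 * (A + 1) ^ 2) * 19 * (t ^ (-(4 * b + 8 * C + 4 * c)) * t ^ (-(3 * b))) := by ring
    _ = _ := by
        rw [← Real.rpow_add ht]
        congr 2
        ring

theorem num_K {C A b t c : ℝ} (hA : 0 ≤ A) (h4 : 2 * C + c ≤ b / 20) (ht : 0 < t) (ht1 : t ≤ 1) :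
    (t ^ b) ^ (1 / 20 : ℝ) * ((A + 1) * t ^ (-(2 * C))) ≤ (A + 1) * t ^ c := by
  have e : (t ^ b) ^ (1 / 20 : ℝ) * t ^ (-(2 * C)) = t ^ (b / 20 - 2 * C) := by
    rw [← Real.rpow_mul ht.le, ← Real.rpow_add ht]
    congr 1
    ring
  have f : t ^ (b / 20 - 2 * C) ≤ t ^ c := Real.rpow_le_rpow_of_exponent_ge ht ht1 (by linarith)
  calc _ = (A + 1) * ((t ^ b) ^ (1 / 20 : ℝ) * t ^ (-(2 * C))) := by ring
    _ = (A + 1) * t ^ (b / 20 - 2 * C) := by rw [e]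
    _ ≤ _ := mul_le_mul_of_nonneg_left f (by linarith)

end Crest.Agent.R079.RuS256
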