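import Crest.Agent.R079.CoE2_255
import Crest.Agent.R079.RuS3_256

/-! R079, Step II of `RuleNT` (helper255), EDGE-GENERIC version of helper256's `RuS3_256`: REGIONS
(windows of `plug2` and of the labels), dictionary-free. -/

set_option autoImplicit false
set_option linter.unusedVariables false

namespace Crest.Agent.R079.CoEx255

open Finset Crest.Agent.R079.Grid Crest.Agent.R079.Growth Crest.Agent.R079.QRed
  Crest.Agent.R079.Glue Crest.Agent.R079.TWin Crest.Agent.R079.R244 Crest.Agent.R079.F24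
  Crest.Agent.R079.XR112 Crest.Agent.R079.XS4x219 Crest.Agent.R079.EWG990
  Crest.Agent.R079.Cg408 Crest.Agent.R079.Tr230 Crest.Agent.R079.LK990 Crest.Agent.R079.MainEx255
  Crest.Agent.R079.S2D530 Crest.Agent.R079.F2 Crest.Agent.R079.Ero526
open Crest.Agent.R079.RuS256 (AtD)

/-- the windows of `plug2` in the form `PlDe` -/
theorem plug_windows {j : Fin 4} (e : Fin 3) {κ M σ : ℝ} {T : Fin 3 → Finset ℤ}
    {g : Fin 3 → ℤ → ℤ → ℂ} (hg : AtD κ M T g) (hσ : 0 < σ) {R : Finset Nd} {I : Nd} (hR : Full R I)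
    {G : ℤ → ℂ} (hG : ∀ p ∈ R, ∑ y ∈ iv p, ‖G y‖ ^ 2 ≤ len p) :
    ∃ (S : Finset Nd) (V : Nd → Finset Nd), Part R S V (2 + 16 / σ ^ 3) ∧
      ∀ K ∈ S, ∃ (n : ℕ) (u v : Fin n → ℤ → ℤ → ℂ) (d : Fin n → ℂ) (E X : ℤ → ℤ → ℤ → ℂ),
        PlDe j e κ M σ T g G (V K) K u v d E X := by
  obtain ⟨s0, s1, s2⟩ := sd j e
  have hV : 0 < M / κ := div_pos hg.M0 hg.k0
  obtain ⟨S, V, hP, hS⟩ := Plug2700.plug2 hR s0 s1 s2 (T e) (T (e + 1)) (g e) G (M := M / κ) (A := 1)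
    (V := M / κ) hV.le zero_le_one hV (by rw [mul_one]) (by
      rw [Finset.sum_product]
      have := AtD.nn hg e
      rw [le_div_iff₀ hg.k0, mul_comm]
      exact this) (fun p hp => by rw [one_mul]; exact hG p hp) (σ := σ) (θ := σ ^ 3) (η := σ ^ 3) hσ
    (by positivity) (by positivity)
  refine ⟨S, V, hP, fun K hK => ?_⟩
  obtain ⟨n, u, v, d, E, X, h1, h2, h3, h4, h5, h6, h7⟩ := hS K hK
  exact ⟨n, u, v, d, E, X,
    { full := hP.full K hK, hu := h1, hv := h2, hd := h3, dec := h4, hE := h5, e2 := h6, xr := h7 }⟩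

open Classical in
/-- **THE REGION**: windows of the labels inside the windows of `plug2` -/
theorem region_core : ∃ K1 : ℝ, 0 ≤ K1 ∧ ∀ (j : Fin 4) (e : Fin 3),
    ∀ (k κ M σ θ k1 : ℝ), 0 < k → 0 < σ → σ ≤ 1 / 2 ^ 60 → 0 < θ → 0 ≤ k1 →
    ∀ (T : Fin 3 → Finset ℤ) (g : Fin 3 → ℤ → ℤ → ℂ), AtD κ M T g →
    ∀ (P G : ℤ → ℂ) (R : Finset Nd) (I : Nd), Full R I →
      (∀ y ∈ iv I, P y = atom j κ T (g 0) (g 1) (g 2) y) → (∀ y, ‖G y‖ ≤ σ ^ (-(2 / k))) →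
      (∀ p ∈ R, ∑ y ∈ iv p, ‖G y‖ ^ 2 ≤ len p) →
      (∀ W J, Full W J → W ⊆ R → HL j e P G W 7 k1) →
    ∃ (S : Finset Nd) (V : Nd → Finset Nd),
      Part R S V ((1 + 3 * (2 + 40 * (1 / σ * M) ^ 2 / θ ^ 2)) * (1 + (2 + 16 / σ ^ 3))) ∧
      ∀ K' ∈ S, ∀ (W : Finset Nd) (J : Nd), Full W J → W ⊆ V K' → ∀ F : Fin 4 → ℤ → ℂ, F j = P →
        F (j.succAbove (e + 2)) = G →
        (∀ i, i ≠ j → i ≠ j.succAbove (e + 2) → ∀ p ∈ W, TRec.aq (2 + k) p (F i) ≤ 1) →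
        ∀ bb : ℤ, (bb = -1 ∨ bb = -7) →
        ∃ Ka Kb : ℤ → ℤ → ℂ, (∀ T A, ∏ i, rs J F i (A - sl i * T) = Ka T A + Kb T A) ∧
          ∑ p ∈ W.filter (fun p => ¬ Bad W 7 p), ∑ x ∈ adm p.1 p.2, ‖LboxG (2 ^ p.1) bb Ka x‖ ≤
            K1 * √(k1 + 2 ^ 31 * M ^ 2 * σ ^ (1 / 5 : ℝ) + θ * (1 / σ * M)) * len J ∧
          ∑ p ∈ W.filter (fun p => ¬ Bad W 7 p), ∑ x ∈ adm p.1 p.2, ‖LboxG (2 ^ p.1) bb Kb x‖ ≤
            K1 * (1 + 1 / k) * σ ^ (1 / 20 : ℝ) * M * len J := by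
  obtain ⟨K1, hK1, hw⟩ := window_core
  refine ⟨K1, hK1, ?_⟩
  intro j e k κ M σ θ k1 hk hσ hσs hθ hk1 T g hg P G R I hR hP hG hG2 hL
  obtain ⟨S0, V0, hP0, hS0⟩ := plug_windows (j := j) e hg hσ hR hG2
  have hex : ∀ K : Nd, ∃ (n : ℕ) (u v : Fin n → ℤ → ℤ → ℂ) (d : Fin n → ℂ)
      (E X : ℤ → ℤ → ℤ → ℂ), K ∈ S0 → PlDe j e κ M σ T g G (V0 K) K u v d E X := by
    intro K
    by_cases hK : K ∈ S0
    · obtain ⟨n, u, v, d, E, X, h1⟩ := hS0 K hK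
      exact ⟨n, u, v, d, E, X, fun _ => h1⟩
    · exact ⟨0, fun _ _ _ => 0, fun _ _ _ => 0, fun _ => 0, fun _ _ _ => 0, fun _ _ _ => 0,
        fun h => absurd h hK⟩
  choose n u v d E X hD using hex
  obtain ⟨S, V, hPt, hSV⟩ := main_windows hR j e hg.k0.le T g hg.M0.le (AtD.nn1 hg e) hP0 I n v d
    (D := 1 / σ) (fun K hK => (hD K hK).hv) (fun K hK => (hD K hK).hd) hθ
  refine ⟨S, V, hPt, ?_⟩
  intro K' hK' W J hW hWV F hFj hF3 hF bb hbb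
  obtain ⟨K, hK, hK'K, hVK, hlab⟩ := hSV K' hK'
  have hWR : ∀ p ∈ W, p ∈ R := fun p hp => hP0.wsub K hK (hVK (hWV hp))
  exact hw j e k κ M σ θ k1 hk hσ hσs hθ hk1 T g hg P G I hP hG
    (V0 K) K (hR.reg.1 K (hP0.sub hK)) (n K) (u K) (v K) (d K) (E K) (X K) (hD K hK) (V K') hVK hlab
    W J hW hWV F hFj hF3 hF (fun p hp => hG2 p (hWR p hp)) (hL W J hW hWR) bb hbb

end Crest.Agent.R079.CoEx255
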