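import Crest.Agent.R079.EWG_990

/-! R079, Step II (RULE S), error words WITHOUT HEIGHTS of the two arbitrary letters (helper702).

`word_two`  : `S₂`-small edge `e` (height enters only as a logarithm), the two other edges `S₄`-bounded.
`word_four` : `S₄`-small edge `e`, one other edge of height `H` (only a logarithm), the third `S₄`-bounded.
`s4w_line`  : a line letter is `S₄`-bounded at its own nodes: `e2 ≤ 128 A` on every box. -/

set_option autoImplicit false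
set_option linter.unusedVariables false

namespace Crest.Agent.R079.EW4702

open Finset Crest.Agent.R079.Grid Crest.Agent.R079.Pot Crest.Agent.R079.Glue Crest.Agent.R079.R244
  Crest.Agent.R079.F24 Crest.Agent.R079.EW990 Crest.Agent.R079.EWG990
open Crest.Agent.R079.Cg408 (LboxG Lbox_LboxG LboxG_add)

/-! ### line letters -/

section line

variable {R : Finset (ℕ × ℤ)} {κ : ℕ} {V : ℝ} {α γ δ : ℤ} {T T' : Finset ℤ}

/-- fibre sum of a restricted letter along an injective affine map -/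
lemma sum_res_inj {β : ℤ} (hβ : β ≠ 0) (c : ℤ) (p : ℕ × ℤ) (F : ℤ → ℂ) {B : ℝ}
    (hF : ∑ y ∈ dI (p.1 + 7) p.2, ‖F y‖ ^ 2 ≤ B) (W : Finset ℤ) :
    ∑ w ∈ W, ‖res p F (β * w + c)‖ ^ 2 ≤ B := by
  classical
  refine le_trans ?_ hF
  have hinj : Set.InjOn (fun w : ℤ => β * w + c) W := by
    intro x _ y _ hxy
    simp only at hxy
    exact mul_left_cancel₀ hβ (by linarith)
  have e := Finset.sum_image (f := fun y : ℤ => ‖res p F y‖ ^ 2) hinj
  rw [← e]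
  have h2 : ∑ y ∈ W.image (fun w : ℤ => β * w + c), ‖res p F y‖ ^ 2 =
      ∑ y ∈ (W.image (fun w : ℤ => β * w + c)).filter
        (fun y => y ∈ dI (p.1 + 7) p.2), ‖F y‖ ^ 2 := by
    rw [Finset.sum_filter]
    refine Finset.sum_congr rfl fun y _ => ?_
    unfold res
    split_ifs
    · rfl
    · simp
  rw [h2]
  refine Finset.sum_le_sum_of_subset_of_nonneg ?_ fun _ _ _ => by positivity
  intro y hy
  exact (Finset.mem_filter.mp hy).2

/-- **`S₂` budget of a line letter with a square summable kernel** -/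
theorem s2w_sum (hα : α ≠ 0) (a : ℤ → ℤ → ℂ) {M A : ℝ} (hA : 0 ≤ A)
    (ha : ∑ z ∈ T, ∑ z' ∈ T', ‖a z z'‖ ^ 2 ≤ M) {F : ℤ → ℂ}
    (hF : ∀ p ∈ R, ∑ y ∈ dI (p.1 + 7) p.2, ‖F y‖ ^ 2 ≤ A * 2 ^ (p.1 + 7)) :
    EW49.S2W R κ (M * A) α γ δ T T' (fun _ => a) F := by
  classical
  refine EW990.s2w_of_total (a := fun _ => a) (fun p hp S => ?_)
  set Wf : Finset ℤ := S.image (fun t => t.1) with hWf
  have h3 : ∑ t ∈ S, ‖cK α γ δ T T' a (res p F) t.1 t.2.1 t.2.2‖ ^ 2 ≤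
      ∑ t ∈ Wf ×ˢ (T ×ˢ T'), ‖a t.2.1 t.2.2‖ ^ 2 *
        ‖res p F (α * t.1 + γ * t.2.1 + δ * t.2.2)‖ ^ 2 := by
    have h4 : ∑ t ∈ S, ‖cK α γ δ T T' a (res p F) t.1 t.2.1 t.2.2‖ ^ 2 =
        ∑ t ∈ S.filter (fun t => t.2.1 ∈ T ∧ t.2.2 ∈ T'), ‖a t.2.1 t.2.2‖ ^ 2 *
          ‖res p F (α * t.1 + γ * t.2.1 + δ * t.2.2)‖ ^ 2 := by
      rw [Finset.sum_filter]
      refine Finset.sum_congr rfl fun t _ => ?_
      unfold cK
      split_ifs with hT
      · rw [norm_mul, mul_pow]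
      · simp
    rw [h4]
    refine Finset.sum_le_sum_of_subset_of_nonneg ?_ fun _ _ _ => by positivity
    intro t ht
    rw [Finset.mem_filter] at ht
    rw [Finset.mem_product, Finset.mem_product]
    exact ⟨Finset.mem_image_of_mem _ ht.1, ht.2.1, ht.2.2⟩
  refine h3.trans ?_
  rw [Finset.sum_product, Finset.sum_comm]
  have h5 : ∀ y ∈ T ×ˢ T', ∑ x ∈ Wf, ‖a y.1 y.2‖ ^ 2 *
      ‖res p F (α * x + γ * y.1 + δ * y.2)‖ ^ 2 ≤ ‖a y.1 y.2‖ ^ 2 * (A * 2 ^ (p.1 + 7)) := by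
    intro y _
    rw [← Finset.mul_sum]
    refine mul_le_mul_of_nonneg_left ?_ (by positivity)
    have := sum_res_inj hα (γ * y.1 + δ * y.2) p F (hF p hp) Wf
    simpa only [add_assoc] using this
  refine (Finset.sum_le_sum h5).trans ?_
  rw [← Finset.sum_mul, Finset.sum_product]
  calc (∑ x ∈ T, ∑ y ∈ T', ‖a x y‖ ^ 2) * (A * 2 ^ (p.1 + 7))
      ≤ M * (A * 2 ^ (p.1 + 7)) := mul_le_mul_of_nonneg_right ha (by positivity)
    _ = 2 ^ (p.1 + 7) * (M * A) := by ring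

/-- one box of a line letter -/
lemma e2_line_le (hδ : δ ≠ 0) {a : ℤ → ℤ → ℂ} (ha : ∀ z z', ‖a z z'‖ ≤ 1) {A : ℝ} (hA : 0 ≤ A)
    {F : ℤ → ℂ} {p : ℕ × ℤ} (hF : ∑ y ∈ dI (p.1 + 7) p.2, ‖F y‖ ^ 2 ≤ A * 2 ^ (p.1 + 7))
    (k : ℕ) (w q p' : ℤ) :
    e2 (cK α γ δ T T' a (res p F) w) (2 ^ (p.1 + k)) q p' ≤ 128 * A := by
  set N : ℕ := 2 ^ (p.1 + k) with hN
  have hN0 : (0 : ℝ) < N := by rw [hN]; positivity
  have h1 : ∀ i : ℕ, ∑ j ∈ range N, ‖cK α γ δ T T' a (res p F) w (q + (i : ℤ)) (p' + (j : ℤ))‖ ^ 2 ≤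
      A * 2 ^ (p.1 + 7) := by
    intro i
    have h2 := sum_res_inj hδ (α * w + γ * (q + (i : ℤ)) + δ * p') p F hF
      ((range N).image (fun j : ℕ => (j : ℤ)))
    rw [Finset.sum_image (fun x _ y _ h => by exact_mod_cast h)] at h2
    refine le_trans (Finset.sum_le_sum fun j _ => ?_) h2
    unfold cK
    split_ifs
    · rw [norm_mul, mul_pow]
      have e : α * w + γ * (q + (i : ℤ)) + δ * (p' + (j : ℤ)) =
          δ * (j : ℤ) + (α * w + γ * (q + (i : ℤ)) + δ * p') := by ring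
      rw [e]
      exact mul_le_of_le_one_left (by positivity) (pow_le_one₀ (norm_nonneg _) (ha _ _))
    · rw [norm_zero, zero_pow two_ne_zero]; positivity
  unfold e2
  have h3 : ∑ i ∈ range N, ∑ j ∈ range N,
      ‖cK α γ δ T T' a (res p F) w (q + (i : ℤ)) (p' + (j : ℤ))‖ ^ 2 ≤
      (N : ℝ) * (A * 2 ^ (p.1 + 7)) := by
    refine (Finset.sum_le_sum fun i _ => h1 i).trans ?_
    rw [Finset.sum_const, Finset.card_range, nsmul_eq_mul]
  have h4 : (2 : ℝ) ^ p.1 ≤ N := by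
    rw [hN]; push_cast
    exact pow_le_pow_right₀ (by norm_num) (by omega)
  calc (1 / (N : ℝ) ^ 2) * _ ≤ (1 / (N : ℝ) ^ 2) * ((N : ℝ) * (A * 2 ^ (p.1 + 7))) :=
        mul_le_mul_of_nonneg_left h3 (by positivity)
    _ = 128 * A * (2 ^ p.1 / N) := by rw [pow_add]; field_simp; ring
    _ ≤ 128 * A * 1 := by
        refine mul_le_mul_of_nonneg_left ?_ (by positivity)
        rw [div_le_one hN0]; exact h4
    _ = 128 * A := by ring

/-- **a line letter is `S₄` bounded at its own nodes** -/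
theorem s4w_line (hδ : δ ≠ 0) {a : ℤ → ℤ → ℤ → ℂ} (ha : ∀ w z z', ‖a w z z'‖ ≤ 1) {A : ℝ}
    (hA : 0 ≤ A) {F : ℤ → ℂ}
    (hF : ∀ p ∈ R, ∑ y ∈ dI (p.1 + 7) p.2, ‖F y‖ ^ 2 ≤ A * 2 ^ (p.1 + 7))
    (h2 : EW49.S2W R κ V α γ δ T T' a F) :
    EW49.S4W R κ V (128 * A) α γ δ T T' a F := by
  intro p hp k hk S
  have h1 := mul_le_mul_of_nonneg_left (h2 p hp k hk S) (by positivity : 0 ≤ 128 * A)
  refine le_trans ?_ h1
  rw [Finset.mul_sum]
  refine Finset.sum_le_sum fun t _ => ?_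
  refine (e4_le_sq _ _ _ _).trans ?_
  rw [sq]
  exact mul_le_mul_of_nonneg_right (e2_line_le hδ (ha _) hA (hF p hp) k _ _ _)
    (e2_nonneg _ _ _ _)

end line

/-! ### words -/

lemma rpow_quarter {L : ℝ} (hL : 0 < L) : ((L ^ (-(1 / 4) : ℝ)) ^ 4 : ℝ) * L = 1 := by
  rw [← Real.rpow_natCast, ← Real.rpow_mul hL.le]
  norm_num
  rw [Real.rpow_neg_one, inv_mul_cancel₀ hL.ne']

/-- **`S₂`-small edge `e`, no heights on the other edges** -/
theorem word_two : ∃ K : ℝ, 0 ≤ K ∧ ∃ κ : ℕ, ∀ (bb : ℤ), bb = -1 ∨ bb = -7 →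
    ∀ (R : Finset (ℕ × ℤ)) (J : ℕ × ℤ), IsRegion R J →
    ∀ (j : Fin 4) (e : Fin 3) (d H L : ℝ), 0 < d → d ≤ H → 1 ≤ L → ∀ (V : ℝ), 0 ≤ V →
    ∀ (T : Fin 3 → Finset ℤ) (k : Fin 3 → ℤ → ℤ → ℤ → ℂ) (F : Fin 4 → ℤ → ℂ),
      (∀ x, x ≠ e → W2 R κ V j T k F x) → (∀ x, x ≠ e → W4 R κ V L j T k F x) →
      W2 R κ (d ^ 2 * V) j T k F e → WH H j T k F e → ∀ PP : Finset (ℤ × ℤ × ℤ),
        LW bb R J j T k F PP ≤ K * (d * Real.sqrt L * (1 + Real.log (H / d)) * 2 ^ (J.1 + 7) * V) := by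
  obtain ⟨K, hK, κ, h⟩ := fw24
  refine ⟨K, hK, κ, ?_⟩
  intro bb hbb R J hR j e d H L hd hdH hL V hV T k F h2 h4 he hb PP
  have hL0 : 0 < L := by linarith
  set x : ℝ := L ^ (-(1 / 4) : ℝ) with hx
  have hx0 : 0 < x := Real.rpow_pos_of_pos hL0 _
  have hx4 : x ^ 4 * L = 1 := rpow_quarter hL0
  have hx1 : x ≤ 1 := Real.rpow_le_one_of_one_le_of_nonpos hL (by norm_num)
  set c : Fin 3 → ℝ := fun u => if u = e then d⁻¹ else x with hc
  have ce : c e = d⁻¹ := by simp [hc]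
  have cx : ∀ u, u ≠ e → c u = x := fun u hu => by simp [hc, hu]
  have hc0 : ∀ u, 0 ≤ c u := by
    intro u
    by_cases hu : u = e
    · rw [hu, ce]; positivity
    · rw [cx u hu]; exact hx0.le
  have hW2 : ∀ u, W2 R κ V j T (sk c k) F u := by
    intro u
    by_cases hu : u = e
    · subst hu
      refine S2W.mono ?_ (W2.sk c he)
      rw [ce, ← mul_assoc]
      refine le_of_eq ?_
      have : d⁻¹ ^ 2 * d ^ 2 = 1 := by rw [← mul_pow, inv_mul_cancel₀ hd.ne', one_pow]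
      rw [this, one_mul]
    · refine S2W.mono ?_ (W2.sk c (h2 u hu))
      rw [cx u hu]
      exact mul_le_of_le_one_left hV (pow_le_one₀ hx0.le hx1)
  have hW4 : ∀ u, u ≠ e → W4 R κ V ((1 : ℝ) ^ 2) j T (sk c k) F u := by
    intro u hu
    have h6 := W4.sk c (h4 u hu)
    refine S4W.mono (by positivity) hV le_rfl ?_ h6
    rw [cx u hu, hx4]; norm_num
  have hWH : WH (H / d) j T (sk c k) F e := by
    intro w z z'
    rw [kW_sk]
    simp only [ce]
    rw [norm_mul, Complex.norm_real, Real.norm_of_nonneg (by positivity : (0 : ℝ) ≤ d⁻¹),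
      inv_mul_eq_div]
    exact div_le_div_of_nonneg_right (hb w z z') hd.le
  have hHd : 1 ≤ H / d := by rw [le_div_iff₀ hd]; linarith
  have main := h bb hbb R J hR j e 1 (H / d) one_pos le_rfl hHd V hV T (sk c k) F hW2 hW4 hWH PP
  obtain ⟨i, hie⟩ : ∃ i : Fin 3, i ≠ e := ⟨e + 1, add_one_ne e⟩
  obtain ⟨r, hri, hre, hall⟩ := exists_third i e hie
  rw [LW_sk c hc0, prod_three c i e r hie hri hre, cx i hie, ce, cx r hre, div_one] at main
  have hx2 : x ^ 2 * Real.sqrt L = 1 := by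
    have h7 : (x ^ 2 * Real.sqrt L) ^ 2 = 1 ^ 2 := by
      rw [mul_pow, Real.sq_sqrt hL0.le, ← pow_mul, hx4, one_pow]
    exact (pow_left_inj₀ (by positivity) zero_le_one two_ne_zero).1 h7
  have hL' : LW bb R J j T k F PP = (d * Real.sqrt L) * ((x * d⁻¹ * x) * LW bb R J j T k F PP) := by
    have : (d * Real.sqrt L) * (x * d⁻¹ * x) = 1 := by
      calc (d * Real.sqrt L) * (x * d⁻¹ * x) = (x ^ 2 * Real.sqrt L) * (d * d⁻¹) := by ring
        _ = 1 := by rw [hx2, mul_inv_cancel₀ hd.ne', one_mul]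
    rw [← mul_assoc, this, one_mul]
  rw [hL']
  refine (mul_le_mul_of_nonneg_left main (by positivity)).trans (le_of_eq ?_)
  ring

/-- **`S₄`-small edge `e`**: one other edge `i` with height `H` (only a logarithm), the third one
`S₄`-bounded -/
theorem word_four : ∃ K : ℝ, 0 ≤ K ∧ ∃ κ : ℕ, ∀ (bb : ℤ), bb = -1 ∨ bb = -7 →
    ∀ (R : Finset (ℕ × ℤ)) (J : ℕ × ℤ), IsRegion R J →
    ∀ (j : Fin 4) (e i : Fin 3), i ≠ e → ∀ (d H L : ℝ), 0 < d → d ≤ 1 → 1 ≤ H → 1 ≤ L →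
    ∀ (V : ℝ), 0 ≤ V →
    ∀ (T : Fin 3 → Finset ℤ) (k : Fin 3 → ℤ → ℤ → ℤ → ℂ) (F : Fin 4 → ℤ → ℂ),
      (∀ x, W2 R κ V j T k F x) → (∀ x, x ≠ e → x ≠ i → W4 R κ V L j T k F x) →
      W4 R κ V (d ^ 4) j T k F e → WH H j T k F i → ∀ PP : Finset (ℤ × ℤ × ℤ),
        LW bb R J j T k F PP ≤ K * (d * Real.sqrt L * (1 + Real.log (H / d ^ 2)) *
          2 ^ (J.1 + 7) * V) := by
  obtain ⟨K, hK, κ, h⟩ := fw24
  refine ⟨K, hK, κ, ?_⟩
  intro bb hbb R J hR j e i hie d H L hd hd1 hH hL V hV T k F h2 h4 he hb PP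
  have hL0 : 0 < L := by linarith
  obtain ⟨r, hri, hre, hall⟩ := exists_third i e hie
  set x : ℝ := L ^ (-(1 / 4) : ℝ) with hx
  have hx0 : 0 < x := Real.rpow_pos_of_pos hL0 _
  have hx4 : x ^ 4 * L = 1 := rpow_quarter hL0
  have hx1 : x ≤ 1 := Real.rpow_le_one_of_one_le_of_nonpos hL (by norm_num)
  set c : Fin 3 → ℝ := fun u => if u = r then d * x else 1 with hc
  have cr : c r = d * x := by simp [hc]
  have ce : c e = 1 := by simp [hc, Ne.symm hre]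
  have ci : c i = 1 := by simp [hc, Ne.symm hri]
  have hc0 : ∀ u, 0 ≤ c u := by
    intro u
    rcases hall u with rfl | rfl | rfl
    · rw [ci]; norm_num
    · rw [ce]; norm_num
    · rw [cr]; positivity
  have hW2 : ∀ u, W2 R κ V j T (sk c k) F u := by
    intro u
    rcases hall u with rfl | rfl | rfl
    · refine S2W.mono ?_ (W2.sk c (h2 _))
      rw [ci]; simp
    · refine S2W.mono ?_ (W2.sk c (h2 _))
      rw [ce]; simp
    · refine S2W.mono ?_ (W2.sk c (h2 _))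
      rw [cr]
      refine mul_le_of_le_one_left hV (pow_le_one₀ (by positivity) ?_)
      exact mul_le_one₀ hd1 hx0.le hx1
  have hW4 : ∀ u, u ≠ i → W4 R κ V ((d ^ 2 : ℝ) ^ 2) j T (sk c k) F u := by
    intro u hu
    rcases hall u with rfl | rfl | rfl
    · exact absurd rfl hu
    · have h6 := W4.sk c he
      refine S4W.mono (by positivity) hV le_rfl ?_ h6
      rw [ce]
      exact le_of_eq (by ring)
    · have h6 := W4.sk c (h4 _ hre hri)
      refine S4W.mono (by positivity) hV le_rfl ?_ h6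
      rw [cr]
      refine le_of_eq ?_
      calc (d * x) ^ 4 * L = d ^ 4 * (x ^ 4 * L) := by ring
        _ = (d ^ 2) ^ 2 := by rw [hx4]; ring
  have hWH : WH H j T (sk c k) F i := by
    intro w z z'
    rw [kW_sk]
    simp only [ci]
    simpa using hb w z z'
  have hs0 : 0 < d ^ 2 := by positivity
  have main := h bb hbb R J hR j i (d ^ 2) H hs0 (pow_le_one₀ hd.le hd1) hH V hV T (sk c k) F
    hW2 hW4 hWH PP
  rw [LW_sk c hc0, prod_three c i e r hie hri hre, ci, ce, cr] at main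
  have hxi : x⁻¹ ≤ Real.sqrt L := by
    have hx2 : x ^ 2 * Real.sqrt L = 1 := by
      have h7 : (x ^ 2 * Real.sqrt L) ^ 2 = 1 ^ 2 := by
        rw [mul_pow, Real.sq_sqrt hL0.le, ← pow_mul, hx4, one_pow]
      exact (pow_left_inj₀ (by positivity) zero_le_one two_ne_zero).1 h7
    rw [inv_le_iff_one_le_mul₀ hx0]
    calc (1 : ℝ) = x ^ 2 * Real.sqrt L := hx2.symm
      _ ≤ x * Real.sqrt L := by
          refine mul_le_mul_of_nonneg_right ?_ (Real.sqrt_nonneg _)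
          nlinarith
      _ = Real.sqrt L * x := mul_comm _ _
  have hlog : 0 ≤ 1 + Real.log (H / d ^ 2) := by
    have : 0 ≤ Real.log (H / d ^ 2) := by
      refine Real.log_nonneg ?_
      rw [le_div_iff₀ hs0]
      have : d ^ 2 ≤ 1 := pow_le_one₀ hd.le hd1
      linarith
    linarith
  have hL' : LW bb R J j T k F PP = (x⁻¹ * d⁻¹) * ((1 * 1 * (d * x)) * LW bb R J j T k F PP) := by
    field_simp
  rw [hL']
  refine (mul_le_mul_of_nonneg_left main (by positivity)).trans ?_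
  have e2 : x⁻¹ * d⁻¹ * (K * (d ^ 2 * (1 + Real.log (H / d ^ 2)) * 2 ^ (J.1 + 7) * V)) =
      K * ((x⁻¹ * (d * (1 + Real.log (H / d ^ 2)))) * (2 ^ (J.1 + 7) * V)) := by
    field_simp
  have e3 : K * (d * Real.sqrt L * (1 + Real.log (H / d ^ 2)) * 2 ^ (J.1 + 7) * V) =
      K * ((Real.sqrt L * (d * (1 + Real.log (H / d ^ 2)))) * (2 ^ (J.1 + 7) * V)) := by ring
  rw [e2, e3]
  refine mul_le_mul_of_nonneg_left ?_ hK
  refine mul_le_mul_of_nonneg_right ?_ (by positivity)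
  exact mul_le_mul_of_nonneg_right hxi (mul_nonneg hd.le hlog)

end Crest.Agent.R079.EW4702
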