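import Crest.Agent.R079.HEs_702
import Crest.Agent.R079.CC_702

/-! R079, Step II (helper702): GENERAL EDGE version of `HEr_702` / `HEs_702` (leaf quantity `Wb71.LK` of the
error kernels `E`, `X`) for an abstract coefficient vector `cc`. -/

set_option autoImplicit false
set_option linter.unusedVariables false

namespace Crest.Agent.R079.HErC702

open Finset Crest.Agent.R079.Grid Crest.Agent.R079.Pot Crest.Agent.R079.Glue Crest.Agent.R079.R244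
  Crest.Agent.R079.F24 Crest.Agent.R079.EWG990 Crest.Agent.R079.LK990
  Crest.Agent.R079.EW5702 Crest.Agent.R079.Growth Crest.Agent.R079.Tr230 Crest.Agent.R079.CC702
open Crest.Agent.R079.Wb71 (LK Xs mem_Xs)
open Crest.Agent.R079.HEr702 (norm_sum_mul_sq_le op_le_e4 wsum_sq_le te card_Xs UU sum_shift_le_UU
  LK_l2 LK_add LK_nonneg tm te_tm tile hh fe fe_nonneg hh_tile kE kE_nonneg Pn_near mem_iv_div)

/-! ### the periodised kernel -/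

section per

variable (cc : Fin 3 → ℤ) (T : Fin 3 → Finset ℤ) (g : Fin 3 → ℤ → ℤ → ℂ) (E : ℤ → ℤ → ℤ → ℂ) (r : ℤ)

/-- periodised kernel as a sum over the plane translates -/
theorem per_te (Z S : Finset (ℤ × ℤ × ℤ)) (hS : ShC cc T Z ⊆ S) (hS0 : ∀ s ∈ S, cfzC cc s = 0)
    (z z' : ℤ) (hz : (z, z', 0) ∈ Z) :
    PerC cc T (PhiW (upk g 0 E)) (cc 0 * z + cc 1 * z') (r + z + z') =
      ∑ s ∈ S, kT (T 1) (T 2) (g 1) (z' + s.2.1) (0 + s.2.2) *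
        (kT (T 2) (T 0) (g 2) (0 + s.2.2) (z + s.1) * te T E r s z z') := by
  have e : cc 0 * z + cc 1 * z' = cfzC cc (z, z', 0) := by simp [cfzC]
  rw [e, perC_translates cc T _ Z S hS hS0 hz]
  refine Finset.sum_congr rfl fun s _ => ?_
  have ew : r + z + z' - (z + s.1) - (z' + s.2.1) - s.2.2 =
      r - (s.1 + s.2.1 + s.2.2) := by ring
  simp only [zero_add]
  rw [ew]
  by_cases h : z + s.1 ∈ T 0 ∧ z' + s.2.1 ∈ T 1 ∧ s.2.2 ∈ T 2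
  · rw [if_pos h, PhiW_zero]
    unfold kT te
    rw [if_pos ⟨h.2.1, h.2.2⟩, if_pos ⟨h.2.2, h.1⟩, if_pos ⟨h.1, h.2.1⟩]
    ring
  · rw [if_neg h]
    symm
    unfold kT te
    by_cases h1 : z + s.1 ∈ T 0 ∧ z' + s.2.1 ∈ T 1
    · have h2 : ¬ (z' + s.2.1 ∈ T 1 ∧ s.2.2 ∈ T 2) := fun hc => h ⟨h1.1, h1.2, hc.2⟩
      rw [if_neg h2, zero_mul]
    · rw [if_neg h1, mul_zero, mul_zero]

/-- for a fixed `z'` the map `(z, s) ↦ (w, z + s₀, z' + s₁)` is injective on the plane -/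
lemma te_inj (h02 : cc 0 ≠ cc 2) {s s' : ℤ × ℤ × ℤ} (h : cfzC cc s = 0) (h' : cfzC cc s' = 0) {z y : ℤ} {z' : ℤ}
    (hw : r - (s.1 + s.2.1 + s.2.2) = r - (s'.1 + s'.2.1 + s'.2.2)) (h0 : z + s.1 = y + s'.1)
    (h1 : z' + s.2.1 = z' + s'.2.1) : z = y ∧ s = s' := by
  have h1' : s.2.1 = s'.2.1 := by linarith
  have e1 : s.1 + s.2.2 = s'.1 + s'.2.2 := by linarith
  have e2 : cc 0 * s.1 + cc 2 * s.2.2 = cc 0 * s'.1 + cc 2 * s'.2.2 := by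
    simp only [cfzC] at h h'
    rw [h1'] at h
    linarith
  have e3 : (cc 0 - cc 2) * s.1 = (cc 0 - cc 2) * s'.1 := by
    have : s.2.2 = s'.1 + s'.2.2 - s.1 := by linarith
    rw [this] at e2
    linarith
  have h00 : s.1 = s'.1 := mul_left_cancel₀ (sub_ne_zero.2 h02) e3
  refine ⟨by linarith, ?_⟩
  have h2 : s.2.2 = s'.2.2 := by linarith
  ext
  · exact h00
  · exact h1'
  · exact h2

/-- **counting**: for a fixed `z'`, sums over `(z, s)` are sums over distinct `(w, Z, Z')` -/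
theorem sum_inj (h02 : cc 0 ≠ cc 2) (U : Finset ℤ) (S : Finset (ℤ × ℤ × ℤ)) (hS0 : ∀ s ∈ S, cfzC cc s = 0) (z' : ℤ)
    (Q : ℤ × ℤ × ℤ → ℝ) {B : ℝ} (hQ : ∀ R : Finset (ℤ × ℤ × ℤ), ∑ t ∈ R, Q t ≤ B) :
    ∑ z ∈ U, ∑ s ∈ S, Q (r - (s.1 + s.2.1 + s.2.2), z + s.1, z' + s.2.1) ≤ B := by
  classical
  rw [← Finset.sum_product' U S
    (fun z s => Q (r - (s.1 + s.2.1 + s.2.2), z + s.1, z' + s.2.1))]
  have h := Finset.sum_image (f := Q) (s := U ×ˢ S)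
    (g := fun x : ℤ × (ℤ × ℤ × ℤ) => (r - (x.2.1 + x.2.2.1 + x.2.2.2), x.1 + x.2.1, z' + x.2.2.1)) (by
      intro x hx y hy hxy
      have hx2 := hS0 _ (Finset.mem_product.1 (Finset.mem_coe.1 hx)).2
      have hy2 := hS0 _ (Finset.mem_product.1 (Finset.mem_coe.1 hy)).2
      simp only [Prod.mk.injEq] at hxy
      obtain ⟨h1, h2⟩ := te_inj cc r h02 hx2 hy2 hxy.1 hxy.2.1 hxy.2.2
      exact Prod.ext h1 h2)
  rw [← h]
  exact hQ _

end per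

/-! ### one node -/

section node

variable (cc : Fin 3 → ℤ) (T : Fin 3 → Finset ℤ) (g : Fin 3 → ℤ → ℤ → ℂ) (E : ℤ → ℤ → ℤ → ℂ) (r : ℤ)
  (κ : ℝ)

/-- the error kernel of the leaf quantity -/
noncomputable def PKC (x z : ℤ) : ℂ :=
  (κ : ℂ) * PerC cc T (PhiW (upk g 0 E)) (cc 0 * x + cc 1 * z) (r + x + z)

variable {cc T g E r κ}

/-- **LEAF QUANTITY OF THE ERROR `E`, one node** -/
theorem LK_E (hc0 : cc 0 ≠ 0) (h02 : cc 0 ≠ cc 2) (hκ : 0 ≤ κ) (hg2 : ∀ z z', ‖g 2 z z'‖ ≤ 1) {M B' BE : ℝ} (hM0 : 0 ≤ M) (hB : 0 ≤ B')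
    (h1 : κ * ∑ z ∈ T 1, ∑ z' ∈ T 2, ‖g 1 z z'‖ ^ 2 ≤ M) (hBE : 0 ≤ BE)
    (hE : ∀ R : Finset (ℤ × ℤ × ℤ), ∑ t ∈ R, ‖tm T E t.1 t.2.1 t.2.2‖ ^ 2 ≤ BE)
    (c' d' c d : ℤ) (β : ℤ → ℂ) (p : Nd)
    (hy : ∀ q : ℤ, ∑ u ∈ range (2 ^ p.1), ‖β (q + (u : ℤ))‖ ^ 2 ≤ B' * len p) :
    LK c' d' c d (PKC cc T g E r κ) β p ≤ 128 * B' * (M * (κ * BE)) := by
  classical
  refine LK_l2 c' d' c d _ β p hB (by positivity) hy fun z hz => ?_
  set Z : Finset (ℤ × ℤ × ℤ) := (UU c' d' p ×ˢ Xs c d p).image (fun x => (x.1, x.2, 0)) with hZ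
  set S := ShC cc T Z with hS
  have hS0 : ∀ s ∈ S, cfzC cc s = 0 := fun s hs => ShC_plane hs
  have hpt : ∀ x ∈ UU c' d' p, ‖PKC cc T g E r κ x z‖ ^ 2 ≤
      κ * (M * ∑ s ∈ S, ‖te T E r s x z‖ ^ 2) := by
    intro x hx
    have hxz : (x, z, (0 : ℤ)) ∈ Z := Finset.mem_image.2 ⟨(x, z), Finset.mem_product.2 ⟨hx, hz⟩, rfl⟩
    unfold PKC
    rw [per_te cc T g E r Z S (le_of_eq hS.symm) hS0 x z hxz, norm_mul, mul_pow, Complex.norm_real,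
      Real.norm_of_nonneg hκ]
    have h2 := norm_sum_mul_sq_le S (fun s => kT (T 1) (T 2) (g 1) (z + s.2.1) (0 + s.2.2))
      (fun s => kT (T 2) (T 0) (g 2) (0 + s.2.2) (x + s.1) * te T E r s x z)
    have h3 := priceC12 hc0 hS0 (T 1) (T 2) (g 1) 2 (by norm_num) z 0
    have h4 : ∑ s ∈ S, ‖kT (T 2) (T 0) (g 2) (0 + s.2.2) (x + s.1) * te T E r s x z‖ ^ 2 ≤
        ∑ s ∈ S, ‖te T E r s x z‖ ^ 2 := by
      refine Finset.sum_le_sum fun s _ => ?_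
      rw [norm_mul, mul_pow]
      refine mul_le_of_le_one_left (by positivity) (pow_le_one₀ (norm_nonneg _) ?_)
      unfold kT
      split_ifs
      · exact hg2 _ _
      · rw [norm_zero]; exact zero_le_one
    have h5 : 0 ≤ ∑ s ∈ S, ‖te T E r s x z‖ ^ 2 := by positivity
    calc κ ^ 2 * _ ≤ κ ^ 2 * ((∑ x ∈ T 1, ∑ x' ∈ T 2, ‖g 1 x x'‖ ^ 2) *
          ∑ s ∈ S, ‖te T E r s x z‖ ^ 2) := by
          refine mul_le_mul_of_nonneg_left (h2.trans ?_) (by positivity)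
          exact mul_le_mul h3 h4 (by positivity) (by positivity)
      _ = κ * ((κ * ∑ x ∈ T 1, ∑ x' ∈ T 2, ‖g 1 x x'‖ ^ 2) *
          ∑ s ∈ S, ‖te T E r s x z‖ ^ 2) := by ring
      _ ≤ _ := mul_le_mul_of_nonneg_left (mul_le_mul_of_nonneg_right h1 h5) hκ
  refine (Finset.sum_le_sum hpt).trans ?_
  rw [← Finset.mul_sum, ← Finset.mul_sum]
  have h6 := sum_inj cc r h02 (UU c' d' p) S hS0 z (fun t => ‖tm T E t.1 t.2.1 t.2.2‖ ^ 2) hE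
  calc κ * (M * ∑ x ∈ UU c' d' p, ∑ s ∈ S, ‖te T E r s x z‖ ^ 2) ≤ κ * (M * BE) :=
        mul_le_mul_of_nonneg_left (mul_le_mul_of_nonneg_left h6 hM0) hκ
    _ = M * (κ * BE) := by ring

/-- `ℓ⁴` price of the letters -/
lemma fe_sq (hc1 : cc 1 ≠ 0) (hg2 : ∀ z z', ‖g 2 z z'‖ ≤ 1) {S : Finset (ℤ × ℤ × ℤ)} (hS0 : ∀ s ∈ S, cfzC cc s = 0)
    (β : ℤ → ℂ) (k : ℕ) (q : ℤ) {D : ℝ} (hD : ∑ u ∈ range (2 ^ k), ‖β (q + (u : ℤ))‖ ^ 2 ≤ D) :
    ∑ s ∈ S, fe T g β k s q ^ 2 ≤ D ^ 2 * ∑ z ∈ T 2, ∑ z' ∈ T 0, ‖g 2 z z'‖ ^ 2 := by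
  have hk1 : ∀ z z', ‖kT (T 2) (T 0) (g 2) z z'‖ ^ 2 ≤ 1 := by
    intro z z'
    refine pow_le_one₀ (norm_nonneg _) ?_
    unfold kT
    split_ifs
    · exact hg2 _ _
    · rw [norm_zero]; exact zero_le_one
  have hD0 : 0 ≤ D := le_trans (by positivity) hD
  have h1 : ∀ s ∈ S, fe T g β k s q ^ 2 ≤ D * ∑ u ∈ range (2 ^ k),
      ‖β (q + (u : ℤ))‖ ^ 2 * ‖kT (T 2) (T 0) (g 2) (0 + s.2.2) (q + (u : ℤ) + s.1)‖ ^ 2 := by
    intro s _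
    have e : fe T g β k s q = ∑ u ∈ range (2 ^ k), ‖β (q + (u : ℤ))‖ ^ 2 *
        ‖kT (T 2) (T 0) (g 2) (0 + s.2.2) (q + (u : ℤ) + s.1)‖ ^ 2 := by
      unfold fe
      exact Finset.sum_congr rfl fun u _ => by rw [norm_mul, mul_pow, norm_star]
    rw [e]
    refine (wsum_sq_le _ _ _ (fun _ _ => by positivity) (fun _ _ => by positivity)
      (fun _ _ => hk1 _ _)).trans ?_
    exact mul_le_mul_of_nonneg_right hD (Finset.sum_nonneg fun _ _ => by positivity)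
  refine (Finset.sum_le_sum h1).trans ?_
  rw [← Finset.mul_sum, Finset.sum_comm, sq, mul_assoc]
  refine mul_le_mul_of_nonneg_left ?_ hD0
  set M2 := ∑ z ∈ T 2, ∑ z' ∈ T 0, ‖g 2 z z'‖ ^ 2 with hM2
  have h2 : ∀ u ∈ range (2 ^ k), ∑ s ∈ S, ‖β (q + (u : ℤ))‖ ^ 2 *
      ‖kT (T 2) (T 0) (g 2) (0 + s.2.2) (q + (u : ℤ) + s.1)‖ ^ 2 ≤
      ‖β (q + (u : ℤ))‖ ^ 2 * M2 := by
    intro u _
    rw [← Finset.mul_sum]
    exact mul_le_mul_of_nonneg_left (priceC20 hc1 hS0 (T 2) (T 0) (g 2) 2 (by norm_num) 0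
      (q + (u : ℤ))) (by positivity)
  refine (Finset.sum_le_sum h2).trans ?_
  rw [← Finset.sum_mul]
  exact mul_le_mul_of_nonneg_right hD (by rw [hM2]; positivity)

set_option maxHeartbeats 1600000 in
/-- **LEAF QUANTITY OF THE ERROR `X`, one node** -/
theorem LK_X (hc0 : cc 0 ≠ 0) (hc1 : cc 1 ≠ 0) (h02 : cc 0 ≠ cc 2) (hκ : 0 ≤ κ) (hg2 : ∀ z z', ‖g 2 z z'‖ ≤ 1) {M B' V σ : ℝ} (hM0 : 0 ≤ M)
    (hB : 0 ≤ B') (hV : 0 ≤ V) (hσ : 0 ≤ σ)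
    (h1 : κ * ∑ z ∈ T 1, ∑ z' ∈ T 2, ‖g 1 z z'‖ ^ 2 ≤ M)
    (h2 : κ * ∑ z ∈ T 2, ∑ z' ∈ T 0, ‖g 2 z z'‖ ^ 2 ≤ M) (p : Nd)
    {X : ℤ → ℤ → ℤ → ℂ}
    (hX : ∀ R : Finset (ℤ × ℤ × ℤ), ∑ t ∈ R, e4 (tm T X t.1) (2 ^ p.1) t.2.1 t.2.2 ≤
      σ * (len p * V))
    (c' c : ℤ) (d' : ℤ) {d : ℤ} (hd : d ≠ 0) (β : ℤ → ℂ)
    (hy : ∀ q : ℤ, ∑ u ∈ range (2 ^ p.1), ‖β (q + (u : ℤ))‖ ^ 2 ≤ B' * len p) :
    LK c' d' c d (PKC cc T g X r κ) β p ≤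
      256 * B' * (M * Real.sqrt (M * (κ * V) * σ)) * len p := by
  classical
  have hlp : 0 < len p := Qe292.len_pos p
  set Z : Finset (ℤ × ℤ × ℤ) := (UU c' d' p ×ˢ Xs c d p).image (fun x => (x.1, x.2, 0)) with hZ
  set S := ShC cc T Z with hS
  have hS0 : ∀ s ∈ S, cfzC cc s = 0 := fun s hs => ShC_plane hs
  obtain ⟨y0, htile⟩ := tile c hd p
  set M2 := ∑ z ∈ T 2, ∑ z' ∈ T 0, ‖g 2 z z'‖ ^ 2 with hM2
  have hM20 : 0 ≤ M2 := by rw [hM2]; positivity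
  -- one average
  have hpt : ∀ q ∈ Xs c' d' p, ∀ z ∈ Xs c d p,
      ‖(1 / 2 ^ p.1 : ℂ) * ∑ u ∈ range (2 ^ p.1), star (β (q + (u : ℤ))) *
        PKC cc T g X r κ (q + (u : ℤ)) z‖ ^ 2 ≤
      κ * (M * ∑ s ∈ S, ‖hh T g X r β p.1 s q z‖ ^ 2) := by
    intro q hq z hz
    have e : (1 / 2 ^ p.1 : ℂ) * ∑ u ∈ range (2 ^ p.1), star (β (q + (u : ℤ))) *
        PKC cc T g X r κ (q + (u : ℤ)) z =
        (κ : ℂ) * ∑ s ∈ S, kT (T 1) (T 2) (g 1) (z + s.2.1) (0 + s.2.2) *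
          hh T g X r β p.1 s q z := by
      have e1 : ∀ u ∈ range (2 ^ p.1), star (β (q + (u : ℤ))) * PKC cc T g X r κ (q + (u : ℤ)) z =
          (κ : ℂ) * ∑ s ∈ S, kT (T 1) (T 2) (g 1) (z + s.2.1) (0 + s.2.2) *
            ((star (β (q + (u : ℤ))) * kT (T 2) (T 0) (g 2) (0 + s.2.2) (q + (u : ℤ) + s.1)) *
            tm T X (r - (s.1 + s.2.1 + s.2.2)) (q + s.1 + (u : ℤ)) (z + s.2.1)) := by
        intro u hu
        have hxz : (q + (u : ℤ), z, (0 : ℤ)) ∈ Z := Finset.mem_image.2 ⟨(q + (u : ℤ), z),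
          Finset.mem_product.2 ⟨Finset.mem_image.2 ⟨(q, u), Finset.mem_product.2 ⟨hq, hu⟩, rfl⟩,
            hz⟩, rfl⟩
        unfold PKC
        rw [per_te cc T g X r Z S (le_of_eq hS.symm) hS0 _ z hxz]
        rw [mul_left_comm, Finset.mul_sum]
        congr 1
        refine Finset.sum_congr rfl fun s _ => ?_
        rw [te_tm]
        have e2 : q + (u : ℤ) + s.1 = q + s.1 + (u : ℤ) := by ring
        rw [e2]
        ring
      rw [Finset.sum_congr rfl e1, ← Finset.mul_sum, Finset.sum_comm, mul_left_comm,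
        Finset.mul_sum]
      congr 1
      refine Finset.sum_congr rfl fun s _ => ?_
      rw [← Finset.mul_sum, mul_left_comm]
      unfold hh
      push_cast
      rfl
    rw [e, norm_mul, mul_pow, Complex.norm_real, Real.norm_of_nonneg hκ]
    have h3 := norm_sum_mul_sq_le S (fun s => kT (T 1) (T 2) (g 1) (z + s.2.1) (0 + s.2.2))
      (fun s => hh T g X r β p.1 s q z)
    have h4 := priceC12 hc0 hS0 (T 1) (T 2) (g 1) 2 (by norm_num) z 0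
    have h5 : 0 ≤ ∑ s ∈ S, ‖hh T g X r β p.1 s q z‖ ^ 2 := by positivity
    calc κ ^ 2 * _ ≤ κ ^ 2 * ((∑ x ∈ T 1, ∑ x' ∈ T 2, ‖g 1 x x'‖ ^ 2) *
          ∑ s ∈ S, ‖hh T g X r β p.1 s q z‖ ^ 2) := by
          refine mul_le_mul_of_nonneg_left (h3.trans ?_) (by positivity)
          exact mul_le_mul_of_nonneg_right h4 h5
      _ = κ * ((κ * ∑ x ∈ T 1, ∑ x' ∈ T 2, ‖g 1 x x'‖ ^ 2) *
          ∑ s ∈ S, ‖hh T g X r β p.1 s q z‖ ^ 2) := by ring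
      _ ≤ _ := mul_le_mul_of_nonneg_left (mul_le_mul_of_nonneg_right h1 h5) hκ
  -- sum over the tiles
  set ε : ℤ → ℕ → ℤ × ℤ × ℤ → ℝ := fun q i s =>
    e4 (tm T X (r - (s.1 + s.2.1 + s.2.2))) (2 ^ p.1) (q + s.1)
      (y0 + 2 ^ p.1 * (i : ℤ) + s.2.1) with hε
  have hε0 : ∀ q i s, 0 ≤ ε q i s := fun q i s => e4_nonneg _ _ _ _
  have hz : ∀ q ∈ Xs c' d' p, ∑ z ∈ Xs c d p, ∑ s ∈ S, ‖hh T g X r β p.1 s q z‖ ^ 2 ≤
      ∑ i ∈ range 256, ∑ s ∈ S, fe T g β p.1 s q * Real.sqrt (ε q i s) := by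
    intro q _
    refine (htile (fun z => ∑ s ∈ S, ‖hh T g X r β p.1 s q z‖ ^ 2)
      (fun z => by positivity)).trans ?_
    refine Finset.sum_le_sum fun i _ => ?_
    rw [Finset.sum_comm]
    exact Finset.sum_le_sum fun s _ => hh_tile X β p.1 s q _
  -- Cauchy--Schwarz over `(q, i, s)`
  set Ω : Finset (ℤ × ℕ × (ℤ × ℤ × ℤ)) := Xs c' d' p ×ˢ (range 256 ×ˢ S) with hΩ
  have hsum : ∑ q ∈ Xs c' d' p, ∑ i ∈ range 256, ∑ s ∈ S,
      fe T g β p.1 s q * Real.sqrt (ε q i s) ≤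
      256 * (B' * len p) * len p * Real.sqrt (M2 * (σ * V)) := by
    have e1 : ∑ q ∈ Xs c' d' p, ∑ i ∈ range 256, ∑ s ∈ S,
        fe T g β p.1 s q * Real.sqrt (ε q i s) =
        ∑ x ∈ Ω, fe T g β p.1 x.2.2 x.1 * Real.sqrt (ε x.1 x.2.1 x.2.2) := by
      rw [hΩ, Finset.sum_product]
      refine Finset.sum_congr rfl fun q _ => ?_
      rw [Finset.sum_product]
    rw [e1]
    have h3 := Finset.sum_mul_sq_le_sq_mul_sq Ω (fun x => fe T g β p.1 x.2.2 x.1)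
      (fun x => Real.sqrt (ε x.1 x.2.1 x.2.2))
    have h4 : ∑ x ∈ Ω, fe T g β p.1 x.2.2 x.1 ^ 2 ≤ 256 * (len p * ((B' * len p) ^ 2 * M2)) := by
      rw [hΩ, Finset.sum_product]
      have h5 : ∀ q ∈ Xs c' d' p, ∑ y ∈ range 256 ×ˢ S, fe T g β p.1 y.2 q ^ 2 ≤
          256 * ((B' * len p) ^ 2 * M2) := by
        intro q _
        rw [Finset.sum_product]
        have h6 : ∀ i ∈ range 256, ∑ s ∈ S, fe T g β p.1 s q ^ 2 ≤ (B' * len p) ^ 2 * M2 :=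
          fun i _ => fe_sq hc1 hg2 hS0 β p.1 q (hy q)
        refine (Finset.sum_le_sum h6).trans (le_of_eq ?_)
        rw [Finset.sum_const, Finset.card_range, nsmul_eq_mul]
        norm_num
      refine (Finset.sum_le_sum h5).trans ?_
      rw [Finset.sum_const, nsmul_eq_mul]
      calc ((Xs c' d' p).card : ℝ) * (256 * ((B' * len p) ^ 2 * M2)) ≤
            len p * (256 * ((B' * len p) ^ 2 * M2)) :=
            mul_le_mul_of_nonneg_right (card_Xs c' d' p) (by positivity)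
        _ = _ := by ring
    have h7 : ∑ x ∈ Ω, Real.sqrt (ε x.1 x.2.1 x.2.2) ^ 2 ≤ 256 * (σ * (len p * V)) := by
      have e2 : ∑ x ∈ Ω, Real.sqrt (ε x.1 x.2.1 x.2.2) ^ 2 =
          ∑ i ∈ range 256, ∑ q ∈ Xs c' d' p, ∑ s ∈ S, ε q i s := by
        rw [hΩ, Finset.sum_product, Finset.sum_comm' (t' := range 256 ×ˢ S)
          (s' := fun _ => Xs c' d' p) (by intro x y; tauto)]
        rw [Finset.sum_product]
        refine Finset.sum_congr rfl fun i _ => ?_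
        rw [Finset.sum_comm]
        refine Finset.sum_congr rfl fun q _ => Finset.sum_congr rfl fun s _ => ?_
        exact Real.sq_sqrt (hε0 _ _ _)
      rw [e2]
      have h8 : ∀ i ∈ range 256, ∑ q ∈ Xs c' d' p, ∑ s ∈ S, ε q i s ≤ σ * (len p * V) :=
        fun i _ => sum_inj cc r h02 (Xs c' d' p) S hS0 (y0 + 2 ^ p.1 * (i : ℤ))
          (fun t => e4 (tm T X t.1) (2 ^ p.1) t.2.1 t.2.2) hX
      refine (Finset.sum_le_sum h8).trans (le_of_eq ?_)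
      rw [Finset.sum_const, Finset.card_range, nsmul_eq_mul]
      norm_num
    have h9 : 0 ≤ ∑ x ∈ Ω, fe T g β p.1 x.2.2 x.1 * Real.sqrt (ε x.1 x.2.1 x.2.2) :=
      Finset.sum_nonneg fun x _ => mul_nonneg (fe_nonneg _ _ _ _) (Real.sqrt_nonneg _)
    have h10 : (∑ x ∈ Ω, fe T g β p.1 x.2.2 x.1 * Real.sqrt (ε x.1 x.2.1 x.2.2)) ^ 2 ≤
        (256 * (B' * len p) * len p) ^ 2 * (M2 * (σ * V)) := by
      refine h3.trans ?_
      calc _ ≤ (256 * (len p * ((B' * len p) ^ 2 * M2))) * (256 * (σ * (len p * V))) :=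
            mul_le_mul h4 h7 (by positivity) (by positivity)
        _ = _ := by ring
    have h11 := Real.sqrt_le_sqrt h10
    rw [Real.sqrt_sq h9, Real.sqrt_mul (sq_nonneg _), Real.sqrt_sq (by positivity)] at h11
    exact h11
  -- end
  have hLK : LK c' d' c d (PKC cc T g X r κ) β p ≤
      (1 / len p) * (κ * (M * (256 * (B' * len p) * len p * Real.sqrt (M2 * (σ * V))))) := by
    unfold Wb71.LK
    rw [← Finset.mul_sum]
    refine mul_le_mul_of_nonneg_left ?_ (by positivity)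
    have h3 : ∀ q ∈ Xs c' d' p, ∑ z ∈ Xs c d p, ‖(1 / 2 ^ p.1 : ℂ) * ∑ u ∈ range (2 ^ p.1),
        star (β (q + (u : ℤ))) * PKC cc T g X r κ (q + (u : ℤ)) z‖ ^ 2 ≤
        κ * (M * ∑ i ∈ range 256, ∑ s ∈ S, fe T g β p.1 s q * Real.sqrt (ε q i s)) := by
      intro q hq
      refine (Finset.sum_le_sum (hpt q hq)).trans ?_
      rw [← Finset.mul_sum, ← Finset.mul_sum]
      exact mul_le_mul_of_nonneg_left (mul_le_mul_of_nonneg_left (hz q hq) hM0) hκ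
    refine (Finset.sum_le_sum h3).trans ?_
    rw [← Finset.mul_sum, ← Finset.mul_sum]
    exact mul_le_mul_of_nonneg_left (mul_le_mul_of_nonneg_left hsum hM0) hκ
  refine hLK.trans ?_
  have h12 : κ * Real.sqrt (M2 * (σ * V)) ≤ Real.sqrt (M * (κ * V) * σ) := by
    have e : κ * Real.sqrt (M2 * (σ * V)) = Real.sqrt ((κ * M2) * (κ * V) * σ) := by
      have : (κ * M2) * (κ * V) * σ = κ ^ 2 * (M2 * (σ * V)) := by ring
      rw [this, Real.sqrt_mul (sq_nonneg _), Real.sqrt_sq hκ]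
    rw [e]
    refine Real.sqrt_le_sqrt ?_
    have : 0 ≤ κ * V * σ := by positivity
    calc (κ * M2) * (κ * V) * σ = (κ * M2) * (κ * V * σ) := by ring
      _ ≤ M * (κ * V * σ) := mul_le_mul_of_nonneg_right h2 this
      _ = _ := by ring
  calc (1 / len p) * (κ * (M * (256 * (B' * len p) * len p * Real.sqrt (M2 * (σ * V))))) =
        256 * B' * (M * (κ * Real.sqrt (M2 * (σ * V)))) * len p := by field_simp
    _ ≤ _ := by gcongr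


end node

end Crest.Agent.R079.HErC702
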