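import Crest.Agent.R079.OpS_276
import Crest.Agent.R079.KLdef_446

/-! R079 (helper276): bridge **level against `OpS` ⟹ exceptional density `ExD`** of `KLdef_446`. -/

set_option autoImplicit false

namespace Crest.Agent.R079.OpS276

open Finset Crest.Agent.R079.Grid Crest.Agent.R079.Glue Crest.Agent.R079.Growth
  Crest.Agent.R079.QRed Crest.Agent.R079.R244 Crest.Agent.R079.TFrz679 Crest.Agent.R079.Dic679
  Crest.Agent.R079.OpLev Crest.Agent.R079.DicOp679 Crest.Agent.R079.OLevSw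
  Crest.Agent.R079.BadTx138 Crest.Agent.R079.KLx446

/-- failure of the operator bound on an aligned square gives a pair of sections -/
theorem exists_sec {k j e e' : Fin 4} {p : Nd} {K : Fn} {c : ℤ → ℤ → ℂ} {s : ℝ} (hs : 0 ≤ s)
    {w a b : ℤ} {n : ℕ} (hn : n = 2 ^ p.1) {w0 : ℤ} {z : Fin n} (hz : w = w0 + ((z : ℕ) : ℤ))
    (h : ¬ OpP c K (sl j - sl k) (sl e - sl k) (sl e' - sl k) s p w a b) :
    ∃ U V : Fin n → ℂ, ∑ i, ‖U i‖ ^ 2 ≤ n ∧ ∑ i, ‖V i‖ ^ 2 ≤ n ∧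
      s * (n : ℝ) ^ 2 < ‖opb k j e e' p K n w0 (a * 2 ^ p.1) (b * 2 ^ p.1) c z U V‖ := by
  unfold OpP BadTx138.OpB at h
  push Not at h
  obtain ⟨u, v, huv⟩ := h
  have hnz : (((n : ℕ) : ℤ)) = 2 ^ p.1 := by rw [hn]; push_cast; rfl
  have hnr : ((n : ℕ) : ℝ) = 2 ^ p.1 := by rw [hn]; push_cast; rfl
  have hnpos : (0 : ℝ) < n := by rw [hnr]; positivity
  have e1 : ∀ a : ℤ, (a + 1) * 2 ^ p.1 = a * 2 ^ p.1 + ((n : ℕ) : ℤ) := fun a => by
    rw [hnz]; ring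
  rw [e1, e1] at huv
  rw [OLevSw.sum_Ico_fin, OLevSw.sum_Ico_fin, OLevSw.sum_Ico_fin] at huv
  set u' : Fin n → ℂ := fun i => u (a * 2 ^ p.1 + ((i : ℕ) : ℤ)) with hu'
  set v' : Fin n → ℂ := fun i => v (b * 2 ^ p.1 + ((i : ℕ) : ℤ)) with hv'
  set Nu : ℝ := ∑ i, ‖u' i‖ ^ 2 with hNu
  set Nv : ℝ := ∑ i, ‖v' i‖ ^ 2 with hNv
  have hNu0 : 0 ≤ Nu := Finset.sum_nonneg fun _ _ => sq_nonneg _
  have hNv0 : 0 ≤ Nv := Finset.sum_nonneg fun _ _ => sq_nonneg _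
  -- the form
  have hform : ∑ i : Fin n, ∑ y ∈ Ico (b * 2 ^ p.1) (b * 2 ^ p.1 + (n : ℤ)),
      u (a * 2 ^ p.1 + ((i : ℕ) : ℤ)) * kp c K (sl j - sl k) (sl e - sl k) (sl e' - sl k) p w
        (a * 2 ^ p.1 + ((i : ℕ) : ℤ)) y * v y =
      opb k j e e' p K n w0 (a * 2 ^ p.1) (b * 2 ^ p.1) c z u' v' := by
    unfold opb
    refine Finset.sum_congr rfl fun i _ => ?_
    rw [OLevSw.sum_Ico_fin]
    refine Finset.sum_congr rfl fun i' _ => ?_
    unfold kp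
    rw [← hz]
    have hres : (if (sl j - sl k) * w + (sl e - sl k) * (a * 2 ^ p.1 + ((i : ℕ) : ℤ)) +
        (sl e' - sl k) * (b * 2 ^ p.1 + ((i' : ℕ) : ℤ)) ∈ iv p then
        K ((sl j - sl k) * w + (sl e - sl k) * (a * 2 ^ p.1 + ((i : ℕ) : ℤ)) +
        (sl e' - sl k) * (b * 2 ^ p.1 + ((i' : ℕ) : ℤ))) else 0) =
        res p K ((sl j - sl k) * w + (sl e - sl k) * (a * 2 ^ p.1 + ((i : ℕ) : ℤ)) +
        (sl e' - sl k) * (b * 2 ^ p.1 + ((i' : ℕ) : ℤ))) := by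
      unfold res iv
      rfl
    rw [hres]
    ring
  rw [hform] at huv
  have hfe : Nu ≠ 0 ∧ Nv ≠ 0 := by
    by_contra hcon
    have h0 : Nu * Nv = 0 := by
      by_contra h1
      exact hcon ⟨fun h2 => h1 (by rw [h2]; ring), fun h2 => h1 (by rw [h2]; ring)⟩
    have hz1 : opb k j e e' p K n w0 (a * 2 ^ p.1) (b * 2 ^ p.1) c z u' v' = 0 := by
      rcases mul_eq_zero.1 h0 with h1 | h1
      · have h2 : ∀ i, u' i = 0 := fun i => by
          have := (Finset.sum_eq_zero_iff_of_nonneg fun i _ => sq_nonneg ‖u' i‖).1 h1 i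
            (Finset.mem_univ _)
          exact norm_eq_zero.1 (by simpa using this)
        unfold opb
        refine Finset.sum_eq_zero fun i _ => Finset.sum_eq_zero fun i' _ => ?_
        rw [h2]; ring
      · have h2 : ∀ i, v' i = 0 := fun i => by
          have := (Finset.sum_eq_zero_iff_of_nonneg fun i _ => sq_nonneg ‖v' i‖).1 h1 i
            (Finset.mem_univ _)
          exact norm_eq_zero.1 (by simpa using this)
        unfold opb
        refine Finset.sum_eq_zero fun i _ => Finset.sum_eq_zero fun i' _ => ?_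
        rw [h2]; ring
    rw [hz1] at huv
    have : (0 : ℝ) ≤ (s * 2 ^ p.1) ^ 2 * (Nu * Nv) := by positivity
    simp at huv
    linarith
  have hNu1 : 0 < Nu := lt_of_le_of_ne hNu0 (Ne.symm hfe.1)
  have hNv1 : 0 < Nv := lt_of_le_of_ne hNv0 (Ne.symm hfe.2)
  set ρ : ℝ := Real.sqrt (n / Nu) with hρ
  set σ : ℝ := Real.sqrt (n / Nv) with hσ
  have hρ2 : ρ ^ 2 = n / Nu := Real.sq_sqrt (by positivity)
  have hσ2 : σ ^ 2 = n / Nv := Real.sq_sqrt (by positivity)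
  have hρ0 : 0 < ρ := Real.sqrt_pos.2 (by positivity)
  have hσ0 : 0 < σ := Real.sqrt_pos.2 (by positivity)
  refine ⟨fun i => (ρ : ℂ) * u' i, fun i => (σ : ℂ) * v' i, ?_, ?_, ?_⟩
  · have h1 : ∀ i, ‖(ρ : ℂ) * u' i‖ ^ 2 = (n / Nu) * ‖u' i‖ ^ 2 := fun i => by
      rw [norm_mul, mul_pow, Complex.norm_real, Real.norm_eq_abs, sq_abs, hρ2]
    rw [Finset.sum_congr rfl fun i _ => h1 i, ← Finset.mul_sum, ← hNu]
    exact (div_mul_cancel₀ _ hfe.1).le
  · have h1 : ∀ i, ‖(σ : ℂ) * v' i‖ ^ 2 = (n / Nv) * ‖v' i‖ ^ 2 := fun i => by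
      rw [norm_mul, mul_pow, Complex.norm_real, Real.norm_eq_abs, sq_abs, hσ2]
    rw [Finset.sum_congr rfl fun i _ => h1 i, ← Finset.mul_sum, ← hNv]
    exact (div_mul_cancel₀ _ hfe.2).le
  · have h1 : opb k j e e' p K n w0 (a * 2 ^ p.1) (b * 2 ^ p.1) c z (fun i => (ρ : ℂ) * u' i)
        (fun i => (σ : ℂ) * v' i) =
        ((ρ * σ : ℝ) : ℂ) * opb k j e e' p K n w0 (a * 2 ^ p.1) (b * 2 ^ p.1) c z u' v' := by
      unfold opb
      rw [Finset.mul_sum]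
      refine Finset.sum_congr rfl fun i _ => ?_
      rw [Finset.mul_sum]
      refine Finset.sum_congr rfl fun i' _ => ?_
      push_cast; ring
    rw [h1, norm_mul, Complex.norm_real, Real.norm_of_nonneg (by positivity)]
    set X := ‖opb k j e e' p K n w0 (a * 2 ^ p.1) (b * 2 ^ p.1) c z u' v'‖ with hX
    have h2 : (s * (n : ℝ) ^ 2) ^ 2 < (ρ * σ * X) ^ 2 := by
      have h3 : (ρ * σ * X) ^ 2 = (n / Nu) * (n / Nv) * X ^ 2 := by
        rw [mul_pow, mul_pow, hρ2, hσ2]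
      have h4 : (n / Nu) * (n / Nv) * ((s * n) ^ 2 * (Nu * Nv)) = (s * (n : ℝ) ^ 2) ^ 2 := by
        field_simp
      rw [h3, ← h4]
      refine mul_lt_mul_of_pos_left ?_ (by positivity)
      rw [hnr]
      exact huv
    exact lt_of_pow_lt_pow_left₀ 2 (by positivity) h2

/-- **level ⟹ exceptional density** -/
theorem exD_of_lvS {g x f : ℝ} {k j e e' : Fin 4} (hd : Dst4 k j e e') {t : ℝ} (ht : 0 < t)
    {s A : ℝ} (hs : 0 ≤ s) (hA : 0 ≤ A) {R : Finset Nd} {K : Fn}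
    (hL : ∀ p ∈ R, LvS g x f k t s p K) (hav : ∀ p ∈ R, av p K ≤ A) {c : ℤ → ℤ → ℂ}
    (hc : ∀ z z', ‖c z z'‖ ≤ 1) :
    ExD R c K (sl j - sl k) (sl e - sl k) (sl e' - sl k) (128 * s * t ^ g + 24 * A * t ^ f)
      (t ^ x) := by
  classical
  intro p hp w a b
  have hs' : 0 ≤ 128 * s * t ^ g + 24 * A * t ^ f := by
    have := Real.rpow_pos_of_pos ht g
    have := Real.rpow_pos_of_pos ht f
    positivity
  obtain ⟨n, hn⟩ : ∃ n : ℕ, n = 2 ^ p.1 := ⟨_, rfl⟩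
  have hnr : ((n : ℕ) : ℝ) = 2 ^ p.1 := by rw [hn]; push_cast; rfl
  have hnz : ((n : ℕ) : ℤ) = 2 ^ p.1 := by rw [hn]; push_cast; rfl
  have hn0 : 0 < n := by rw [hn]; positivity
  have h1 := supop_of_lv ht hs hA (hL p hp) (hav p hp) hd (n := n) (by rw [hnr]) w
    (a * 2 ^ p.1) (b * 2 ^ p.1) hc
  rw [← hnr]
  refine le_trans ?_ h1
  refine Nat.cast_le.2 ?_
  refine Finset.card_le_card_of_injOn (fun w' => if h : 0 ≤ w' - w ∧ w' - w < n then
    (⟨(w' - w).toNat, by omega⟩ : Fin n) else ⟨0, hn0⟩) ?_ ?_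
  · intro w' hw'
    rw [Finset.mem_coe, Finset.mem_filter, Finset.mem_Ico] at hw'
    have h3 : 0 ≤ w' - w ∧ w' - w < n := by
      rw [hnz]
      constructor <;> linarith [hw'.1.1, hw'.1.2]
    have h5 : (fun w' => if h : 0 ≤ w' - w ∧ w' - w < n then
      (⟨(w' - w).toNat, by omega⟩ : Fin n) else ⟨0, hn0⟩) w' = ⟨(w' - w).toNat, by omega⟩ :=
      dif_pos h3
    rw [h5, Finset.mem_coe, Finset.mem_filter]
    refine ⟨Finset.mem_univ _, ?_⟩
    obtain ⟨U, V, hU, hV, hUV⟩ := exists_sec (k := k) (j := j) (e := e) (e' := e') hs'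
      (n := n) hn (w0 := w) (z := ⟨(w' - w).toNat, by omega⟩)
      (by show w' = w + (((w' - w).toNat : ℕ) : ℤ); omega) hw'.2
    exact ⟨U, V, hU, hV, hUV⟩
  · intro w' hw' w'' hw'' heq
    rw [Finset.mem_coe, Finset.mem_filter, Finset.mem_Ico] at hw' hw''
    have h3 : 0 ≤ w' - w ∧ w' - w < n := by
      rw [hnz]
      constructor <;> linarith [hw'.1.1, hw'.1.2]
    have h4 : 0 ≤ w'' - w ∧ w'' - w < n := by
      rw [hnz]
      constructor <;> linarith [hw''.1.1, hw''.1.2]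
    simp only [dif_pos h3, dif_pos h4, Fin.mk.injEq] at heq
    omega

end Crest.Agent.R079.OpS276
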