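import Crest.Agent.R079.KLdd_138
import Crest.Agent.R079.MaxL_533

/-! R079 (helper533), KILL LEMMA task [KD] with the logarithmic maximal majorant: the energy of the rest
loses only `1 + log Ht`.  The proof is helper138's `rest_energy` with `exists_max_log` in place of
`exists_max_int`. -/

set_option autoImplicit false
set_option linter.unusedVariables false

namespace Crest.Agent.R079.KLdx138

open Finset Crest.Agent.R079.Grid Crest.Agent.R079.Glue Crest.Agent.R079.Growth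
  Crest.Agent.R079.QRed Crest.Agent.R079.BadTx138 Crest.Agent.R079.KLx446

/-- **[KD] ENERGY OF THE REST**, logarithmic in the cap of the weight. -/
theorem rest_energy_log : ∃ C0 : ℝ, 0 ≤ C0 ∧ ∀ (R : Finset Nd) (J : Nd), Full R J →
    ∀ (c : ℤ → ℤ → ℂ) (K : Fn) (α β γ : ℤ), Cof α β γ → ∀ (s ε D : ℝ), 0 < ε → 0 ≤ D →
    ExD R c K α β γ s D → ∀ (th : ℤ → ℝ) (Ht : ℝ) (z0 : ℤ) (n : ℕ), (∀ z, 0 ≤ th z) → 1 ≤ Ht →
    (∀ z, th z ≤ Ht) → (∀ z, th z ≠ 0 → z0 ≤ z ∧ z < z0 + n) →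
    ∀ (X : Fn) (A : ℝ), (∀ p ∈ R, av p X ≤ A) → ∀ (w0 : ℤ) (N : ℕ) (Xf Yf : Finset ℤ),
    letI := Classical.dec
    ∑ w ∈ Ico w0 (w0 + N), ∑ x ∈ Xf, ∑ y ∈ Yf, (if RsP R J c K α β γ s ε w x y then
      th (-w - x - y) * ‖X (α * w + β * x + γ * y)‖ ^ 2 else 0) ≤
    C0 * A ^ 2 * (D / ε) * (1 + Real.log Ht) * ((N + 2 ^ J.1) * 2 ^ J.1 *
      (∑ z ∈ Ico z0 (z0 + n), th z + n + 2 ^ J.1)) := by
  classical
  obtain ⟨Cm, hCm, hmax⟩ := Crest.Agent.R079.MaxLx533.exists_max_log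
  refine ⟨(3073 * 2 ^ 15) * ((2 * 512 + 7) * 162) * (2 * (2 * 2 ^ 7)) * (1031 * Cm), by positivity, ?_⟩
  intro R J hR c K α β γ hC s ε D hε hD0 hD th Ht z0 n hth hHt hthH hsupp X A hX w0 N Xf Yf
  -- a common bound for the indices
  obtain ⟨T, hTx, hTy⟩ : ∃ T : ℤ, (∀ x ∈ Xf, |x| + 256 * 2 ^ J.1 ≤ T) ∧
      ∀ y ∈ Yf, |y| + 256 * 2 ^ J.1 ≤ T := by
    refine ⟨∑ x ∈ Xf, |x| + ∑ y ∈ Yf, |y| + 256 * 2 ^ J.1, fun x hx => ?_, fun y hy => ?_⟩
    · have h1 := Finset.single_le_sum (f := fun x : ℤ => |x|) (fun _ _ => abs_nonneg _) hx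
      have h2 : 0 ≤ ∑ y ∈ Yf, |y| := Finset.sum_nonneg fun _ _ => abs_nonneg _
      linarith
    · have h1 := Finset.single_le_sum (f := fun x : ℤ => |x|) (fun _ _ => abs_nonneg _) hy
      have h2 : 0 ≤ ∑ x ∈ Xf, |x| := Finset.sum_nonneg fun _ _ => abs_nonneg _
      linarith
  -- the majorant
  set JJ : ℤ := 2 ^ J.1 with hJJ
  have hJJ0 : 0 < JJ := by rw [hJJ]; positivity
  obtain ⟨g, hg0, hg1, hg2⟩ := hmax th Ht hth hHt hthH (Ico z0 (z0 + n)) (by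
    intro x hx
    by_contra hne
    exact hx (Finset.mem_Ico.2 (hsupp x hne)))
  set Sg : Finset ℤ := Ico (z0 - 515 * JJ) (z0 + n + 515 * JJ) with hSg
  have hsg : ∑ x ∈ Sg, g x ≤ Cm * (1 + Real.log Ht) * (Sg.card + ∑ z ∈ Ico z0 (z0 + n), th z) :=
    hg2 Sg
  have hSgc : (Sg.card : ℝ) ≤ n + 1030 * 2 ^ J.1 := by
    rw [hSg, Int.card_Ico]
    rw [show z0 + n + 515 * JJ - (z0 - 515 * JJ) = ((n + 1030 * 2 ^ J.1 : ℕ) : ℤ) by
      push_cast; rw [hJJ]; ring, Int.toNat_natCast]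
    push_cast
    exact le_rfl
  -- the fixed `w` bounds
  set BT : ℤ → Finset (ℕ × ℤ × ℤ) := fun w => BTs R J c K α β γ s ε th T w with hBT
  have step1 : ∑ w ∈ Ico w0 (w0 + N), ∑ x ∈ Xf, ∑ y ∈ Yf,
      (if RsP R J c K α β γ s ε w x y then
        th (-w - x - y) * ‖X (α * w + β * x + γ * y)‖ ^ 2 else 0) ≤
      (3073 * 2 ^ 15 * A ^ 2) * ∑ w ∈ Ico w0 (w0 + N), ∑ B ∈ BT w,
        (4 : ℝ) ^ B.1 * avT th 0 512 B w := by
    rw [Finset.mul_sum]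
    exact Finset.sum_le_sum fun w _ => one_w hR hC hX hth Xf Yf T hTx hTy w
  -- the used cubes
  set LT : ℤ → (ℕ × ℤ × ℤ) → Finset (ℕ × ℤ × ℤ) := fun w B => LTs R J c K α β γ s w B with hLT
  set U : Finset (ℕ × ℤ × ℤ × ℤ) := (Ico w0 (w0 + N)).biUnion fun w => (BT w).biUnion fun B =>
    (LT w B).image fun L => (L.1, w / 2 ^ L.1, L.2.1, L.2.2) with hU
  have memBT : ∀ w, ∀ B ∈ BT w, B.1 ≤ J.1 ∧ MxB R J c K α β γ s ε w B ∧ avT th 0 512 B w ≠ 0 := by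
    intro w B hB
    rw [hBT] at hB
    simp only at hB
    unfold BTs at hB
    rw [Finset.mem_filter, Finset.mem_product, Finset.mem_range] at hB
    exact ⟨by omega, hB.2.1, hB.2.2⟩
  have step2 : ∑ w ∈ Ico w0 (w0 + N), ∑ B ∈ BT w, (4 : ℝ) ^ B.1 * avT th 0 512 B w ≤
      (2 * 512 + 7) * ((162 * D) / ε) * ∑ u ∈ U, cubeS g 0 u := by
    have h := bad_tiles hth hg1 U (ExT R J c K α β γ s) (ρ := 162 * D) (cc := ε) (by positivity) hε
      (fun u _ => card_ExT hR hC hD hD0 u.1 u.2.1 u.2.2.1 u.2.2.2) (Ico w0 (w0 + N)) BT LT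
      (by
        intro w hw B hB L hL
        obtain ⟨h1, h2, h3, h4⟩ := mem_LTs hL
        refine ⟨h1, h2, h3, ?_, h4⟩
        rw [hU, Finset.mem_biUnion]
        refine ⟨w, hw, ?_⟩
        rw [Finset.mem_biUnion]
        refine ⟨B, hB, ?_⟩
        rw [Finset.mem_image]
        exact ⟨L, hL, rfl⟩)
      (by
        intro w hw B hB B' hB' hne
        rw [Finset.disjoint_left]
        intro L hL hL'
        apply hne
        obtain ⟨h1, h2, h3, -⟩ := mem_LTs hL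
        obtain ⟨h1', h2', h3', -⟩ := mem_LTs hL'
        rcases le_total B.1 B'.1 with hle | hle
        · exact mx_eq (memBT w B hB).2.1 (memBT w B' hB').2.1 hle h1 h2 h3 h2' h3'
        · exact (mx_eq (memBT w B' hB').2.1 (memBT w B hB).2.1 hle h1' h2' h3' h2 h3).symm)
      (by
        intro w hw B hB
        exact LTs_area (memBT w B hB).2.1.1) 0 512
    exact_mod_cast h
  -- the cubes
  have step3 : ∑ u ∈ U, cubeS g 0 u ≤ (Ico (w0 - JJ) (w0 + N + JJ)).card * (∑ x ∈ Sg, g x) *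
      ∑ p ∈ Lfs R J, ((enl p).card : ℝ) := by
    refine sum_cubes (α := α) (β := β) (γ := γ) hg0 hC.βγ U (Lfs R J) _ Sg ?_
    intro u hu
    rw [hU, Finset.mem_biUnion] at hu
    obtain ⟨w, hw, hu⟩ := hu
    rw [Finset.mem_biUnion] at hu
    obtain ⟨B, hB, hu⟩ := hu
    rw [Finset.mem_image] at hu
    obtain ⟨L, hL, rfl⟩ := hu
    obtain ⟨hBJ, hMx, hav⟩ := memBT w B hB
    rw [Finset.mem_Ico] at hw
    exact cube_pt hR hC hsupp hw hBJ hav hL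
  have hW : ((Ico (w0 - JJ) (w0 + N + JJ)).card : ℝ) ≤ 2 * (N + 2 ^ J.1) := by
    rw [Int.card_Ico]
    rw [show w0 + N + JJ - (w0 - JJ) = ((N + 2 * 2 ^ J.1 : ℕ) : ℤ) by
      push_cast; rw [hJJ]; ring, Int.toNat_natCast]
    push_cast
    have : (0 : ℝ) ≤ N := by positivity
    linarith
  have hP : ∑ p ∈ Lfs R J, ((enl p).card : ℝ) ≤ 2 * 2 ^ 7 * 2 ^ J.1 := by
    refine (Finset.sum_le_sum fun p _ => card_enl p).trans ?_
    rw [← Finset.mul_sum]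
    have := sum_leaves hR
    rw [pow_add] at this
    linarith
  set Θ : ℝ := ∑ z ∈ Ico z0 (z0 + (n : ℤ)), th z with hΘ
  have hΘ0 : 0 ≤ Θ := Finset.sum_nonneg fun _ _ => hth _
  have hH13 : 0 ≤ 1 + Real.log Ht := by
    have := Real.log_nonneg hHt
    linarith
  have hsg' : ∑ x ∈ Sg, g x ≤ (1031 * Cm) * ((1 + Real.log Ht) * (Θ + n + 2 ^ J.1)) := by
    refine hsg.trans ?_
    have h1 : (Sg.card : ℝ) + Θ ≤ 1031 * (Θ + n + 2 ^ J.1) := by
      have hn : (0 : ℝ) ≤ n := by positivity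
      have hj : (0 : ℝ) ≤ 2 ^ J.1 := by positivity
      linarith
    calc Cm * (1 + Real.log Ht) * (Sg.card + Θ)
        ≤ Cm * (1 + Real.log Ht) * (1031 * (Θ + n + 2 ^ J.1)) :=
          mul_le_mul_of_nonneg_left h1 (mul_nonneg hCm hH13)
      _ = _ := by ring
  have hsg0 : 0 ≤ ∑ x ∈ Sg, g x := Finset.sum_nonneg fun _ _ => hg0 _
  have step4 : ∑ u ∈ U, cubeS g 0 u ≤ (2 * (N + 2 ^ J.1)) *
      ((1031 * Cm) * ((1 + Real.log Ht) * (Θ + n + 2 ^ J.1))) * (2 * 2 ^ 7 * 2 ^ J.1) := by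
    refine step3.trans ?_
    refine mul_le_mul ?_ hP (Finset.sum_nonneg fun _ _ => by positivity) (by positivity)
    exact mul_le_mul hW hsg' hsg0 (by positivity)
  have hA2 : 0 ≤ 3073 * 2 ^ 15 * A ^ 2 := by positivity
  have hDe : 0 ≤ (2 * 512 + 7) * ((162 * D) / ε) := by positivity
  refine step1.trans ?_
  refine (mul_le_mul_of_nonneg_left (step2.trans (mul_le_mul_of_nonneg_left step4 hDe)) hA2).trans ?_
  refine le_of_eq ?_
  field_simp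

end Crest.Agent.R079.KLdx138
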