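import Crest.Agent.R079.LfN_71
import Crest.Agent.R079.TWL_649

/-! R079 (T5, leaf S7 of note 781): hypothesis `hleaf` of `Wr408.wr_total` for `P = X + E` (`X` leveled,
`E` small in `L²`) and a letter `G` of the slot `3` which is only bounded in the local `L^q`, `q > 2`
(no height).  helper259. -/

set_option autoImplicit false

namespace Crest.Agent.R079.Leaf259

open Crest.Agent.R079.Wb71 Crest.Agent.R079.Wa71 Crest.Agent.R079.Cmp408 Crest.Agent.R079.LfK71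
open Finset Crest.Agent.R079.Grid Crest.Agent.R079.F2 Crest.Agent.R079.OpLev
open Crest.Agent.R079.Growth Crest.Agent.R079.R244

lemma len_pos' (p : Nd) : 0 < len p := by
  show (0 : ℝ) < (2 : ℝ) ^ (p.1 + 7)
  positivity

/-- the leaf quantity only sees the points where the letter lives -/
lemma LK_congr {c' d' c d : ℤ} {K K' : ℤ → ℤ → ℂ} {β : ℤ → ℂ} {p : Nd}
    (h : ∀ q ∈ Xs c' d' p, ∀ u : ℕ, u < 2 ^ p.1 → ∀ z ∈ Xs c d p, β (q + (u : ℤ)) ≠ 0 →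
      K (q + (u : ℤ)) z = K' (q + (u : ℤ)) z) :
    LK c' d' c d K β p = LK c' d' c d K' β p := by
  unfold LK
  refine Finset.sum_congr rfl fun q hq => ?_
  congr 1
  refine Finset.sum_congr rfl fun z hz => ?_
  congr 3
  refine Finset.sum_congr rfl fun u hu => ?_
  by_cases hb : β (q + (u : ℤ)) = 0
  · rw [hb, star_zero, zero_mul, zero_mul]
  · rw [h q hq u (Finset.mem_range.1 hu) z hz hb]

lemma LK_nonneg (c' d' c d : ℤ) (K : ℤ → ℤ → ℂ) (β : ℤ → ℂ) (p : Nd) : 0 ≤ LK c' d' c d K β p := by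
  have := len_pos' p
  unfold LK
  positivity

lemma LK_zero {c' d' c d : ℤ} {K : ℤ → ℤ → ℂ} {β : ℤ → ℂ} {p : Nd}
    (h : ∀ q ∈ Xs c' d' p, ∀ u : ℕ, u < 2 ^ p.1 → β (q + (u : ℤ)) = 0) :
    LK c' d' c d K β p = 0 := by
  unfold LK
  refine Finset.sum_eq_zero fun q hq => ?_
  rw [Finset.sum_eq_zero, mul_zero]
  intro z _
  rw [Finset.sum_eq_zero (s := range (2 ^ p.1))]
  · simp
  · intro u hu
    rw [h q hq u (Finset.mem_range.1 hu), star_zero, zero_mul]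

/-- the two shadows determine the point -/
lemma shadows_inj {i k j a b : Fin 4} (hD : Dst k j a b) (r x z x' z' : ℤ)
    (h1 : (sl i * r + sl a * x + sl b * z) - sl k * (r + x + z) =
      (sl i * r + sl a * x' + sl b * z') - sl k * (r + x' + z'))
    (h2 : (sl i * r + sl a * x + sl b * z) - sl j * (r + x + z) =
      (sl i * r + sl a * x' + sl b * z') - sl j * (r + x' + z')) : x = x' ∧ z = z' := by
  obtain ⟨hkj, hka, hkb, hja, hjb, hab⟩ := hD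
  have hsl : ∀ c e : Fin 4, c ≠ e → sl c - sl e ≠ 0 := by decide
  have hkj' := hsl j k hkj.symm
  have hab' := hsl b a hab.symm
  set X := x - x' with hX
  set Z := z - z' with hZ
  have e1 : (sl a - sl k) * X + (sl b - sl k) * Z = 0 := by rw [hX, hZ]; linarith
  have e2 : (sl a - sl j) * X + (sl b - sl j) * Z = 0 := by rw [hX, hZ]; linarith
  have e3 : (sl j - sl k) * (X + Z) = 0 := by linear_combination e1 - e2
  have e4 : X + Z = 0 := by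
    rcases mul_eq_zero.1 e3 with h | h
    · exact absurd h hkj'
    · exact h
  have e5 : (sl b - sl a) * Z = 0 := by
    have : X = -Z := by linarith
    rw [this] at e1
    linear_combination e1
  have e6 : Z = 0 := by
    rcases mul_eq_zero.1 e5 with h | h
    · exact absurd h hab'
    · exact h
  constructor
  · have : X = 0 := by linarith
    linarith
  · linarith

open Classical in
/-- **trivial bound of the leaf quantity** (Cauchy-Schwarz) -/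
theorem LK_triv {i k j a b : Fin 4} (hD : Dst k j a b) (p : Nd) (r : ℤ) (P G : ℤ → ℂ) (β : ℤ → ℂ)
    (U : Finset ℤ) (c' d' c d : ℤ) {B' AP AG : ℝ} (hB0 : 0 ≤ B') (hAP : 0 ≤ AP)
    (hB : ∀ q : ℤ, ∑ u ∈ range (2 ^ p.1), ‖β (q + (u : ℤ))‖ ^ 2 ≤ B' * len p)
    (hP : ∑ y ∈ U, ‖P y‖ ^ 2 ≤ AP * len p) (hG : ∑ y ∈ U, ‖G y‖ ^ 2 ≤ AG * len p)
    (hU : ∀ q ∈ Xs c' d' p, ∀ u : ℕ, u < 2 ^ p.1 → ∀ z ∈ Xs c d p,
      (sl i * r + sl a * (q + (u : ℤ)) + sl b * z) - sl k * (r + (q + (u : ℤ)) + z) ∈ U ∧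
      (sl i * r + sl a * (q + (u : ℤ)) + sl b * z) - sl j * (r + (q + (u : ℤ)) + z) ∈ U) :
    LK c' d' c d (K2 i k j a b P G r) β p ≤ 128 * (B' * AP * AG) * len p := by
  have hlp := len_pos' p
  have hlen : len p = 128 * (2 : ℝ) ^ p.1 := by
    show (2 : ℝ) ^ (p.1 + 7) = _
    rw [pow_add]; ring
  have hL0 : (0 : ℝ) < (2 : ℝ) ^ p.1 := by positivity
  have hAG : 0 ≤ AG := by
    have := le_trans (Finset.sum_nonneg fun _ _ => by positivity) hG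
    exact nonneg_of_mul_nonneg_left this hlp
  -- one term
  have hterm : ∀ q z : ℤ, ‖(1 / 2 ^ p.1 : ℂ) * ∑ u ∈ range (2 ^ p.1),
      star (β (q + (u : ℤ))) * K2 i k j a b P G r (q + (u : ℤ)) z‖ ^ 2 ≤
      (1 / (2 : ℝ) ^ p.1) ^ 2 * ((B' * len p) * ∑ u ∈ range (2 ^ p.1),
        ‖K2 i k j a b P G r (q + (u : ℤ)) z‖ ^ 2) := by
    intro q z
    rw [norm_mul, mul_pow, norm_div, norm_one, norm_pow, Complex.norm_ofNat]
    refine mul_le_mul_of_nonneg_left ?_ (by positivity)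
    have h1 : ‖∑ u ∈ range (2 ^ p.1), star (β (q + (u : ℤ))) *
        K2 i k j a b P G r (q + (u : ℤ)) z‖ ≤ ∑ u ∈ range (2 ^ p.1),
        ‖β (q + (u : ℤ))‖ * ‖K2 i k j a b P G r (q + (u : ℤ)) z‖ := by
      refine (norm_sum_le _ _).trans (Finset.sum_le_sum fun u _ => ?_)
      rw [norm_mul, norm_star]
    refine (pow_le_pow_left₀ (norm_nonneg _) h1 2).trans ?_
    refine (Finset.sum_mul_sq_le_sq_mul_sq _ _ _).trans ?_
    exact mul_le_mul_of_nonneg_right (hB q) (Finset.sum_nonneg fun _ _ => by positivity)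
  -- the double sum for fixed `u`
  have hfix : ∀ u : ℕ, u < 2 ^ p.1 → ∑ q ∈ Xs c' d' p, ∑ z ∈ Xs c d p,
      ‖K2 i k j a b P G r (q + (u : ℤ)) z‖ ^ 2 ≤ (AP * len p) * (AG * len p) := by
    intro u hu
    set f : ℤ × ℤ → ℤ × ℤ := fun x =>
      ((sl i * r + sl a * (x.1 + (u : ℤ)) + sl b * x.2) - sl k * (r + (x.1 + (u : ℤ)) + x.2),
       (sl i * r + sl a * (x.1 + (u : ℤ)) + sl b * x.2) - sl j * (r + (x.1 + (u : ℤ)) + x.2)) with hf
    have e1 : ∑ q ∈ Xs c' d' p, ∑ z ∈ Xs c d p, ‖K2 i k j a b P G r (q + (u : ℤ)) z‖ ^ 2 =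
        ∑ x ∈ Xs c' d' p ×ˢ Xs c d p, ‖P (f x).1‖ ^ 2 * ‖G (f x).2‖ ^ 2 := by
      rw [Finset.sum_product]
      refine Finset.sum_congr rfl fun q _ => Finset.sum_congr rfl fun z _ => ?_
      unfold K2
      rw [norm_mul, mul_pow]
    have hinj : Set.InjOn f ((Xs c' d' p ×ˢ Xs c d p : Finset (ℤ × ℤ)) : Set (ℤ × ℤ)) := by
      rintro ⟨q, z⟩ _ ⟨q', z'⟩ _ h
      simp only [hf, Prod.mk.injEq] at h
      obtain ⟨g1, g2⟩ := shadows_inj (i := i) hD r _ _ _ _ h.1 h.2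
      have : q = q' := by linarith
      rw [this, g2]
    have e2 : ∑ x ∈ Xs c' d' p ×ˢ Xs c d p, ‖P (f x).1‖ ^ 2 * ‖G (f x).2‖ ^ 2 =
        ∑ y ∈ (Xs c' d' p ×ˢ Xs c d p).image f, ‖P y.1‖ ^ 2 * ‖G y.2‖ ^ 2 :=
      (Finset.sum_image (f := fun y : ℤ × ℤ => ‖P y.1‖ ^ 2 * ‖G y.2‖ ^ 2) hinj).symm
    rw [e1, e2]
    have e3 : ∑ y ∈ (Xs c' d' p ×ˢ Xs c d p).image f, ‖P y.1‖ ^ 2 * ‖G y.2‖ ^ 2 ≤
        ∑ y ∈ U ×ˢ U, ‖P y.1‖ ^ 2 * ‖G y.2‖ ^ 2 := by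
      refine Finset.sum_le_sum_of_subset_of_nonneg ?_ (fun _ _ _ => by positivity)
      intro y hy
      obtain ⟨⟨q, z⟩, hx, rfl⟩ := Finset.mem_image.1 hy
      obtain ⟨hq, hz⟩ := Finset.mem_product.1 hx
      obtain ⟨g1, g2⟩ := hU q hq u hu z hz
      exact Finset.mem_product.2 ⟨g1, g2⟩
    refine e3.trans ?_
    rw [Finset.sum_product]
    have e4 : ∑ x ∈ U, ∑ y ∈ U, ‖P x‖ ^ 2 * ‖G y‖ ^ 2 =
        (∑ x ∈ U, ‖P x‖ ^ 2) * ∑ y ∈ U, ‖G y‖ ^ 2 := by rw [Finset.sum_mul_sum]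
    show ∑ x ∈ U, ∑ y ∈ U, ‖P x‖ ^ 2 * ‖G y‖ ^ 2 ≤ _
    rw [e4]
    exact mul_le_mul hP hG (Finset.sum_nonneg fun _ _ => by positivity) (by positivity)
  calc LK c' d' c d (K2 i k j a b P G r) β p
      ≤ ∑ q ∈ Xs c' d' p, (1 / len p) * ∑ z ∈ Xs c d p,
        ((1 / (2 : ℝ) ^ p.1) ^ 2 * ((B' * len p) * ∑ u ∈ range (2 ^ p.1),
        ‖K2 i k j a b P G r (q + (u : ℤ)) z‖ ^ 2)) := by
        unfold LK
        refine Finset.sum_le_sum fun q _ => mul_le_mul_of_nonneg_left ?_ (by positivity)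
        exact Finset.sum_le_sum fun z _ => hterm q z
    _ = (1 / len p) * ((1 / (2 : ℝ) ^ p.1) ^ 2 * ((B' * len p) *
        ∑ u ∈ range (2 ^ p.1), ∑ q ∈ Xs c' d' p, ∑ z ∈ Xs c d p,
          ‖K2 i k j a b P G r (q + (u : ℤ)) z‖ ^ 2)) := by
        have e : ∑ u ∈ range (2 ^ p.1), ∑ q ∈ Xs c' d' p, ∑ z ∈ Xs c d p,
          ‖K2 i k j a b P G r (q + (u : ℤ)) z‖ ^ 2 = ∑ q ∈ Xs c' d' p, ∑ z ∈ Xs c d p,
            ∑ u ∈ range (2 ^ p.1), ‖K2 i k j a b P G r (q + (u : ℤ)) z‖ ^ 2 := by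
          rw [Finset.sum_comm]
          refine Finset.sum_congr rfl fun q _ => ?_
          rw [Finset.sum_comm]
        rw [e]
        simp only [Finset.mul_sum]
    _ ≤ (1 / len p) * ((1 / (2 : ℝ) ^ p.1) ^ 2 * ((B' * len p) *
        ∑ _u ∈ range (2 ^ p.1), (AP * len p) * (AG * len p))) := by
        refine mul_le_mul_of_nonneg_left ?_ (by positivity)
        refine mul_le_mul_of_nonneg_left ?_ (by positivity)
        refine mul_le_mul_of_nonneg_left ?_ (by positivity)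
        exact Finset.sum_le_sum fun u hu => hfix u (Finset.mem_range.1 hu)
    _ = 128 * (B' * AP * AG) * len p := by
        rw [Finset.sum_const, Finset.card_range, nsmul_eq_mul]
        push_cast
        rw [hlen]
        field_simp

/-- the nodes near a point where the masked letter lives are in the window -/
lemma er_near {W : Finset Nd} {C : ℕ} (hC : 7 ≤ C) {c' d' : ℤ} (hd3 : |d'| ≤ 3) {p : Nd} {q : ℤ}
    (hq : c' + d' * q ∈ iv p) {u : ℕ} (hu : u < 2 ^ p.1)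
    (hA : AA W C c' d' p.1 (q + (u : ℤ))) {l : ℤ} (hl : p.2 - 5 ≤ l) (hl' : l ≤ p.2 + 5) :
    ((p.1, l) : Nd) ∈ W := by
  have hL : (0 : ℤ) < 2 ^ (p.1 + 7) := by positivity
  have hLp : (2 : ℤ) ^ (p.1 + 7) = 128 * 2 ^ p.1 := by ring
  set L : ℤ := 2 ^ (p.1 + 7) with hLd
  rw [Ero526.mem_iv'] at hq
  have h := hA (l * L) (by
    have hU0 := Int.natCast_nonneg u
    have hU1 : (u : ℤ) < 2 ^ p.1 := by exact_mod_cast hu
    have h1 : |d' * (u : ℤ)| ≤ 3 * u := by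
      rw [abs_mul, abs_of_nonneg hU0]
      exact mul_le_mul_of_nonneg_right hd3 hU0
    rw [abs_le] at h1
    have h2 : 3 * (u : ℤ) ≤ L := by rw [hLp]; linarith
    have h3 : (7 : ℤ) * L ≤ C * L := by
      have : (7 : ℤ) ≤ C := by exact_mod_cast hC
      exact mul_le_mul_of_nonneg_right this hL.le
    have e : l * L - (c' + d' * (q + (u : ℤ))) = (l * L - (c' + d' * q)) - d' * u := by ring
    rw [e]
    refine le_trans ?_ h3
    rw [abs_le]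
    have h4 : (p.2 - 5) * L ≤ l * L := mul_le_mul_of_nonneg_right hl hL.le
    have h5 : l * L ≤ (p.2 + 5) * L := mul_le_mul_of_nonneg_right hl' hL.le
    constructor
    · nlinarith [hq.1, hq.2, h1.1, h1.2]
    · nlinarith [hq.1, hq.2, h1.1, h1.2])
  have h' : ((p.1, (l * L) / 2 ^ (p.1 + 7)) : Nd) ∈ W := h
  rwa [← hLd, Int.mul_ediv_cancel l hL.ne'] at h'

/-- tall part of a letter -/
lemma tall_le (p : Nd) (G : ℤ → ℂ) {q h : ℝ} (hq : 2 ≤ q) (hh : 0 < h)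
    (hG : ∑ y ∈ iv p, ‖G y‖ ^ q ≤ len p) :
    ∑ y ∈ iv p, ‖if h < ‖G y‖ then G y else 0‖ ^ 2 ≤ h ^ (2 - q) * len p := by
  have h1 : ∀ y ∈ iv p, ‖if h < ‖G y‖ then G y else 0‖ ^ 2 ≤ h ^ (2 - q) * ‖G y‖ ^ q := by
    intro y _
    split_ifs with hy
    · have hG0 : 0 < ‖G y‖ := hh.trans hy
      have e : ‖G y‖ ^ (2 : ℕ) = ‖G y‖ ^ (2 - q) * ‖G y‖ ^ q := by
        rw [← Real.rpow_add hG0, sub_add_cancel]
        norm_cast
      rw [e]
      refine mul_le_mul_of_nonneg_right ?_ (Real.rpow_nonneg hG0.le _)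
      exact Real.rpow_le_rpow_of_nonpos hh hy.le (by linarith)
    · rw [norm_zero, zero_pow two_ne_zero]
      exact mul_nonneg (Real.rpow_nonneg hh.le _) (Real.rpow_nonneg (norm_nonneg _) _)
  refine (Finset.sum_le_sum h1).trans ?_
  rw [← Finset.mul_sum]
  exact mul_le_mul_of_nonneg_left hG (Real.rpow_nonneg hh.le _)

/-- **S7**: hypothesis `hleaf` of `Wr408.wr_total` (`i` = `k` = frozen slot, static letter in the
slot `j`): `P = X + E` on `iv J`, `X` leveled at the nodes of `W`, `G` in the local `L^q` -/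
theorem hleaf_q {κ : ℕ} {i k j a b : Fin 4} (hD : Dst k j a b) {W : Finset Nd} {J : Nd}
    (hWJ : ∀ p ∈ W, iv p ⊆ iv J) (C : ℕ) (hC : 7 ≤ C) (r : ℤ) (hr : |r| ≤ 3) (f F : ℤ → ℂ)
    (hf : ∀ z, ‖f z‖ ≤ ‖F ((sl i - sl b) * r + -dd a b * z)‖)
    (hA : ∀ p ∈ W, ∑ y ∈ iv p, ‖F y‖ ^ 2 ≤ 1 * len p)
    {P X E G : ℤ → ℂ} (hPX : ∀ y ∈ iv J, P y = X y + E y) {s ε q h : ℝ}
    (hO : ∀ p ∈ W, OLev κ k p X s) (hs : 0 ≤ s) (hκ : 13 ≤ κ)
    (hX : ∀ p ∈ W, ∑ y ∈ iv p, ‖X y‖ ^ 2 ≤ 4 * len p)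
    (hE : ∀ p ∈ W, ∑ y ∈ iv p, ‖E y‖ ^ 2 ≤ ε ^ 2 * len p)
    (hG2 : ∀ p ∈ W, ∑ y ∈ iv p, ‖G y‖ ^ 2 ≤ 1 * len p)
    (hG : ∀ p ∈ W, ∑ y ∈ iv p, ‖G y‖ ^ q ≤ len p) (hq : 2 ≤ q) (hh : 0 < h)
    (m : ℕ) (p : Nd) (hp : p ∈ Wa71.Pn W C ((sl i - sl b) * r) (-dd a b) m) :
    LK ((sl i - sl b) * r) (-dd a b) ((sl i - sl a) * r) (dd a b) (K2 i k j a b P G r)
      (Wb71.mk W C ((sl i - sl b) * r) (-dd a b) f m) p ≤
      (2 ^ 54 * h ^ 2 * s + 2 ^ 20 * h ^ (2 - q) + 2 ^ 18 * ε ^ 2) * len p := by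
  classical
  have hpm : p.1 = m := (Wa71.mem_Pn.1 hp).2.1
  subst hpm
  obtain ⟨hd1, hd3⟩ := dd_natAbs k j a b hD
  have hd : dd a b ≠ 0 := by
    intro h0; rw [h0] at hd1; simp at hd1
  have hd' : -dd a b ≠ 0 := neg_ne_zero.2 hd
  have hdz : |-dd a b| ≤ 3 := by
    rw [abs_neg, Int.abs_eq_natAbs]
    exact_mod_cast hd3
  have hlp := len_pos' p
  have hh2 := Real.rpow_nonneg hh.le (2 - q)
  set β := Wb71.mk W C ((sl i - sl b) * r) (-dd a b) f p.1 with hβ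
  set c' := (sl i - sl b) * r with hc'
  set c := (sl i - sl a) * r with hc
  have hR : 0 ≤ (2 ^ 54 * h ^ 2 * s + 2 ^ 20 * h ^ (2 - q) + 2 ^ 18 * ε ^ 2) * len p := by
    positivity
  by_cases hall : ∀ q ∈ Xs c' (-dd a b) p, ∀ u : ℕ, u < 2 ^ p.1 → β (q + (u : ℤ)) = 0
  · rw [LK_zero hall]; exact hR
  push Not at hall
  obtain ⟨q1, hq1, u1, hu1, hne⟩ := hall
  have hAA : AA W C c' (-dd a b) p.1 (q1 + (u1 : ℤ)) := by
    by_contra hcn
    exact hne (by rw [hβ]; unfold Wb71.mk; rw [if_neg hcn])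
  have hnear : ∀ l, p.2 - 5 ≤ l → l ≤ p.2 + 5 → ((p.1, l) : Nd) ∈ W := fun l h1 h2 =>
    er_near hC hdz ((mem_Xs hd').1 hq1) hu1 hAA h1 h2
  -- the region of the shadows
  set U : Finset ℤ := (Finset.Icc (p.2 - 5) (p.2 + 5)).biUnion (fun l => iv (p.1, l)) with hU
  have hmemU : ∀ y : ℤ, y / 2 ^ (p.1 + 7) ∈ Finset.Icc (p.2 - 5) (p.2 + 5) → y ∈ U := by
    intro y hy
    exact Finset.mem_biUnion.2 ⟨_, hy, Crest.Agent.R079.Qh249.mem_iv.2 rfl⟩
  have hsumU : ∀ (g : ℤ → ℝ) (A : ℝ), (∀ y, 0 ≤ g y) →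
      (∀ p ∈ W, ∑ y ∈ iv p, g y ≤ A * len p) → ∑ y ∈ U, g y ≤ (11 * A) * len p := by
    intro g A hg hgA
    rw [hU, Finset.sum_biUnion]
    · have hcard : ((Finset.Icc (p.2 - 5) (p.2 + 5)).card : ℝ) = 11 := by
        rw [Int.card_Icc]
        have : (p.2 + 5 + 1 - (p.2 - 5)).toNat = 11 := by
          rw [show p.2 + 5 + 1 - (p.2 - 5) = 11 by ring]; rfl
        rw [this]; norm_num
      calc ∑ l ∈ Finset.Icc (p.2 - 5) (p.2 + 5), ∑ y ∈ iv (p.1, l), g y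
          ≤ ∑ _l ∈ Finset.Icc (p.2 - 5) (p.2 + 5), A * len p := by
            refine Finset.sum_le_sum fun l hl => ?_
            exact hgA (p.1, l) (hnear l (Finset.mem_Icc.1 hl).1 (Finset.mem_Icc.1 hl).2)
        _ = (11 * A) * len p := by rw [Finset.sum_const, nsmul_eq_mul, hcard]; ring
    · intro l _ l' _ hll
      rw [Function.onFun, Finset.disjoint_left]
      intro y hy hy'
      rw [Crest.Agent.R079.Qh249.mem_iv] at hy hy'
      exact hll (hy.symm.trans hy')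
  have hUs : ∀ q ∈ Xs c' (-dd a b) p, ∀ u : ℕ, u < 2 ^ p.1 → ∀ z ∈ Xs c (dd a b) p,
      (sl i * r + sl a * (q + (u : ℤ)) + sl b * z) - sl k * (r + (q + (u : ℤ)) + z) ∈ U ∧
      (sl i * r + sl a * (q + (u : ℤ)) + sl b * z) - sl j * (r + (q + (u : ℤ)) + z) ∈ U := by
    intro q hq u hu z hz
    refine ⟨hmemU _ ?_, hmemU _ ?_⟩
    · exact slot_near hD p r q z u hu ((mem_Xs hd').1 hq) ((mem_Xs hd).1 hz)
    · have hD' : Dst j k a b := by
        obtain ⟨g1, g2, g3, g4, g5, g6⟩ := hD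
        exact ⟨g1.symm, g4, g5, g2, g3, g6⟩
      exact slot_near hD' p r q z u hu ((mem_Xs hd').1 hq) ((mem_Xs hd).1 hz)
  have hUJ : ∀ y ∈ U, y ∈ iv J := by
    intro y hy
    obtain ⟨l, hl, hyl⟩ := Finset.mem_biUnion.1 hy
    exact hWJ _ (hnear l (Finset.mem_Icc.1 hl).1 (Finset.mem_Icc.1 hl).2) hyl
  -- window energy of the masked letter
  have hβw : ∀ q : ℤ, ∑ u ∈ range (2 ^ p.1), ‖β (q + (u : ℤ))‖ ^ 2 ≤ 3 * len p := by
    intro q
    have h1 := mk_win W C c' hd' (by linarith) f F p.1 hf 1 (by norm_num) hA q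
    refine h1.trans (le_of_eq ?_)
    show _ = 3 * (2 : ℝ) ^ (p.1 + 7)
    ring
  -- the three parts
  set Glo : ℤ → ℂ := fun y => if h < ‖G y‖ then 0 else G y with hGlo
  set Ghi : ℤ → ℂ := fun y => if h < ‖G y‖ then G y else 0 with hGhi
  set K3 : Fin 3 → ℤ → ℤ → ℂ := fun n => if n = 0 then K2 i k j a b X Glo r else
    if n = 1 then K2 i k j a b X Ghi r else K2 i k j a b E G r with hK3
  have k0 : K3 0 = K2 i k j a b X Glo r := by rw [hK3]; exact if_pos rfl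
  have k1 : K3 1 = K2 i k j a b X Ghi r := by
    rw [hK3]; exact (if_neg (by decide)).trans (if_pos rfl)
  have k2 : K3 2 = K2 i k j a b E G r := by
    rw [hK3]; exact (if_neg (by decide)).trans (if_neg (by decide))
  have hsplit : LK c' (-dd a b) c (dd a b) (K2 i k j a b P G r) β p =
      LK c' (-dd a b) c (dd a b) (fun x z => ∑ n ∈ (Finset.univ : Finset (Fin 3)), K3 n x z) β p := by
    refine LK_congr fun q hq u hu z hz _ => ?_
    obtain ⟨g1, g2⟩ := hUs q hq u hu z hz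
    rw [Fin.sum_univ_three, k0, k1, k2]
    unfold K2
    rw [hPX _ (hUJ _ g1)]
    simp only [hGlo, hGhi]
    split_ifs <;> ring
  rw [hsplit]
  refine (LK_sum Finset.univ c' (-dd a b) c (dd a b) K3 β p).trans ?_
  rw [Finset.card_univ, Fintype.card_fin, Fin.sum_univ_three]
  have h0 : LK c' (-dd a b) c (dd a b) (K3 0) β p ≤
      (11 ^ 2 * (2 ^ 42 * (3 * 1) * h ^ 2 * s * Real.sqrt 4)) * len p := by
    rw [k0]
    refine hleaf_val (i := i) hD W C r hr f F hf 1 (by norm_num) hA p.1 rfl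
      (fun l h1 h2 => hO _ (hnear l h1 h2)) hs hκ Glo h hh ?_ 4 (by norm_num)
      (fun l h1 h2 => hX _ (hnear l h1 h2))
    intro y
    simp only [hGlo]
    split_ifs with hy
    · rw [norm_zero]; exact hh.le
    · exact not_lt.1 hy
  have h1 : LK c' (-dd a b) c (dd a b) (K3 1) β p ≤
      128 * (3 * (11 * 4) * (11 * h ^ (2 - q))) * len p := by
    rw [k1]
    exact LK_triv (i := i) hD p r X Ghi β U c' (-dd a b) c (dd a b) (by norm_num) (by norm_num)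
      hβw (hsumU _ 4 (fun _ => by positivity) hX)
      (hsumU _ (h ^ (2 - q)) (fun _ => by positivity) (fun p hp => tall_le p G hq hh (hG p hp))) hUs
  have h2 : LK c' (-dd a b) c (dd a b) (K3 2) β p ≤
      128 * (3 * (11 * ε ^ 2) * (11 * 1)) * len p := by
    rw [k2]
    exact LK_triv (i := i) hD p r E G β U c' (-dd a b) c (dd a b) (by norm_num) (by positivity)
      hβw (hsumU _ (ε ^ 2) (fun _ => by positivity) hE)
      (hsumU _ 1 (fun _ => by positivity) hG2) hUs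
  have hs4 : Real.sqrt 4 = 2 := by
    rw [show (4 : ℝ) = 2 ^ 2 by norm_num, Real.sqrt_sq (by norm_num)]
  rw [hs4] at h0
  have hhs : 0 ≤ h ^ 2 * s * len p := by positivity
  have hhq : 0 ≤ h ^ (2 - q) * len p := by positivity
  have hhe : 0 ≤ ε ^ 2 * len p := by positivity
  push_cast
  nlinarith [h0, h1, h2, hhs, hhq, hhe]

/-! ### the same in the language of `TRec` -/

lemma sumq_of_aq {q : ℝ} (hq : 0 < q) {p : Nd} {f : ℤ → ℂ} (h : TRec.aq q p f ≤ 1) :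
    ∑ y ∈ iv p, ‖f y‖ ^ q ≤ len p := by
  have hl := len_pos' p
  have h0 : 0 ≤ TRec.aq q p f := Lq853.avq_nonneg _ _ _ _
  have h1 : TRec.aq q p f ^ q = (1 / len p) * ∑ y ∈ iv p, ‖f y‖ ^ q := by
    unfold TRec.aq Lq853.avq len iv
    rw [← Real.rpow_mul (mul_nonneg (by positivity)
      (Finset.sum_nonneg fun y _ => Real.rpow_nonneg (norm_nonneg _) _)),
      one_div_mul_cancel hq.ne', Real.rpow_one]
  have h2 : (1 / len p) * ∑ y ∈ iv p, ‖f y‖ ^ q ≤ 1 := by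
    rw [← h1]
    exact Real.rpow_le_one h0 h hq.le
  rw [one_div, inv_mul_le_iff₀ hl, mul_one] at h2
  exact h2

lemma sum2_of_av {p : Nd} {f : ℤ → ℂ} {a : ℝ} (h : av p f ≤ a) :
    ∑ y ∈ iv p, ‖f y‖ ^ 2 ≤ a ^ 2 * len p := by
  have hl := len_pos' p
  have h0 : 0 ≤ av p f := Real.sqrt_nonneg _
  rw [Growth.sum_av, mul_comm]
  exact mul_le_mul_of_nonneg_right (pow_le_pow_left₀ h0 h 2) hl.le

lemma sum2_of_aq {q : ℝ} (hq : 2 ≤ q) {p : Nd} {f : ℤ → ℂ} (h : TRec.aq q p f ≤ 1) :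
    ∑ y ∈ iv p, ‖f y‖ ^ 2 ≤ 1 * len p := by
  have := sum2_of_av ((TWL649.av_le_aq hq p f).trans h)
  simpa using this

/-- `X = P - E` has local `L²` norm `≤ 2` -/
lemma av_X {p : Nd} {P X E : ℤ → ℂ} (hPX : ∀ y ∈ iv p, P y = X y + E y) (hP : av p P ≤ 1)
    (hE : av p E ≤ 1) : av p X ≤ 2 := by
  have h1 := TWL649.av_two p X (fun y => - E y)
  have h2 : av p (fun y => X y - - E y) = av p P := by
    unfold av av2
    congr 1
    congr 1
    refine Finset.sum_congr rfl fun y hy => ?_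
    rw [hPX y hy]
    show ‖X y - -E y‖ ^ 2 = ‖X y + E y‖ ^ 2
    rw [sub_neg_eq_add]
  have h3 : av p (fun y => - E y) = av p E := by
    unfold av av2
    simp only [norm_neg]
  rw [h2, h3] at h1
  have h4 : 0 ≤ av p P := Real.sqrt_nonneg _
  have h5 : 0 ≤ av p E := Real.sqrt_nonneg _
  have h6 : 0 ≤ av p X := Real.sqrt_nonneg _
  have h7 : av p P ^ 2 ≤ 1 := by nlinarith
  have h8 : av p E ^ 2 ≤ 1 := by nlinarith
  nlinarith

/-- **S7 for `CoreS`**: leaf value of the word `(P, G)`, `P = X + E`, in a window `(W, J)` -/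
theorem hleaf_core {κ : ℕ} {m a b : Fin 4} (hD : Dst m 3 a b) {W : Finset Nd} {J : Nd}
    (hWJ : ∀ p ∈ W, iv p ⊆ iv J) (C : ℕ) (hC : 7 ≤ C) (r : ℤ) (hr : |r| ≤ 3) {k q3 : ℝ}
    (hk : 0 ≤ k) (hq3 : 2 ≤ q3) (f F : ℤ → ℂ)
    (hf : ∀ z, ‖f z‖ ≤ ‖F ((sl m - sl b) * r + -dd a b * z)‖)
    (hF : ∀ p ∈ W, TRec.aq (2 + k) p F ≤ 1) {P X E G : ℤ → ℂ}
    (hPX : ∀ y ∈ iv J, P y = X y + E y) (hP : ∀ p ∈ W, TRec.aq (2 + k) p P ≤ 1)
    (hG : ∀ p ∈ W, TRec.aq q3 p G ≤ 1) {s ε h : ℝ} (hε : ε ≤ 1)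
    (hE : ∀ p ∈ W, av p E ≤ ε)
    (hO : ∀ p ∈ W, av p X ≤ 2 → OLev κ m p X s) (hs : 0 ≤ s) (hκ : 13 ≤ κ) (hh : 0 < h)
    (n : ℕ) (p : Nd) (hp : p ∈ Wa71.Pn W C ((sl m - sl b) * r) (-dd a b) n) :
    LK ((sl m - sl b) * r) (-dd a b) ((sl m - sl a) * r) (dd a b) (K2 m m 3 a b P G r)
      (Wb71.mk W C ((sl m - sl b) * r) (-dd a b) f n) p ≤
      (2 ^ 54 * h ^ 2 * s + 2 ^ 20 * h ^ (2 - q3) + 2 ^ 18 * ε ^ 2) * len p := by
  have hX2 : ∀ p ∈ W, av p X ≤ 2 := fun p hp =>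
    av_X (fun y hy => hPX y (hWJ p hp hy))
      ((TWL649.av_le_aq (by linarith) p P).trans (hP p hp)) ((hE p hp).trans hε)
  refine hleaf_q (i := m) hD hWJ C hC r hr f F hf
    (fun p hp => sum2_of_aq (by linarith) (hF p hp)) hPX (fun p hp => hO p hp (hX2 p hp)) hs hκ
    (fun p hp => ?_) (fun p hp => sum2_of_av (hE p hp)) (fun p hp => sum2_of_aq hq3 (hG p hp))
    (fun p hp => sumq_of_aq (by linarith) (hG p hp)) hq3 hh n p hp
  have := sum2_of_av (hX2 p hp)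
  norm_num at this
  exact this

end Crest.Agent.R079.Leaf259
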