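import Crest.Agent.R079.NrE_228
import Crest.Agent.R079.ErO_255

/-! # R079 (S0106) (helper228): the per-cell input in the form of `ErN_255` / `ErO_255` (`CellLt`,
`CellsX`), and the error half of `InES` of `NJ_112` with explicit number (`hE_fin`). -/

set_option autoImplicit false

namespace Crest.Agent.R079.NrFx228

open Finset Crest.Agent.R079.Grid Crest.Agent.R079.Growth Crest.Agent.R079.QRed
  Crest.Agent.R079.Qh249 Crest.Agent.R079.QVar181 Crest.Agent.R079.TWin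
open Crest.Agent.R079.ThA159
open Crest.Agent.R079.Cel159 (NmP cf okc mcell split_cell Mx Mx_mcell Mx_eq sc)
open Crest.Agent.R079.ClW59 (OpS cl)
open Crest.Agent.R079.GaFx371 Crest.Agent.R079.GaDx571 Crest.Agent.R079.PFx263
open Crest.Agent.R079.NrDx276 Crest.Agent.R079.SbWx795 Crest.Agent.R079.ErLx255
open Crest.Agent.R079.NrTx259 Crest.Agent.R079.NrUx259 Crest.Agent.R079.NrWx259
  Crest.Agent.R079.NrTx276 Crest.Agent.R079.NrAx228 Crest.Agent.R079.NrBx228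
  Crest.Agent.R079.NrCx228 Crest.Agent.R079.NrDx228 Crest.Agent.R079.NrEx228

open scoped ComplexConjugate

section

variable {n : ℕ} {i : Fin 4} {e : Fin 3} {T : Fin n → Fin 3 → Finset ℤ}
  {g : Fin n → Fin 3 → ℤ → ℤ → ℂ} {I : Nd} {kc Kl : ℕ} {r : ℕ → ℝ} {V : Finset Nd} {K : Nd} {G : Fn}
  {k0 j0 n0 : ℕ}

/-- **THE PER-CELL INPUT, framed steps** -/
theorem cell_lt {kg : ℕ} {ν θ C1 C2 R : ℝ} (hC1 : 0 ≤ C1) (hC2 : 0 ≤ C2) (hR : 1 ≤ R)
    (hCT : CellT kg θ C1 C2)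
    (hB : ∀ l, Bnd (BdE i e (T l) I) (poE i e) (NmP (SE i e (T l) I) cf (okc (Ye i e) kc)) ν)
    (hr : ∀ q, 0 < r q) (hmono : ∀ q, r q ≤ r (q + 1)) (hRr : ∀ q, r (q + 1) ≤ R * r q)
    (hV : Full V K)
    (hG : GeoF i e T I kc V K k0 j0 n0 kg θ) :
    ErNx255.CellLt i e T g I kc Kl r V K G (LayK V k0 j0 n0 K) (Zff i e T g I kc Kl r V K G k0 j0 n0)
      (C1 * R / 2) (C2 * (2 * (1 / 2) ^ j0)) := by
  classical
  intro l q hq1 t ht
  obtain ⟨hz, hM⟩ := cel_spec ht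
  obtain ⟨z, m, a, b⟩ := t
  simp only at hz hM ⊢
  set S := dI m a ∩ T l e with hS
  set T' := dI m b ∩ T l (e + 1) with hT'
  have hSs : S ⊆ dI m a := Finset.inter_subset_left
  have hTs : T' ⊆ dI m b := Finset.inter_subset_left
  have hr0 : ∀ q, 0 ≤ r q := fun q => (hr q).le
  set A : ℤ → ℤ → ℂ := Ak (BdE i e (T l) I) (poE i e) (fun ω => g l e ω.2.1 ω.2.2) K G z with hA
  set B : ℤ → ℤ → ℂ := Bk (BdE i e (T l) I) (poE i e) (NmP (SE i e (T l) I) cf (okc (Ye i e) kc))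
    (fun ω => g l e ω.2.1 ω.2.2) (r q) V K G z with hBd
  have hlab : ∀ u ∈ S, ∀ v ∈ T', Ye i e z u v ∈ iv K := fun u hu v hv =>
    hM.2.1 u (hSs hu) v (hTs hv)
  -- the cell of the competitor
  have hBop : OpS S T' B (r q * 2 ^ m) := b_cell (hB l) (hr0 q) hV ht
  have hgp0 : 0 ≤ gpS A B S T' (r q * 2 ^ m) := gpS_nonneg A (mul_nonneg (hr0 q) (by positivity)) hBop
  have hE0 : 0 ≤ ∑ u ∈ S, ∑ v ∈ T', ‖A u v‖ ^ 2 :=
    Finset.sum_nonneg fun _ _ => Finset.sum_nonneg fun _ _ => sq_nonneg _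
  have hrhs : 0 ≤ C1 * R / 2 * gpS A B S T' (r q * 2 ^ m) +
      C2 * (2 * (1 / 2) ^ j0) * ∑ u ∈ S, ∑ v ∈ T', ‖A u v‖ ^ 2 := by positivity
  -- the left side by grid nodes
  have hL : ∑ u ∈ S, ∑ v ∈ T', (if poE i e (z, u, v) ∈ LayK V k0 j0 n0 K then 0 else
        ‖stK i e T g I kc Kl r K G l q (z, u, v) -
          Zff i e T g I kc Kl r V K G k0 j0 n0 l q (z, u, v)‖ ^ 2) =
      ∑ q0 ∈ QQ V k0 j0 n0 K, ∑ u ∈ S, ∑ v ∈ T', (if Ye i e z u v ∈ iv q0 then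
        ‖stK i e T g I kc Kl r K G l q (z, u, v) -
          Zff i e T g I kc Kl r V K G k0 j0 n0 l q (z, u, v)‖ ^ 2 else 0) := by
    rw [Finset.sum_congr rfl fun u hu => Finset.sum_congr rfl fun v hv =>
      lay_sum (V := V) (K := K) (k0 := k0) (j0 := j0) (n0 := n0) (y := poE i e (z, u, v))
        (hlab u hu v hv) _]
    rw [Finset.sum_congr rfl fun u _ => Finset.sum_comm, Finset.sum_comm]
    rfl
  by_cases hne : ∃ q0 ∈ QQ V k0 j0 n0 K, ∃ u ∈ dI m a, ∃ v ∈ dI m b, Ye i e z u v ∈ iv q0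
  swap
  · -- no grid node meets the cell
    push Not at hne
    rw [show (∑ u ∈ S, ∑ v ∈ T', (if poE i e (z, u, v) ∈ LayK V k0 j0 n0 K then 0 else
        ‖stK i e T g I kc Kl r K G l q (z, u, v) -
          Zff i e T g I kc Kl r V K G k0 j0 n0 l q (z, u, v)‖ ^ 2)) = 0 from by
      rw [hL]
      refine Finset.sum_eq_zero fun q0 hq0 => Finset.sum_eq_zero fun u hu =>
        Finset.sum_eq_zero fun v hv => ?_
      rw [if_neg (hne q0 hq0 u (hSs hu) v (hTs hv))]]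
    exact hrhs
  obtain ⟨hCG, hbig⟩ := hG l (z, m, a, b) ht hne
  simp only at hCG hbig
  · -- a framed step
    have hst : ∀ u ∈ S, ∀ v ∈ T', stK i e T g I kc Kl r K G l q (z, u, v) =
        cl A S T' (r (q + 1) * 2 ^ m) u v - cl A S T' (r q * 2 ^ m) u v :=
      fun u hu v hv => st_cell (hB l) hr0 ht hq1 hu hv
    have hSV := sv A S T'
    have hstep := hSV.step_eq (ρ := r q * 2 ^ m) (ρ' := r (q + 1) * 2 ^ m)
      (mul_nonneg (hr0 q) (by positivity)) (mul_nonneg (hr0 _) (by positivity))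
    have hop : ∀ c ∈ Til (Ye i e) kc V z m a b, OpS (Rw c) (Cl c) B (r q * 2 ^ c.1) :=
      fun c hc => til_op (hB l) (fun ω => g l e ω.2.1 ω.2.2) (hr0 q) hV G hV.top hM hc
    have h1 := hCT m a b _ _ _ _ _ _ A B S T' (sS A S T') (sY A S T') (sX A S T') (r q) (r (q + 1))
      hCG (hr q) (hmono q) hop hSV hSs hTs
    have h2 : ∑ q0 ∈ QQ V k0 j0 n0 K, ∑ u ∈ S, ∑ v ∈ T', (if Ye i e z u v ∈ iv q0 then
        ‖stK i e T g I kc Kl r K G l q (z, u, v) -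
          Zff i e T g I kc Kl r V K G k0 j0 n0 l q (z, u, v)‖ ^ 2 else 0) =
      ∑ q0 ∈ QQ V k0 j0 n0 K, ∑ u ∈ S, ∑ v ∈ T', (if Ye i e z u v ∈ iv q0 then
        ‖∑ k ∈ T', (dk (sS A S T') (r q * 2 ^ m) (r (q + 1) * 2 ^ m) k : ℂ) * sY A S T' k u *
            conj (sX A S T' k v) -
          ∑ k ∈ T', Pu m a b (E1 (Ye i e) kc V j0 K z m a b) (E2 (Ye i e) kc V n0 q0 z m a b) B
            (r q) (2 ^ (K.1 - j0)) (sY A S T')
            (dk (sS A S T') (r q * 2 ^ m) (r (q + 1) * 2 ^ m)) u k *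
          Qv m a b (E1 (Ye i e) kc V j0 K z m a b) (E2 (Ye i e) kc V n0 q0 z m a b) B
            (r q) (2 ^ (K.1 - j0)) (sX A S T')
            (dk (sS A S T') (r q * 2 ^ m) (r (q + 1) * 2 ^ m)) v k‖ ^ 2 else 0) := by
      refine Finset.sum_congr rfl fun q0 hq0 => Finset.sum_congr rfl fun u hu =>
        Finset.sum_congr rfl fun v hv => ?_
      by_cases hy : Ye i e z u v ∈ iv q0
      · rw [if_pos hy, if_pos hy, hst u hu v hv, hstep u hu v hv]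
        congr 3
        exact ZF_cell hr0 hM (hSs hu) (hTs hv) hq1 hq0 hy
      · rw [if_neg hy, if_neg hy]
    rw [hL, h2]
    refine h1.trans (?_ : _ ≤ C1 * R / 2 * gpS A B S T' (r q * 2 ^ m) +
      C2 * (2 * (1 / 2) ^ j0) * ∑ u ∈ S, ∑ v ∈ T', ‖A u v‖ ^ 2)
    have h3 := hSV.gap_le (ρ := r q * 2 ^ m) (mul_nonneg (hr0 q) (by positivity)) B
    have h4 : Gd B S T' (sY A S T') (sX A S T') (sS A S T') (r q * 2 ^ m) ≤
        gpS A B S T' (r q * 2 ^ m) / 2 := by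
      unfold NrWx259.Gd gpS
      linarith
    have h5 : 0 ≤ Gd B S T' (sY A S T') (sX A S T') (sS A S T') (r q * 2 ^ m) :=
      Finset.sum_nonneg fun k _ => mul_nonneg (le_max_right _ _)
        (dfc_nonneg (mul_nonneg (hr0 q) (by positivity)) hSV hBop k)
    have h6 : (r (q + 1) - r q) / r q ≤ R := by
      rw [div_le_iff₀ (hr q)]
      have := hRr q
      have := (hr q).le
      linarith
    have h7 : ∑ k ∈ T', dk (sS A S T') (r q * 2 ^ m) (r (q + 1) * 2 ^ m) k ^ 2 ≤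
        ∑ u ∈ S, ∑ v ∈ T', ‖A u v‖ ^ 2 := by
      rw [← hSV.hsA]
      refine Finset.sum_le_sum fun k _ => ?_
      have hm : r q * 2 ^ m ≤ r (q + 1) * 2 ^ m :=
        mul_le_mul_of_nonneg_right (hmono q) (by positivity)
      have a1 := dk_nonneg (s := sS A S T') hm k
      have a2 := dk_le_max (s := sS A S T') (ρ := r q * 2 ^ m) (ρ' := r (q + 1) * 2 ^ m) k
      have a3 : max (sS A S T' k - r q * 2 ^ m) 0 ≤ sS A S T' k := by
        refine max_le ?_ (hSV.nn k)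
        have : 0 ≤ r q * 2 ^ m := mul_nonneg (hr0 q) (by positivity)
        linarith
      exact pow_le_pow_left₀ a1 (a2.trans a3) 2
    have h8 : (2 : ℝ) ^ (K.1 - j0) / 2 ^ m ≤ 2 * (1 / 2) ^ j0 := by
      obtain ⟨q0, hq0, _⟩ := hne
      have hj : q0.1 + j0 = K.1 := (QQ_spec hV hq0).2.1
      rw [div_le_iff₀ (by positivity)]
      have e1 : K.1 - j0 + j0 = K.1 := by omega
      have e2 : (2 : ℝ) ^ K.1 ≤ 2 ^ (m + 1) := pow_le_pow_right₀ (by norm_num) hbig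
      have e3 : (2 : ℝ) ^ (K.1 - j0) = 2 ^ K.1 * (1 / 2) ^ j0 := by
        conv_rhs => rw [← e1, pow_add, mul_assoc, ← mul_pow]
        norm_num
      rw [e3]
      have e4 : (0 : ℝ) < (1 / 2) ^ j0 := by positivity
      calc (2 : ℝ) ^ K.1 * (1 / 2) ^ j0 ≤ 2 ^ (m + 1) * (1 / 2) ^ j0 :=
            mul_le_mul_of_nonneg_right e2 e4.le
        _ = _ := by rw [pow_succ]; ring
    have h9 : 0 ≤ ∑ k ∈ T', dk (sS A S T') (r q * 2 ^ m) (r (q + 1) * 2 ^ m) k ^ 2 :=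
      Finset.sum_nonneg fun _ _ => sq_nonneg _
    refine add_le_add ?_ ?_
    · calc C1 * ((r (q + 1) - r q) / r q) *
          Gd B S T' (sY A S T') (sX A S T') (sS A S T') (r q * 2 ^ m)
          ≤ C1 * R * (gpS A B S T' (r q * 2 ^ m) / 2) :=
            mul_le_mul (mul_le_mul_of_nonneg_left h6 hC1) h4 h5 (by positivity)
        _ = _ := by ring
    · exact mul_le_mul (mul_le_mul_of_nonneg_left h8 hC2) h7 h9 (by positivity)

/-- the per-cell input with 360's kernels -/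
theorem cellLt_zfX {ν R : ℝ} (hR : 1 ≤ R)
    (hB : ∀ l, Bnd (BdE i e (T l) I) (poE i e) (NmP (SE i e (T l) I) cf (okc (Ye i e) kc)) ν)
    (hr : ∀ q, 0 < r q) (hmono : ∀ q, r q ≤ r (q + 1)) (hRr : ∀ q, r (q + 1) ≤ R * r q)
    (hV : Full V K) (hk0 : 9 ≤ k0) (hkj : k0 ≤ j0) :
    ErNx255.CellLt i e T g I kc Kl r V K G (LayK V k0 j0 n0 K)
      (FrZx360.zfX i e kc j0 n0 Kl V K I T g r G (QQ V k0 j0 n0 K))
      (K1c 7 (1 / 2 ^ (k0 + 3)) * R / 2) (K2c 7 (1 / 2 ^ (k0 + 3)) * (2 * (1 / 2) ^ j0)) :=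
  cell_lt (K1c_nonneg 7 (by positivity)) (K2c_nonneg 7 _) hR (cellT 7 (by positivity)) hB hr hmono
    hRr hV (geoF hV hk0 hkj)

end

end Crest.Agent.R079.NrFx228
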