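import Crest.Agent.R079.DicLv_679
import Crest.Agent.R079.OLevSw_127

/-! R079 (helper276): **OP-ATOMS WITH `L¹` WEIGHT AND TWO SEPARATE CAPS** (notes 846 / 882 / 918 / 924 of
row 79).  `SD n Ht Hf m U V α` : bounded gauge `m` on one edge, sections with marginals `n α c`,
`Σ α ≤ n` (`L¹`!), `α ≤ Ht`, fibre heights `|U|², |V|² ≤ Hf α`.  Family `OpS γ x f` at price `t^γ`:
`Ht = t^(-x)`, `Hf = t^(-2f)`.

* `fam_opS`    : admissible family (sup `≤ t^(-γ)`, polynomial plain mass);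
* `supop_of_lv`: level `⟹` for every bounded gauge and every box position the normalised operator norm
                 of the frozen kernel is `≤ 128 s t^γ + 130 A t^f` for all values of the frozen variable
                 off a set of density `t^x`;
* `olev_of_lvS`: level `⟹ OLev κ k p X (128 s t^γ + 24 A t^f + 12 A t^x)`. -/

set_option autoImplicit false

namespace Crest.Agent.R079.OpS276

open Finset Crest.Agent.R079.Grid Crest.Agent.R079.Glue Crest.Agent.R079.Growth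
  Crest.Agent.R079.QRed Crest.Agent.R079.R244 Crest.Agent.R079.TFrz679 Crest.Agent.R079.Dic679
  Crest.Agent.R079.OpLev Crest.Agent.R079.DicOp679 Crest.Agent.R079.OLevSw

/-- four distinct slots -/
structure Dst4 (k j e e' : Fin 4) : Prop where
  jk : j ≠ k
  je : j ≠ e
  je' : j ≠ e'
  ke : k ≠ e
  ke' : k ≠ e'
  ee' : e ≠ e'

/-- data of an op-atom with `L¹` weight -/
structure SD (n : ℕ) (Ht Hf : ℝ) (m : ℤ → ℤ → ℂ) (U V : Fin n → Fin n → ℂ) (α : Fin n → ℝ) :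
    Prop where
  m1 : ∀ z z', ‖m z z'‖ ≤ 1
  α0 : ∀ c, 0 ≤ α c
  U2 : ∀ c, ∑ i, ‖U c i‖ ^ 2 ≤ n * α c
  V2 : ∀ c, ∑ i, ‖V c i‖ ^ 2 ≤ n * α c
  α1 : ∑ c, α c ≤ n
  αH : ∀ c, α c ≤ Ht
  UH : ∀ c i, ‖U c i‖ ^ 2 ≤ Hf * α c
  VH : ∀ c i, ‖V c i‖ ^ 2 ≤ Hf * α c

/-- unit op-atoms of side `n` (special vertex `j`, gauge on the edge `(e, e')`) -/
def IsOpS (k j e e' : Fin 4) (n : ℕ) (Ht Hf : ℝ) (φ : ℤ → ℂ) : Prop :=
  ∃ (w q u : ℤ) (m : ℤ → ℤ → ℂ) (U V : Fin n → Fin n → ℂ) (α : Fin n → ℝ),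
    SD n Ht Hf m U V α ∧ φ = opA k j e e' n w q u m U V

/-- **the family** -/
def OpS (γ x f : ℝ) (k : Fin 4) (t : ℝ) : Set Fn :=
  {φ | ∃ (j e e' : Fin 4) (n : ℕ), Dst4 k j e e' ∧ ∃ ψ : Fn,
    IsOpS k j e e' n (t ^ (-x)) (t ^ (-(2 * f))) ψ ∧
    φ = fun y => ((t ^ (-γ) / (n : ℝ) ^ 2 : ℝ) : ℂ) * ψ y}

theorem opA_eq_opT (k j e e' : Fin 4) (n : ℕ) (w q u : ℤ) (m : ℤ → ℤ → ℂ)
    (U V : Fin n → Fin n → ℂ) : opA k j e e' n w q u m U V = opT k j e e' n w q u m U V := rfl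

/-! ### sup norm -/

theorem sup_opA {k j e e' : Fin 4} (hd : Dst4 k j e e') {n : ℕ} {Ht Hf : ℝ} {m : ℤ → ℤ → ℂ}
    {U V : Fin n → Fin n → ℂ} {α : Fin n → ℝ} (h : SD n Ht Hf m U V α) (w q u y : ℤ) :
    ‖opA k j e e' n w q u m U V y‖ ≤ (n : ℝ) ^ 2 := by
  have hAe : sl e - sl k ≠ 0 := sub_ne_zero.2 fun hh => hd.ke (Qa246.sl_inj hh).symm
  have hAe' : sl e' - sl k ≠ 0 := sub_ne_zero.2 fun hh => hd.ke' (Qa246.sl_inj hh).symm
  rw [opA_eq_opT]
  unfold opT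
  have hc : ∀ c : Fin n, ‖∑ i : Fin n, ∑ i' : Fin n,
      if lfm k j e e' (w + ((c : ℕ) : ℤ)) (q + ((i : ℕ) : ℤ)) (u + ((i' : ℕ) : ℤ)) = y then
      m (q + ((i : ℕ) : ℤ)) (u + ((i' : ℕ) : ℤ)) * U c i * V c i' else 0‖ ≤ n * α c := by
    intro c
    have h1 := inj_sum (fun i i' : Fin n => lfm k j e e' (w + ((c : ℕ) : ℤ)) (q + ((i : ℕ) : ℤ))
      (u + ((i' : ℕ) : ℤ)) = y) (fun i a b ha hb => by
        have : (sl e' - sl k) * (u + ((a : ℕ) : ℤ)) = (sl e' - sl k) * (u + ((b : ℕ) : ℤ)) := by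
          unfold lfm at ha hb; linarith
        have := mul_left_cancel₀ hAe' this
        exact Fin.ext (by omega)) (fun a b i ha hb => by
        have : (sl e - sl k) * (q + ((a : ℕ) : ℤ)) = (sl e - sl k) * (q + ((b : ℕ) : ℤ)) := by
          unfold lfm at ha hb; linarith
        have := mul_left_cancel₀ hAe this
        exact Fin.ext (by omega)) (fun i => ‖U c i‖) (fun i' => ‖V c i'‖) (h.U2 c) (h.V2 c)
    refine le_trans ?_ h1
    refine (norm_sum_le _ _).trans (Finset.sum_le_sum fun i _ => ?_)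
    refine (norm_sum_le _ _).trans (Finset.sum_le_sum fun i' _ => ?_)
    split_ifs
    · rw [norm_mul, norm_mul]
      have := h.m1 (q + ((i : ℕ) : ℤ)) (u + ((i' : ℕ) : ℤ))
      calc ‖m (q + ((i : ℕ) : ℤ)) (u + ((i' : ℕ) : ℤ))‖ * ‖U c i‖ * ‖V c i'‖ ≤
          1 * ‖U c i‖ * ‖V c i'‖ := by gcongr
        _ = _ := by rw [one_mul]
    · simp
  calc ‖_‖ ≤ ∑ c : Fin n, (n : ℝ) * α c :=
        (norm_sum_le _ _).trans (Finset.sum_le_sum fun c _ => hc c)
    _ = n * ∑ c, α c := by rw [Finset.mul_sum]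
    _ ≤ n * n := mul_le_mul_of_nonneg_left h.α1 (Nat.cast_nonneg n)
    _ = (n : ℝ) ^ 2 := by ring

/-! ### mass -/

theorem SD.Ht0 {n : ℕ} (hn : 0 < n) {Ht Hf : ℝ} {m : ℤ → ℤ → ℂ} {U V : Fin n → Fin n → ℂ}
    {α : Fin n → ℝ} (h : SD n Ht Hf m U V α) : 0 ≤ Ht := (h.α0 ⟨0, hn⟩).trans (h.αH ⟨0, hn⟩)

theorem rep_opA {k j e e' : Fin 4} (hd : Dst4 k j e e') {n : ℕ} {Ht Hf : ℝ} {m : ℤ → ℤ → ℂ}
    {U V : Fin n → Fin n → ℂ} {α : Fin n → ℝ} (h : SD n Ht Hf m U V α) (w q u : ℤ) {H κ M : ℝ}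
    (hκ : 0 ≤ κ) (hH : 0 ≤ H) (hHf : 0 ≤ Hf) (hHH : Hf * Ht ≤ H ^ 2) (hM : 0 < M)
    (hMM : κ * ((n : ℝ) ^ 2 * H ^ 2) ≤ M) (p : Nd) :
    Rep k p (fun y => (κ : ℂ) * opA k j e e' n w q u m U V y) M := by
  have hU : ∀ c i, ‖U c i‖ ≤ H := fun c i => by
    refine abs_le_of_sq_le_sq' ?_ hH |>.2
    exact ((h.UH c i).trans (mul_le_mul_of_nonneg_left (h.αH c) hHf)).trans hHH
  have hV : ∀ c i, ‖V c i‖ ≤ H := fun c i => by
    refine abs_le_of_sq_le_sq' ?_ hH |>.2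
    exact ((h.VH c i).trans (mul_le_mul_of_nonneg_left (h.αH c) hHf)).trans hHH
  obtain ⟨i0, rfl⟩ := Fin.exists_succAbove_eq hd.jk
  obtain ⟨i1, rfl⟩ := Fin.exists_succAbove_eq (Ne.symm hd.ke)
  obtain ⟨i2, rfl⟩ := Fin.exists_succAbove_eq (Ne.symm hd.ke')
  have h01 : i0 ≠ i1 := fun hh => hd.je (by rw [hh])
  have h02 : i0 ≠ i2 := fun hh => hd.je' (by rw [hh])
  have h12 : i1 ≠ i2 := fun hh => hd.ee' (by rw [hh])
  have hcard : ∀ w : ℤ, (Finset.Ico w (w + (n : ℤ))).card = n := by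
    intro w; simp
  have := rep3 (k := k) i0 i1 i2 h01 h02 h12 (Finset.Ico w (w + (n : ℤ)))
    (Finset.Ico q (q + (n : ℤ))) (Finset.Ico u (u + (n : ℤ))) (hcard w) (hcard q) (hcard u)
    m (DicOp679.ext w q U) (DicOp679.ext w u V) hκ hH h.m1 (DicOp679.ext_le w q U hH hU)
    (DicOp679.ext_le w u V hH hV) hM hMM p
  have hfun : (fun y => (κ : ℂ) * opA k (k.succAbove i0) (k.succAbove i1) (k.succAbove i2) n w q u
      m U V y) = (fun y => (κ : ℂ) * ∑ zj ∈ Finset.Ico w (w + (n : ℤ)),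
        ∑ ze ∈ Finset.Ico q (q + (n : ℤ)), ∑ ze' ∈ Finset.Ico u (u + (n : ℤ)),
      if cf k i0 * zj + cf k i1 * ze + cf k i2 * ze' = y then
        m ze ze' * DicOp679.ext w q U zj ze * DicOp679.ext w u V zj ze' else 0) := by
    funext y
    congr 1
    rw [opA_eq_opT]
    unfold opT
    rw [DicOp679.sum_Ico_fin]
    refine Finset.sum_congr rfl fun c _ => ?_
    rw [DicOp679.sum_Ico_fin]
    refine Finset.sum_congr rfl fun i _ => ?_
    rw [DicOp679.sum_Ico_fin]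
    refine Finset.sum_congr rfl fun i' _ => ?_
    rw [DicOp679.ext_val, DicOp679.ext_val]
    rfl
  rw [hfun]
  exact this

/-- **the family is admissible** -/
theorem fam_opS {γ x f : ℝ} (hγ : γ ≤ 1) (hx : 0 ≤ x) (hf : 0 ≤ f) : Fam (OpS γ x f) := by
  have hg : ∀ t : ℝ, 0 < t → t ≤ 1 → t ^ (-γ) ≤ t⁻¹ := by
    intro t ht ht1
    rw [← Real.rpow_neg_one]
    exact Real.rpow_le_rpow_of_exponent_ge ht ht1 (by linarith)
  refine ⟨?_, ⟨1, 1 + (2 * f + x), zero_le_one, by linarith, ?_⟩⟩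
  · rintro k hk t ht ht1 φ ⟨j, e, e', n, hd, ψ, ⟨w, q, u, m, U, V, α, hD, rfl⟩, rfl⟩ y
    have ht0 : 0 ≤ t ^ (-γ) := (Real.rpow_pos_of_pos ht _).le
    show ‖((t ^ (-γ) / (n : ℝ) ^ 2 : ℝ) : ℂ) * opA k j e e' n w q u m U V y‖ ≤ t⁻¹
    rw [norm_mul, Complex.norm_real, Real.norm_of_nonneg (by positivity)]
    refine le_trans ?_ (hg t ht ht1)
    rcases Nat.eq_zero_or_pos n with hn | hn
    · subst hn; simpa using ht0
    · have hn' : (0 : ℝ) < n := by exact_mod_cast hn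
      calc t ^ (-γ) / (n : ℝ) ^ 2 * ‖opA k j e e' n w q u m U V y‖ ≤
          t ^ (-γ) / (n : ℝ) ^ 2 * (n : ℝ) ^ 2 :=
            mul_le_mul_of_nonneg_left (sup_opA hd hD w q u y) (by positivity)
        _ = t ^ (-γ) := by field_simp
  · rintro k hk t ht ht1 φ ⟨j, e, e', n, hd, ψ, ⟨w, q, u, m, U, V, α, hD, rfl⟩, rfl⟩ p
    have ht0 : 0 ≤ t ^ (-γ) := (Real.rpow_pos_of_pos ht _).le
    set H : ℝ := Real.sqrt (t ^ (-(2 * f)) * t ^ (-x)) with hH
    have hff : 0 ≤ t ^ (-(2 * f)) := (Real.rpow_pos_of_pos ht _).le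
    have hxx : 0 ≤ t ^ (-x) := (Real.rpow_pos_of_pos ht _).le
    have hH2 : H ^ 2 = t ^ (-(2 * f)) * t ^ (-x) := Real.sq_sqrt (mul_nonneg hff hxx)
    refine rep_opA hd hD w q u (H := H) (by positivity) (Real.sqrt_nonneg _) hff hH2.ge
      (by have := Real.rpow_pos_of_pos ht (-(1 + (2 * f + x))); linarith) ?_ p
    have e1 : t ^ (-γ) * H ^ 2 ≤ 1 * t ^ (-(1 + (2 * f + x))) := by
      have e2 : t ^ (-(1 + (2 * f + x))) = t⁻¹ * (t ^ (-(2 * f)) * t ^ (-x)) := by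
        rw [← Real.rpow_neg_one, ← Real.rpow_add ht, ← Real.rpow_add ht]
        congr 1
        ring
      rw [one_mul, e2, hH2]
      exact mul_le_mul_of_nonneg_right (hg t ht ht1) (by positivity)
    refine le_trans ?_ e1
    rcases Nat.eq_zero_or_pos n with hn | hn
    · subst hn
      have : 0 ≤ t ^ (-γ) * H ^ 2 := by positivity
      simpa using this
    · have hn' : (0 : ℝ) < n := by exact_mod_cast hn
      refine le_of_eq ?_
      field_simp

/-! ### level of the family -/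

/-- the bilinear form of the frozen kernel at `z_j = w + c` -/
noncomputable def opb (k j e e' : Fin 4) (p : Nd) (X : Fn) (n : ℕ) (w q u : ℤ) (m : ℤ → ℤ → ℂ)
    (c : Fin n) (U V : Fin n → ℂ) : ℂ :=
  ∑ i : Fin n, ∑ i' : Fin n,
    m (q + ((i : ℕ) : ℤ)) (u + ((i' : ℕ) : ℤ)) *
      res p X ((sl j - sl k) * (w + ((c : ℕ) : ℤ)) + (sl e - sl k) * (q + ((i : ℕ) : ℤ)) +
        (sl e' - sl k) * (u + ((i' : ℕ) : ℤ))) * U i * V i'

theorem osum_eq (k j e e' : Fin 4) (p : Nd) (X : Fn) (n : ℕ) (w q u : ℤ) (m : ℤ → ℤ → ℂ)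
    (U V : Fin n → Fin n → ℂ) : osum k j e e' p X n w q u m U V =
      ∑ c, opb k j e e' p X n w q u m c (U c) (V c) := rfl

/-- **level against the family** (dictionary-free): every member `φ` of `OpS γ x f k t` has
`|Σ_{iv p} X φ| ≤ s len p` -/
def LvS (γ x f : ℝ) (k : Fin 4) (t s : ℝ) (p : Nd) (X : Fn) : Prop :=
  ∀ φ ∈ OpS γ x f k t, ‖∑ y ∈ iv p, X y * φ y‖ ≤ s * len p

theorem lvS_of_lv {S : Fin 4 → ℝ → Set Fn} {γ x f : ℝ} {k : Fin 4} (hk : k ≠ 3) {t : ℝ}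
    (ht1 : t ≤ 1) {s : ℝ} {p : Nd} {X : Fn} (hS : OpS γ x f k t ⊆ S k t)
    (h : TRec.Lv (DS S) k t s p X) : LvS γ x f k t s p X := fun _ hφ =>
  lv_fam hk ht1 h (hS hφ)

theorem LvS.mono {γ x f : ℝ} {k : Fin 4} {t s s' : ℝ} {p : Nd} {X : Fn} (h : LvS γ x f k t s p X)
    (hs : s ≤ s') : LvS γ x f k t s' p X := fun φ hφ =>
  (h φ hφ).trans (mul_le_mul_of_nonneg_right hs (by unfold len; positivity))

/-- level against one atom -/
theorem osum_le {γ x f : ℝ} {k : Fin 4} {t : ℝ} (ht : 0 < t) {s : ℝ} (hs : 0 ≤ s) {p : Nd} {X : Fn}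
    (h : LvS γ x f k t s p X) {j e e' : Fin 4} (hd : Dst4 k j e e') {n : ℕ}
    (hn : (2 : ℝ) ^ p.1 ≤ n) (w q u : ℤ) {m : ℤ → ℤ → ℂ} {U V : Fin n → Fin n → ℂ} {α : Fin n → ℝ}
    (hD : SD n (t ^ (-x)) (t ^ (-(2 * f))) m U V α) :
    ‖osum k j e e' p X n w q u m U V‖ ≤ 128 * s * t ^ γ * (n : ℝ) ^ 3 := by
  have hnpos : (0 : ℝ) < n := lt_of_lt_of_le (by positivity) hn
  have hmem : (fun y => ((t ^ (-γ) / (n : ℝ) ^ 2 : ℝ) : ℂ) * opA k j e e' n w q u m U V y) ∈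
      OpS γ x f k t := ⟨j, e, e', n, hd, _, ⟨w, q, u, m, U, V, α, hD, rfl⟩, rfl⟩
  have h7 := h _ hmem
  have h8 : ∑ y ∈ iv p, X y * (((t ^ (-γ) / (n : ℝ) ^ 2 : ℝ) : ℂ) *
      opA k j e e' n w q u m U V y) = ((t ^ (-γ) / (n : ℝ) ^ 2 : ℝ) : ℂ) *
        osum k j e e' p X n w q u m U V := by
    have h9 := pair_opT k j e e' n w q u m U V p X
    unfold osum
    rw [← h9, Finset.mul_sum]
    exact Finset.sum_congr rfl fun y _ => by rw [opA_eq_opT]; ring
  have htγ : 0 < t ^ (-γ) := Real.rpow_pos_of_pos ht _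
  rw [h8, norm_mul, Complex.norm_real, Real.norm_of_nonneg (by positivity)] at h7
  have h10 : len p ≤ 128 * n := by
    unfold len; rw [pow_add]; nlinarith
  have h11 : t ^ (-γ) / (n : ℝ) ^ 2 * ‖osum k j e e' p X n w q u m U V‖ ≤ s * (128 * n) :=
    h7.trans (mul_le_mul_of_nonneg_left h10 hs)
  have h12 : t ^ (-γ) * t ^ γ = 1 := by
    rw [← Real.rpow_add ht]; simp
  have htγ' : 0 < t ^ γ := Real.rpow_pos_of_pos ht _
  calc ‖osum k j e e' p X n w q u m U V‖ = (t ^ γ * (n : ℝ) ^ 2) *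
        (t ^ (-γ) / (n : ℝ) ^ 2 * ‖osum k j e e' p X n w q u m U V‖) := by
        have : (t ^ γ * (n : ℝ) ^ 2) * (t ^ (-γ) / (n : ℝ) ^ 2 *
            ‖osum k j e e' p X n w q u m U V‖) = (t ^ (-γ) * t ^ γ) *
            ‖osum k j e e' p X n w q u m U V‖ * ((n : ℝ) ^ 2 / (n : ℝ) ^ 2) := by ring
        rw [this, h12, div_self (by positivity)]; ring
    _ ≤ (t ^ γ * (n : ℝ) ^ 2) * (s * (128 * n)) :=
        mul_le_mul_of_nonneg_left h11 (by positivity)
    _ = _ := by ring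

/-- one row: `∑ |res X| x ≤ 12 A n b` if `∑ x² ≤ n b²` -/
theorem row2 {n : ℕ} {p : Nd} {X : Fn} {A : ℝ} (hA : 0 ≤ A) (hX : av p X ≤ A)
    (hn : (2 : ℝ) ^ p.1 ≤ n) {g : Fin n → ℤ} (hg : Function.Injective g) {x : Fin n → ℝ}
    {b : ℝ} (hb : 0 ≤ b) (hx : ∑ i, x i ^ 2 ≤ n * b ^ 2) :
    ∑ i, ‖res p X (g i)‖ * x i ≤ 12 * A * n * b := by
  have h1 : (∑ i, ‖res p X (g i)‖ * x i) ^ 2 ≤ (∑ i, ‖res p X (g i)‖ ^ 2) * ∑ i, x i ^ 2 :=
    Finset.sum_mul_sq_le_sq_mul_sq _ _ _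
  have h2 : (2 : ℝ) ^ (p.1 + 7) ≤ 128 * n := by
    rw [pow_add]; nlinarith
  have h3 : ∑ i, ‖res p X (g i)‖ ^ 2 ≤ A ^ 2 * (128 * n) :=
    (res_inj hA hX hg).trans (mul_le_mul_of_nonneg_left h2 (sq_nonneg _))
  have hn0 : (0 : ℝ) ≤ n := Nat.cast_nonneg n
  have h4 : (∑ i, ‖res p X (g i)‖ * x i) ^ 2 ≤ (12 * A * n * b) ^ 2 := by
    calc (∑ i, ‖res p X (g i)‖ * x i) ^ 2 ≤ (A ^ 2 * (128 * n)) * (n * b ^ 2) := by
          refine h1.trans (mul_le_mul h3 hx (Finset.sum_nonneg fun _ _ => sq_nonneg _)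
            (by positivity))
      _ = 128 * (A * n * b) ^ 2 := by ring
      _ ≤ 144 * (A * n * b) ^ 2 := by nlinarith [sq_nonneg (A * n * b)]
      _ = _ := by ring
  exact (abs_le_of_sq_le_sq' h4 (by positivity)).2

/-- one frozen kernel against `U` in `ℓ¹` and `V` in `ℓ²` -/
theorem opb_l1 {k j e e' : Fin 4} (hke' : k ≠ e') {p : Nd} {X : Fn} {A : ℝ} (hA : 0 ≤ A)
    (hX : av p X ≤ A) {n : ℕ} (hn : (2 : ℝ) ^ p.1 ≤ n) (w q u : ℤ) {m : ℤ → ℤ → ℂ}
    (hm : ∀ z z', ‖m z z'‖ ≤ 1) (c : Fin n) {U V : Fin n → ℂ} {a b : ℝ} (hb : 0 ≤ b)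
    (hU : ∑ i, ‖U i‖ ≤ a) (hV : ∑ i, ‖V i‖ ^ 2 ≤ n * b ^ 2) :
    ‖opb k j e e' p X n w q u m c U V‖ ≤ a * (12 * A * n * b) := by
  have hA' : sl e' - sl k ≠ 0 := sub_ne_zero.2 fun hh => hke' (Qa246.sl_inj hh).symm
  have hn0 : (0 : ℝ) ≤ n := Nat.cast_nonneg n
  have hc : ∀ i : Fin n, ∑ i' : Fin n, ‖m (q + ((i : ℕ) : ℤ)) (u + ((i' : ℕ) : ℤ)) *
      res p X ((sl j - sl k) * (w + ((c : ℕ) : ℤ)) + (sl e - sl k) * (q + ((i : ℕ) : ℤ)) +
        (sl e' - sl k) * (u + ((i' : ℕ) : ℤ))) * U i * V i'‖ ≤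
      ‖U i‖ * (12 * A * n * b) := by
    intro i
    have h1 := row2 hA hX hn (g := fun i' : Fin n => (sl j - sl k) * (w + ((c : ℕ) : ℤ)) +
      (sl e - sl k) * (q + ((i : ℕ) : ℤ)) + (sl e' - sl k) * (u + ((i' : ℕ) : ℤ)))
      (fun a b hab => by
        have hab' : (sl e' - sl k) * (u + ((a : ℕ) : ℤ)) = (sl e' - sl k) * (u + ((b : ℕ) : ℤ)) := by
          have : (sl j - sl k) * (w + ((c : ℕ) : ℤ)) + (sl e - sl k) * (q + ((i : ℕ) : ℤ)) +
            (sl e' - sl k) * (u + ((a : ℕ) : ℤ)) = (sl j - sl k) * (w + ((c : ℕ) : ℤ)) +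
            (sl e - sl k) * (q + ((i : ℕ) : ℤ)) + (sl e' - sl k) * (u + ((b : ℕ) : ℤ)) := hab
          linarith
        have := mul_left_cancel₀ hA' hab'
        exact Fin.ext (by omega)) (x := fun i' => ‖V i'‖) hb hV
    calc _ ≤ ∑ i' : Fin n, ‖U i‖ * (‖res p X ((sl j - sl k) * (w + ((c : ℕ) : ℤ)) +
          (sl e - sl k) * (q + ((i : ℕ) : ℤ)) + (sl e' - sl k) * (u + ((i' : ℕ) : ℤ)))‖ *
            ‖V i'‖) := by
          refine Finset.sum_le_sum fun i' _ => ?_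
          rw [norm_mul, norm_mul, norm_mul]
          have := hm (q + ((i : ℕ) : ℤ)) (u + ((i' : ℕ) : ℤ))
          calc _ ≤ 1 * ‖res p X ((sl j - sl k) * (w + ((c : ℕ) : ℤ)) +
              (sl e - sl k) * (q + ((i : ℕ) : ℤ)) + (sl e' - sl k) * (u + ((i' : ℕ) : ℤ)))‖ *
                ‖U i‖ * ‖V i'‖ := by gcongr
            _ = _ := by ring
      _ = ‖U i‖ * ∑ i' : Fin n, (‖res p X ((sl j - sl k) * (w + ((c : ℕ) : ℤ)) +
          (sl e - sl k) * (q + ((i : ℕ) : ℤ)) + (sl e' - sl k) * (u + ((i' : ℕ) : ℤ)))‖ *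
            ‖V i'‖) := by rw [Finset.mul_sum]
      _ ≤ _ := mul_le_mul_of_nonneg_left h1 (norm_nonneg _)
  unfold opb
  calc _ ≤ ∑ i : Fin n, ‖U i‖ * (12 * A * n * b) := by
        refine (norm_sum_le _ _).trans (Finset.sum_le_sum fun i _ => ?_)
        exact (norm_sum_le _ _).trans (hc i)
    _ = (∑ i : Fin n, ‖U i‖) * (12 * A * n * b) := by rw [Finset.sum_mul]
    _ ≤ a * (12 * A * n * b) := mul_le_mul_of_nonneg_right hU (by positivity)

theorem opb_swap (k j e e' : Fin 4) (p : Nd) (X : Fn) (n : ℕ) (w q u : ℤ) (m : ℤ → ℤ → ℂ)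
    (c : Fin n) (U V : Fin n → ℂ) : opb k j e e' p X n w q u m c U V =
      opb k j e' e p X n w u q (fun z z' => m z' z) c V U := by
  unfold opb
  rw [Finset.sum_comm]
  refine Finset.sum_congr rfl fun i' _ => Finset.sum_congr rfl fun i _ => ?_
  have : (sl j - sl k) * (w + ((c : ℕ) : ℤ)) + (sl e - sl k) * (q + ((i : ℕ) : ℤ)) +
      (sl e' - sl k) * (u + ((i' : ℕ) : ℤ)) = (sl j - sl k) * (w + ((c : ℕ) : ℤ)) +
      (sl e' - sl k) * (u + ((i' : ℕ) : ℤ)) + (sl e - sl k) * (q + ((i : ℕ) : ℤ)) := by ring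
  rw [this]
  ring

/-- truncation of a vector -/
noncomputable def cut (H : ℝ) {n : ℕ} (U : Fin n → ℂ) (i : Fin n) : ℂ :=
  if ‖U i‖ ≤ H then U i else 0

theorem cut_le {H : ℝ} {n : ℕ} (U : Fin n → ℂ) (i : Fin n) : ‖cut H U i‖ ≤ ‖U i‖ := by
  unfold cut; split_ifs <;> simp

theorem cut_le' {H : ℝ} (hH : 0 ≤ H) {n : ℕ} (U : Fin n → ℂ) (i : Fin n) : ‖cut H U i‖ ≤ H := by
  unfold cut
  split_ifs with hh
  · exact hh
  · simpa using hH

theorem cut_sq {H : ℝ} {n : ℕ} {U : Fin n → ℂ} {a : ℝ} (h : ∑ i, ‖U i‖ ^ 2 ≤ a) :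
    ∑ i, ‖cut H U i‖ ^ 2 ≤ a :=
  (Finset.sum_le_sum fun i _ => pow_le_pow_left₀ (norm_nonneg _) (cut_le U i) 2).trans h

theorem cut_l1 {H : ℝ} (hH : 0 < H) {n : ℕ} {U : Fin n → ℂ} {a : ℝ} (h : ∑ i, ‖U i‖ ^ 2 ≤ a) :
    ∑ i, ‖U i - cut H U i‖ ≤ H⁻¹ * a := tall_le hH h

/-- removal of the tall parts of the two sections of one frozen kernel (`b` = common size) -/
theorem opb_cut {k j e e' : Fin 4} (hd : Dst4 k j e e') {p : Nd} {X : Fn} {A : ℝ} (hA : 0 ≤ A)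
    (hX : av p X ≤ A) {n : ℕ} (hn : (2 : ℝ) ^ p.1 ≤ n) (w q u : ℤ) {m : ℤ → ℤ → ℂ}
    (hm : ∀ z z', ‖m z z'‖ ≤ 1) (c : Fin n) {U V : Fin n → ℂ} {b H : ℝ} (hb : 0 < b) (hH : 0 < H)
    (hU : ∑ i, ‖U i‖ ^ 2 ≤ n * b ^ 2) (hV : ∑ i, ‖V i‖ ^ 2 ≤ n * b ^ 2) :
    ‖opb k j e e' p X n w q u m c U V -
      opb k j e e' p X n w q u m c (cut (H * b) U) (cut (H * b) V)‖ ≤
      24 * A * H⁻¹ * b ^ 2 * (n : ℝ) ^ 2 := by
  have hHb : 0 < H * b := mul_pos hH hb
  have hsw : opb k j e' e p X n w u q (fun z z' => m z' z) c (fun i => V i - cut (H * b) V i)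
        (cut (H * b) U) = opb k j e e' p X n w q u m c (cut (H * b) U)
          (fun i => V i - cut (H * b) V i) :=
    (opb_swap k j e e' p X n w q u m c (cut (H * b) U) (fun i => V i - cut (H * b) V i)).symm
  have hdec : opb k j e e' p X n w q u m c U V -
      opb k j e e' p X n w q u m c (cut (H * b) U) (cut (H * b) V) =
      opb k j e' e p X n w u q (fun z z' => m z' z) c (fun i => V i - cut (H * b) V i)
        (cut (H * b) U) +
      opb k j e e' p X n w q u m c (fun i => U i - cut (H * b) U i) V := by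
    rw [hsw]
    unfold opb
    simp only [← Finset.sum_add_distrib, ← Finset.sum_sub_distrib]
    refine Finset.sum_congr rfl fun i _ => Finset.sum_congr rfl fun i' _ => by ring
  have h1 := opb_l1 (j := j) (e := e') hd.ke hA hX hn w u q (m := fun z z' => m z' z)
    (fun z z' => hm z' z) c (U := fun i => V i - cut (H * b) V i) (V := cut (H * b) U)
    hb.le (cut_l1 hHb hV) (cut_sq hU)
  have h2 := opb_l1 (j := j) (e := e) hd.ke' hA hX hn w q u hm c
    (U := fun i => U i - cut (H * b) U i)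
    (V := V) hb.le (cut_l1 hHb hU) hV
  rw [hdec]
  refine (norm_add_le _ _).trans ((add_le_add h1 h2).trans (le_of_eq ?_))
  field_simp
  ring

open Classical in
/-- **SUP OP-LEVEL**: off a set of density `t^x` of values of the frozen variable the normalised
operator norm of the frozen kernel is `≤ 128 s t^γ + 24 A t^f`. -/
theorem supop_of_lv {γ x f : ℝ} {k : Fin 4} {t : ℝ}
    (ht : 0 < t) {s A : ℝ} (hs : 0 ≤ s) (hA : 0 ≤ A) {p : Nd} {X : Fn}
    (h : LvS γ x f k t s p X) (hX : av p X ≤ A)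
    {j e e' : Fin 4} (hd : Dst4 k j e e') {n : ℕ} (hn : (2 : ℝ) ^ p.1 ≤ n) (w q u : ℤ)
    {m : ℤ → ℤ → ℂ} (hm : ∀ z z', ‖m z z'‖ ≤ 1) :
    (((Finset.univ.filter fun c : Fin n => ∃ U V : Fin n → ℂ, ∑ i, ‖U i‖ ^ 2 ≤ n ∧
      ∑ i, ‖V i‖ ^ 2 ≤ n ∧ (128 * s * t ^ γ + 24 * A * t ^ f) * (n : ℝ) ^ 2 <
        ‖opb k j e e' p X n w q u m c U V‖).card : ℕ) : ℝ) ≤ t ^ x * n := by
  set lam : ℝ := 128 * s * t ^ γ + 24 * A * t ^ f with hlam
  set Z := Finset.univ.filter fun c : Fin n => ∃ U V : Fin n → ℂ, ∑ i, ‖U i‖ ^ 2 ≤ n ∧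
      ∑ i, ‖V i‖ ^ 2 ≤ n ∧ lam * (n : ℝ) ^ 2 < ‖opb k j e e' p X n w q u m c U V‖ with hZ
  by_contra hcon
  push Not at hcon
  have hnpos : (0 : ℝ) < n := lt_of_lt_of_le (by positivity) hn
  have htx : 0 < t ^ x := Real.rpow_pos_of_pos ht _
  have htf : 0 < t ^ (-f) := Real.rpow_pos_of_pos ht _
  have hZ0 : (0 : ℝ) < (Z.card : ℝ) := lt_of_le_of_lt (by positivity) hcon
  have hsel : ∀ c : Fin n, ∃ UV : (Fin n → ℂ) × (Fin n → ℂ), c ∈ Z → (∑ i, ‖UV.1 i‖ ^ 2 ≤ n ∧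
      ∑ i, ‖UV.2 i‖ ^ 2 ≤ n ∧ lam * (n : ℝ) ^ 2 < ‖opb k j e e' p X n w q u m c UV.1 UV.2‖) := by
    intro c
    by_cases hc : c ∈ Z
    · obtain ⟨U, V, h1, h2, h3⟩ := (Finset.mem_filter.1 hc).2
      exact ⟨(U, V), fun _ => ⟨h1, h2, h3⟩⟩
    · exact ⟨(0, 0), fun h => absurd h hc⟩
  choose UV hUV using hsel
  set H : ℝ := t ^ (-f) with hH
  -- the truncated vectors and the phases
  set U1 : Fin n → Fin n → ℂ := fun c => cut (H * 1) (UV c).1 with hU1
  set V1 : Fin n → Fin n → ℂ := fun c => cut (H * 1) (UV c).2 with hV1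
  set val : Fin n → ℂ := fun c => opb k j e e' p X n w q u m c (U1 c) (V1 c) with hval
  have hval1 : ∀ c ∈ Z, 128 * s * t ^ γ * (n : ℝ) ^ 2 < ‖val c‖ := by
    intro c hc
    obtain ⟨h1, h2, h3⟩ := hUV c hc
    have h4 := opb_cut hd hA hX hn w q u hm c (U := (UV c).1) (V := (UV c).2) (b := 1) (H := H)
      one_pos htf (by simpa using h1) (by simpa using h2)
    have h5 : ‖opb k j e e' p X n w q u m c (UV c).1 (UV c).2‖ ≤ ‖val c‖ +
        24 * A * H⁻¹ * 1 ^ 2 * (n : ℝ) ^ 2 := by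
      have := norm_le_norm_add_norm_sub' (opb k j e e' p X n w q u m c (UV c).1 (UV c).2) (val c)
      linarith
    have h6 : H⁻¹ = t ^ f := by rw [hH, Real.rpow_neg ht.le, inv_inv]
    rw [h6] at h5
    rw [hlam] at h3
    nlinarith
  have hph : ∀ c, ∃ z : ℂ, ‖z‖ = 1 ∧ z * val c = (‖val c‖ : ℂ) := by
    intro c
    by_cases h0 : val c = 0
    · exact ⟨1, by simp, by simp [h0]⟩
    · refine ⟨(starRingEnd ℂ) (val c) / (‖val c‖ : ℂ), ?_, ?_⟩
      · rw [norm_div, RCLike.norm_conj, Complex.norm_real, norm_norm]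
        exact div_self (norm_ne_zero_iff.2 h0)
      · have h1 : (‖val c‖ : ℂ) ≠ 0 := by
          exact_mod_cast norm_ne_zero_iff.2 h0
        rw [div_mul_eq_mul_div, div_eq_iff h1, mul_comm, Complex.mul_conj, Complex.normSq_eq_norm_sq]
        push_cast; ring
  choose ph hph1 hph2 using hph
  set β : ℝ := (n : ℝ) / Z.card with hβ
  have hβ0 : 0 < β := div_pos hnpos hZ0
  set α : Fin n → ℝ := fun c => if c ∈ Z then β else 0 with hα
  set U2 : Fin n → Fin n → ℂ := fun c i => if c ∈ Z then ((Real.sqrt β : ℝ) : ℂ) * ph c * U1 c i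
    else 0 with hU2
  set V2 : Fin n → Fin n → ℂ := fun c i => if c ∈ Z then ((Real.sqrt β : ℝ) : ℂ) * V1 c i
    else 0 with hV2
  have hsq : Real.sqrt β ^ 2 = β := Real.sq_sqrt hβ0.le
  have hcut2 : ∀ a : ℝ, (t ^ (-f) * 1) ^ 2 = t ^ (-(2 * f)) := by
    intro _
    rw [mul_one, ← Real.rpow_natCast, ← Real.rpow_mul ht.le]
    congr 1; push_cast; ring
  have hn1 : ∀ c i, ‖U2 c i‖ ^ 2 = if c ∈ Z then β * ‖U1 c i‖ ^ 2 else 0 := by
    intro c i
    simp only [hU2]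
    split_ifs with hc
    · rw [norm_mul, norm_mul, hph1, mul_one, Complex.norm_real, Real.norm_eq_abs, mul_pow, sq_abs,
        hsq]
    · simp
  have hn2 : ∀ c i, ‖V2 c i‖ ^ 2 = if c ∈ Z then β * ‖V1 c i‖ ^ 2 else 0 := by
    intro c i
    simp only [hV2]
    split_ifs with hc
    · rw [norm_mul, Complex.norm_real, Real.norm_eq_abs, mul_pow, sq_abs, hsq]
    · simp
  have hD : SD n (t ^ (-x)) (t ^ (-(2 * f))) m U2 V2 α := by
    refine ⟨hm, ?_, ?_, ?_, ?_, ?_, ?_, ?_⟩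
    · intro c; simp only [hα]; split_ifs
      · exact hβ0.le
      · exact le_rfl
    · intro c
      simp only [hn1, hα]
      split_ifs with hc
      · rw [← Finset.mul_sum]
        have := cut_sq (H := H * 1) (hUV c hc).1
        nlinarith
      · simp
    · intro c
      simp only [hn2, hα]
      split_ifs with hc
      · rw [← Finset.mul_sum]
        have := cut_sq (H := H * 1) (hUV c hc).2.1
        nlinarith
      · simp
    · simp only [hα]
      rw [Finset.sum_ite, Finset.sum_const_zero, add_zero, Finset.sum_const, nsmul_eq_mul]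
      have : (Finset.univ.filter fun c => c ∈ Z) = Z := by ext c; simp
      rw [this, hβ]
      refine le_of_eq ?_
      field_simp
    · intro c
      have h1 : β ≤ t ^ (-x) := by
        rw [hβ, Real.rpow_neg ht.le, div_le_iff₀ hZ0, inv_mul_eq_div, le_div_iff₀ htx]
        linarith
      simp only [hα]; split_ifs
      · exact h1
      · exact (Real.rpow_pos_of_pos ht _).le
    · intro c i
      simp only [hn1, hα]
      split_ifs with hc
      · have h1 := cut_le' (H := H * 1) (by positivity) (UV c).1 i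
        have h2 : ‖U1 c i‖ ^ 2 ≤ (H * 1) ^ 2 := pow_le_pow_left₀ (norm_nonneg _) h1 2
        rw [hcut2 0] at h2
        nlinarith
      · simp
    · intro c i
      simp only [hn2, hα]
      split_ifs with hc
      · have h1 := cut_le' (H := H * 1) (by positivity) (UV c).2 i
        have h2 : ‖V1 c i‖ ^ 2 ≤ (H * 1) ^ 2 := pow_le_pow_left₀ (norm_nonneg _) h1 2
        rw [hcut2 0] at h2
        nlinarith
      · simp
  have hub := osum_le ht hs h hd hn w q u hD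
  -- the value of the sum
  have hv : osum k j e e' p X n w q u m U2 V2 = ((∑ c ∈ Z, β * ‖val c‖ : ℝ) : ℂ) := by
    rw [osum_eq]
    have h1 : ∀ c, opb k j e e' p X n w q u m c (U2 c) (V2 c) =
        if c ∈ Z then ((β * ‖val c‖ : ℝ) : ℂ) else 0 := by
      intro c
      by_cases hc : c ∈ Z
      · rw [if_pos hc]
        have h2 : opb k j e e' p X n w q u m c (U2 c) (V2 c) =
            (((Real.sqrt β ^ 2 : ℝ) : ℂ) * ph c) * val c := by
          simp only [hval, hU2, hV2, if_pos hc]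
          unfold opb
          rw [Finset.mul_sum]
          refine Finset.sum_congr rfl fun i _ => ?_
          rw [Finset.mul_sum]
          refine Finset.sum_congr rfl fun i' _ => ?_
          push_cast; ring
        rw [h2, hsq, mul_assoc, hph2]
        push_cast; ring
      · rw [if_neg hc]
        simp only [hU2, if_neg hc]
        unfold opb
        simp
    rw [Finset.sum_congr rfl fun c _ => h1 c, Finset.sum_ite_mem, Finset.univ_inter]
    push_cast; rfl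
  rw [hv, Complex.norm_real, Real.norm_of_nonneg
    (Finset.sum_nonneg fun c _ => by positivity)] at hub
  have hlow : β * (128 * s * t ^ γ * (n : ℝ) ^ 2) * Z.card < ∑ c ∈ Z, β * ‖val c‖ := by
    have hne : Z.Nonempty := by
      rw [← Finset.card_pos]; exact_mod_cast hZ0
    have := Finset.sum_lt_sum_of_nonempty hne (f := fun _ => β * (128 * s * t ^ γ * (n : ℝ) ^ 2))
      (g := fun c => β * ‖val c‖) fun c hc => mul_lt_mul_of_pos_left (hval1 c hc) hβ0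
    rw [Finset.sum_const, nsmul_eq_mul] at this
    linarith
  have hfin : β * (128 * s * t ^ γ * (n : ℝ) ^ 2) * Z.card = 128 * s * t ^ γ * (n : ℝ) ^ 3 := by
    rw [hβ]; field_simp
  linarith

/-- Hilbert-Schmidt bound of one frozen kernel -/
theorem opb_hs {k j e e' : Fin 4} (hd : Dst4 k j e e') {p : Nd} {X : Fn} {A : ℝ} (hA : 0 ≤ A)
    (hX : av p X ≤ A) {n : ℕ} (hn : (2 : ℝ) ^ p.1 ≤ n) (w q u : ℤ) {m : ℤ → ℤ → ℂ}
    (hm : ∀ z z', ‖m z z'‖ ≤ 1) (c : Fin n) {U V : Fin n → ℂ} {b : ℝ} (hb : 0 ≤ b)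
    (hU : ∑ i, ‖U i‖ ^ 2 ≤ n * b ^ 2) (hV : ∑ i, ‖V i‖ ^ 2 ≤ n * b ^ 2) :
    ‖opb k j e e' p X n w q u m c U V‖ ≤ 12 * A * b ^ 2 * (n : ℝ) ^ 2 := by
  have hn0 : (0 : ℝ) ≤ n := Nat.cast_nonneg n
  have h1 : ∑ i, ‖U i‖ ≤ n * b := by
    have h2 : (∑ i, ‖U i‖) ^ 2 ≤ (n : ℝ) * ∑ i, ‖U i‖ ^ 2 := by
      have := sq_sum_le_card_mul_sum_sq (s := (Finset.univ : Finset (Fin n))) (f := fun i => ‖U i‖)
      simpa using this
    have h3 : (∑ i, ‖U i‖) ^ 2 ≤ (n * b) ^ 2 := by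
      refine h2.trans ((mul_le_mul_of_nonneg_left hU hn0).trans (le_of_eq ?_)); ring
    exact (abs_le_of_sq_le_sq' h3 (by positivity)).2
  have := opb_l1 (j := j) (e := e) hd.ke' hA hX hn w q u hm c hb h1 hV
  refine this.trans (le_of_eq ?_)
  ring

/-- **LEVEL ⟹ OP-LEVEL** (the `ℓ²` class of 977 is dominated by the `ℓ¹` class) -/
theorem olev_of_lvS {γ x f : ℝ} {κ : ℕ} {k : Fin 4} {t : ℝ}
    (ht : 0 < t) {s A : ℝ} (hs : 0 ≤ s) (hA : 0 ≤ A) {p : Nd} {X : Fn}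
    (h : LvS γ x f k t s p X) (hX : av p X ≤ A) :
    OLev κ k p X (128 * s * t ^ γ + 24 * A * t ^ f + 12 * A * t ^ x) := by
  intro j e e' h1 h2 h3 h4 h5 h6 r hr n hn w q u m hm U V α hα hU hV hα2
  have hd : Dst4 k j e e' := ⟨h1, h2, h3, h4, h5, h6⟩
  have hnn : (2 : ℝ) ^ p.1 ≤ n := by
    rw [hn]; push_cast
    exact pow_le_pow_right₀ (by norm_num) (by omega)
  have hnpos : (0 : ℝ) < n := by
    rw [hn]; positivity
  have htx : 0 < t ^ x := Real.rpow_pos_of_pos ht _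
  have htf : 0 < t ^ (-f) := Real.rpow_pos_of_pos ht _
  have htfi : (t ^ (-f))⁻¹ = t ^ f := by rw [Real.rpow_neg ht.le, inv_inv]
  set b : Fin n → ℝ := fun c => Real.sqrt (α c) with hb
  have hb2 : ∀ c, b c ^ 2 = α c := fun c => Real.sq_sqrt (hα c)
  have hU' : ∀ c, ∑ i, ‖U c i‖ ^ 2 ≤ n * b c ^ 2 := fun c => by rw [hb2]; exact hU c
  have hV' : ∀ c, ∑ i, ‖V c i‖ ^ 2 ≤ n * b c ^ 2 := fun c => by rw [hb2]; exact hV c
  -- the truncated data
  set α1 : Fin n → ℝ := fun c => if α c ≤ t ^ (-x) then α c else 0 with hα1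
  set U1 : Fin n → Fin n → ℂ := fun c => if α c ≤ t ^ (-x) then cut (t ^ (-f) * b c) (U c) else 0
    with hU1
  set V1 : Fin n → Fin n → ℂ := fun c => if α c ≤ t ^ (-x) then cut (t ^ (-f) * b c) (V c) else 0
    with hV1
  have hsum1 : ∑ c, α c ≤ n := sum_α_le hα2
  have hcutH : ∀ c, (t ^ (-f) * b c) ^ 2 = t ^ (-(2 * f)) * α c := by
    intro c
    rw [mul_pow, hb2, ← Real.rpow_natCast (t ^ (-f)), ← Real.rpow_mul ht.le]
    congr 2; push_cast; ring
  have hb0 : ∀ c, 0 ≤ b c := fun c => Real.sqrt_nonneg _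
  have hD : SD n (t ^ (-x)) (t ^ (-(2 * f))) m U1 V1 α1 := by
    refine ⟨hm, ?_, ?_, ?_, ?_, ?_, ?_, ?_⟩
    · intro c; simp only [hα1]; split_ifs
      · exact hα c
      · exact le_rfl
    · intro c
      simp only [hU1, hα1]
      split_ifs
      · exact cut_sq (hU c)
      · simp
    · intro c
      simp only [hV1, hα1]
      split_ifs
      · exact cut_sq (hV c)
      · simp
    · refine (Finset.sum_le_sum fun c _ => ?_).trans hsum1
      simp only [hα1]; split_ifs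
      · exact le_rfl
      · exact hα c
    · intro c
      simp only [hα1]; split_ifs with hc
      · exact hc
      · exact (Real.rpow_pos_of_pos ht _).le
    · intro c i
      simp only [hU1, hα1]
      split_ifs with hc
      · rw [← hcutH]
        exact pow_le_pow_left₀ (norm_nonneg _) (cut_le' (mul_nonneg htf.le (hb0 c)) _ i) 2
      · simp
    · intro c i
      simp only [hV1, hα1]
      split_ifs with hc
      · rw [← hcutH]
        exact pow_le_pow_left₀ (norm_nonneg _) (cut_le' (mul_nonneg htf.le (hb0 c)) _ i) 2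
      · simp
  have hmain := osum_le ht hs h hd hnn w q u hD
  -- the error at one value
  have herr : ∀ c, ‖opb k j e e' p X n w q u m c (U c) (V c) -
      opb k j e e' p X n w q u m c (U1 c) (V1 c)‖ ≤
      (24 * A * t ^ f * α c + 12 * A * t ^ x * α c ^ 2) * (n : ℝ) ^ 2 := by
    intro c
    rcases (hb0 c).eq_or_lt with h0 | h0
    · -- zero section
      have hz : α c = 0 := by rw [← hb2, ← h0]; ring
      have hu0 : ∀ i, U c i = 0 := by
        intro i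
        have h9 : ∑ i, ‖U c i‖ ^ 2 ≤ 0 := by have := hU c; rwa [hz, mul_zero] at this
        have h10 := (Finset.sum_eq_zero_iff_of_nonneg fun i _ => sq_nonneg ‖U c i‖).1
          (le_antisymm h9 (Finset.sum_nonneg fun i _ => sq_nonneg _)) i (Finset.mem_univ _)
        exact norm_eq_zero.1 (by simpa using h10)
      have e1 : opb k j e e' p X n w q u m c (U c) (V c) = 0 := by
        unfold opb
        refine Finset.sum_eq_zero fun i _ => Finset.sum_eq_zero fun i' _ => ?_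
        rw [hu0]; ring
      have e2 : opb k j e e' p X n w q u m c (U1 c) (V1 c) = 0 := by
        unfold opb
        refine Finset.sum_eq_zero fun i _ => Finset.sum_eq_zero fun i' _ => ?_
        have : U1 c i = 0 := by
          simp only [hU1]
          split_ifs
          · unfold cut
            split_ifs
            · exact hu0 i
            · rfl
          · rfl
        rw [this]; ring
      rw [e1, e2, sub_zero, norm_zero, hz]
      simp
    · by_cases hc : α c ≤ t ^ (-x)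
      · have h9 := opb_cut hd hA hX hnn w q u hm c (U := U c) (V := V c) (b := b c)
          (H := t ^ (-f)) h0 htf (hU' c) (hV' c)
        rw [htfi, hb2] at h9
        have e1 : U1 c = cut (t ^ (-f) * b c) (U c) := by simp only [hU1, if_pos hc]
        have e2 : V1 c = cut (t ^ (-f) * b c) (V c) := by simp only [hV1, if_pos hc]
        rw [e1, e2]
        refine h9.trans ?_
        have : 0 ≤ 12 * A * t ^ x * α c ^ 2 * (n : ℝ) ^ 2 := by positivity
        nlinarith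
      · have e1 : U1 c = 0 := by simp only [hU1, if_neg hc]
        have e2 : opb k j e e' p X n w q u m c (U1 c) (V1 c) = 0 := by
          rw [e1]; unfold opb; simp
        rw [e2, sub_zero]
        have h9 := opb_hs hd hA hX hnn w q u hm c (hb0 c) (hU' c) (hV' c)
        rw [hb2] at h9
        refine h9.trans ?_
        push Not at hc
        have h10 : 1 ≤ t ^ x * α c := by
          have := mul_lt_mul_of_pos_left hc htx
          rw [← Real.rpow_add ht] at this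
          simp at this
          exact this.le
        have h11 : 12 * A * α c ≤ 12 * A * t ^ x * α c ^ 2 := by
          have : 12 * A * α c * 1 ≤ 12 * A * α c * (t ^ x * α c) :=
            mul_le_mul_of_nonneg_left h10 (mul_nonneg (by positivity) (hα c))
          nlinarith
        have h12 : 0 ≤ 24 * A * t ^ f * α c := by
          have := hα c
          have := Real.rpow_pos_of_pos ht f
          positivity
        have h13 : (0 : ℝ) ≤ (n : ℝ) ^ 2 := by positivity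
        nlinarith
  show ‖osum k j e e' p X n w q u m U V‖ ≤ _
  have hsplit : osum k j e e' p X n w q u m U V = osum k j e e' p X n w q u m U1 V1 +
      ∑ c, (opb k j e e' p X n w q u m c (U c) (V c) -
        opb k j e e' p X n w q u m c (U1 c) (V1 c)) := by
    rw [osum_eq, osum_eq, Finset.sum_sub_distrib]; ring
  rw [hsplit]
  have htfp := Real.rpow_pos_of_pos ht f
  calc _ ≤ 128 * s * t ^ γ * (n : ℝ) ^ 3 +
        ∑ c : Fin n, (24 * A * t ^ f * α c + 12 * A * t ^ x * α c ^ 2) * (n : ℝ) ^ 2 := by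
        refine (norm_add_le _ _).trans (add_le_add hmain ?_)
        exact (norm_sum_le _ _).trans (Finset.sum_le_sum fun c _ => herr c)
    _ = 128 * s * t ^ γ * (n : ℝ) ^ 3 + (24 * A * t ^ f * ∑ c, α c +
        12 * A * t ^ x * ∑ c, α c ^ 2) * (n : ℝ) ^ 2 := by
        rw [Finset.mul_sum, Finset.mul_sum, ← Finset.sum_add_distrib, Finset.sum_mul]
    _ ≤ 128 * s * t ^ γ * (n : ℝ) ^ 3 + (24 * A * t ^ f * n +
        12 * A * t ^ x * n) * (n : ℝ) ^ 2 := by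
        gcongr
    _ = _ := by ring

end Crest.Agent.R079.OpS276
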