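import Crest.Agent.R079.OpS_276

/-! R079 (helper276): **SWAP OF THE SPECIAL VERTEX for op-atoms with `L¹` weight** (copy of
`OLevSw_127.isOp_swap` for the class `SD` of `OpS_276`): the projected atoms of the three types coincide up
to `≤ 324` unit atoms of the same side, with the SAME theta cap and the SAME fibre cap. -/

set_option autoImplicit false

namespace Crest.Agent.R079.OpS276

open Finset Crest.Agent.R079.Grid Crest.Agent.R079.Glue Crest.Agent.R079.Growth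
  Crest.Agent.R079.QRed Crest.Agent.R079.R244 Crest.Agent.R079.TFrz679 Crest.Agent.R079.Dic679
  Crest.Agent.R079.OpLev Crest.Agent.R079.DicOp679 Crest.Agent.R079.OLevSw

theorem ext_cap {n : ℕ} {w q : ℤ} {U : Fin n → Fin n → ℂ} {α : Fin n → ℝ} {Hf : ℝ} (hHf : 0 ≤ Hf)
    (hα : ∀ c, 0 ≤ α c) (h : ∀ c i, ‖U c i‖ ^ 2 ≤ Hf * α c) (x z : ℤ) :
    ‖OLevSw.ext n w q U x z‖ ^ 2 ≤ Hf * exa n w α x := by
  by_cases hx : (0 ≤ x - w ∧ x - w < n) ∧ (0 ≤ z - q ∧ z - q < n)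
  · have h1 : OLevSw.ext n w q U x z = U ⟨(x - w).toNat, by omega⟩ ⟨(z - q).toNat, by omega⟩ := by
      unfold OLevSw.ext
      rw [dif_pos hx]
    have h2 : exa n w α x = α ⟨(x - w).toNat, by omega⟩ := by
      unfold exa
      rw [dif_pos hx.1]
    rw [h1, h2]
    exact h _ _
  · have h1 : OLevSw.ext n w q U x z = 0 := by
      unfold OLevSw.ext
      rw [dif_neg hx]
    rw [h1]
    have := exa_nonneg (w := w) hα x
    rw [norm_zero, zero_pow two_ne_zero]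
    exact mul_nonneg hHf this

theorem exa_le {n : ℕ} {w : ℤ} {α : Fin n → ℝ} {H : ℝ} (hH : 0 ≤ H) (h : ∀ c, α c ≤ H) (x : ℤ) :
    exa n w α x ≤ H := by
  unfold exa
  split_ifs
  · exact h _
  · exact hH

theorem sum_exa_le1 {n : ℕ} {w : ℤ} {α : Fin n → ℝ} {C : ℝ} (hα : ∀ c, 0 ≤ α c)
    (hs : ∑ c, α c ≤ C) (S : Finset ℤ) : ∑ z ∈ S, exa n w α z ≤ C := by
  classical
  have h1 : ∑ z ∈ S, exa n w α z ≤ ∑ z ∈ Ico w (w + n), exa n w α z := by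
    rw [← Finset.sum_filter_add_sum_filter_not S (fun z => z ∈ Ico w (w + n))]
    have h2 : ∑ z ∈ S.filter (fun z => ¬ z ∈ Ico w (w + n)), exa n w α z = 0 := by
      refine Finset.sum_eq_zero fun z hz => ?_
      have h3 := (Finset.mem_filter.1 hz).2
      rw [Finset.mem_Ico] at h3
      unfold exa
      rw [dif_neg]
      rintro h5
      exact h3 (by omega)
    rw [h2, add_zero]
    refine Finset.sum_le_sum_of_subset_of_nonneg ?_ fun z _ _ => exa_nonneg hα z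
    intro z hz
    exact (Finset.mem_filter.1 hz).2
  refine h1.trans ?_
  rw [OLevSw.sum_Ico_fin]
  simp only [exa_val]
  exact hs

/-- the two ends of the gauge edge -/
theorem isOpS_sym {k j e e' : Fin 4} {n : ℕ} {Ht Hf : ℝ} {φ : ℤ → ℂ}
    (h : IsOpS k j e e' n Ht Hf φ) : IsOpS k j e' e n Ht Hf φ := by
  obtain ⟨w, q, u, m, U, V, α, hD, rfl⟩ := h
  refine ⟨w, u, q, fun z z' => m z' z, V, U, α, ⟨fun z z' => hD.m1 z' z, hD.α0, hD.V2, hD.U2,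
    hD.α1, hD.αH, hD.VH, hD.UH⟩, ?_⟩
  funext y
  unfold opA
  refine Finset.sum_congr rfl fun c _ => ?_
  rw [Finset.sum_comm]
  refine Finset.sum_congr rfl fun i' _ => Finset.sum_congr rfl fun i _ => ?_
  have e1 : (sl j - sl k) * (w + ((c : ℕ) : ℤ)) + (sl e - sl k) * (q + ((i : ℕ) : ℤ)) +
      (sl e' - sl k) * (u + ((i' : ℕ) : ℤ)) = (sl j - sl k) * (w + ((c : ℕ) : ℤ)) +
      (sl e' - sl k) * (u + ((i' : ℕ) : ℤ)) + (sl e - sl k) * (q + ((i : ℕ) : ℤ)) := by ring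
  rw [e1]
  refine if_congr Iff.rfl ?_ rfl
  ring

/-- **`swap`: special vertex `j` ↔ special vertex `e`** -/
theorem isOpS_swap {k j e e' : Fin 4} (hjk : j ≠ k) (hek : e ≠ k) {n : ℕ} (hn : 0 < n)
    {Ht Hf : ℝ} (hHf : 0 ≤ Hf) {φ : ℤ → ℂ} (h : IsOpS k j e e' n Ht Hf φ) :
    ∃ ψ : (Fin 3 × Fin 3) × (Fin 6 × Fin 6) → ℤ → ℂ,
      (∀ t, IsOpS k e j e' n Ht Hf (ψ t)) ∧ φ = fun y => ∑ t, ψ t y := by
  classical
  obtain ⟨w, q, u, m, U, V, α, hD, rfl⟩ := h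
  have hHt : 0 ≤ Ht := hD.Ht0 hn
  obtain ⟨hm, hα, hU, hV, hs, hαH, hUH, hVH⟩ := hD
  have ha := OLevSw.sl_ne hjk
  have hb := OLevSw.sl_ne hek
  have ha3 := OLevSw.sl_bd j k
  have hb3 := OLevSw.sl_bd e k
  set a := sl j - sl k with hadef
  set b := sl e - sl k with hbdef
  set d := sl e' - sl k with hddef
  obtain ⟨w', hw'⟩ := img_mem a b ha hb hb3 q n hn
  obtain ⟨q', hq'⟩ := img_mem b a hb ha ha3 w n hn
  set UZ := OLevSw.ext n w q U with hUZ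
  set VZ := OLevSw.ext n w u V with hVZ
  set αZ := exa n w α with hαZ
  -- conditions
  let cd : (Fin 3 × Fin 3) → ℤ → ℤ → Prop := fun t x z =>
    (x % b = ((t.1 : ℕ) : ℤ) ∧ z % a = ((t.2 : ℕ) : ℤ)) ∧
      (fe b a ((t.2 : ℕ) : ℤ) ((t.1 : ℕ) : ℤ) z ∈ Ico w (w + n) ∧
        fe a b ((t.1 : ℕ) : ℤ) ((t.2 : ℕ) : ℤ) x ∈ Ico q (q + n))
  let ex : (Fin 3 × Fin 3) → ℤ → ℤ := fun t z => fe b a ((t.2 : ℕ) : ℤ) ((t.1 : ℕ) : ℤ) z
  let ez : (Fin 3 × Fin 3) → ℤ → ℤ := fun t x => fe a b ((t.1 : ℕ) : ℤ) ((t.2 : ℕ) : ℤ) x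
  let X0 : (Fin 3 × Fin 3) × (Fin 6 × Fin 6) → ℤ := fun t => w' + ((t.2.1 : ℕ) : ℤ) * n
  let Z0 : (Fin 3 × Fin 3) × (Fin 6 × Fin 6) → ℤ := fun t => q' + ((t.2.2 : ℕ) : ℤ) * n
  let m' : (Fin 3 × Fin 3) × (Fin 6 × Fin 6) → ℤ → ℤ → ℂ := fun t x v => m (ez t.1 x) v
  let U' : (Fin 3 × Fin 3) × (Fin 6 × Fin 6) → Fin n → Fin n → ℂ := fun t c i =>
    if cd t.1 (X0 t + ((i : ℕ) : ℤ)) (Z0 t + ((c : ℕ) : ℤ)) then
      UZ (ex t.1 (Z0 t + ((c : ℕ) : ℤ))) (ez t.1 (X0 t + ((i : ℕ) : ℤ))) else 0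
  let V' : (Fin 3 × Fin 3) × (Fin 6 × Fin 6) → Fin n → Fin n → ℂ := fun t c i =>
    if (Z0 t + ((c : ℕ) : ℤ)) % a = ((t.1.2 : ℕ) : ℤ) then
      VZ (ex t.1 (Z0 t + ((c : ℕ) : ℤ))) (u + ((i : ℕ) : ℤ)) else 0
  let α' : (Fin 3 × Fin 3) × (Fin 6 × Fin 6) → Fin n → ℝ := fun t c =>
    if (Z0 t + ((c : ℕ) : ℤ)) % a = ((t.1.2 : ℕ) : ℤ) then
      αZ (ex t.1 (Z0 t + ((c : ℕ) : ℤ))) else 0
  refine ⟨fun t => opA k e j e' n (Z0 t) (X0 t) u (m' t) (U' t) (V' t), ?_, ?_⟩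
  · intro t
    refine ⟨Z0 t, X0 t, u, m' t, U' t, V' t, α' t,
      ⟨fun z z' => hm _ _, ?_, ?_, ?_, ?_, ?_, ?_, ?_⟩, rfl⟩
    · intro c
      show 0 ≤ ite _ _ _
      split_ifs
      · exact exa_nonneg hα _
      · exact le_rfl
    · intro c
      by_cases hc : (Z0 t + ((c : ℕ) : ℤ)) % a = ((t.1.2 : ℕ) : ℤ)
      · have h1 : α' t c = αZ (ex t.1 (Z0 t + ((c : ℕ) : ℤ))) := if_pos hc
        rw [h1]
        have h2 : ∀ i, ‖U' t c i‖ ^ 2 ≤ if (X0 t + ((i : ℕ) : ℤ)) % b = ((t.1.1 : ℕ) : ℤ) then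
            ‖UZ (ex t.1 (Z0 t + ((c : ℕ) : ℤ))) (ez t.1 (X0 t + ((i : ℕ) : ℤ)))‖ ^ 2 else 0 := by
          intro i
          show ‖ite _ _ _‖ ^ 2 ≤ _
          split_ifs with h3 h4 h4
          · exact le_rfl
          · exact absurd h3.1.1 h4
          · rw [norm_zero, zero_pow two_ne_zero]; positivity
          · simp
        refine (Finset.sum_le_sum fun i _ => h2 i).trans ?_
        refine sum_if_le (fun i : Fin n => (X0 t + ((i : ℕ) : ℤ)) % b = ((t.1.1 : ℕ) : ℤ))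
          (fun i => ez t.1 (X0 t + ((i : ℕ) : ℤ))) ?_
          (fun z => ‖UZ (ex t.1 (Z0 t + ((c : ℕ) : ℤ))) z‖ ^ 2) _ ?_
        · intro i i' h3 h4 h5
          have h6 := fe_inj ha hb h3 h4 h5
          have h7 : ((i : ℕ) : ℤ) = ((i' : ℕ) : ℤ) := by linarith
          exact Fin.ext (by exact_mod_cast h7)
        · intro S
          exact sum_ext_le hα hU _ S
      · have h1 : α' t c = 0 := if_neg hc
        rw [h1]
        have h2 : ∀ i, U' t c i = 0 := by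
          intro i
          refine if_neg ?_
          rintro ⟨⟨-, h3⟩, -⟩
          exact hc h3
        simp [h2]
    · intro c
      by_cases hc : (Z0 t + ((c : ℕ) : ℤ)) % a = ((t.1.2 : ℕ) : ℤ)
      · have h1 : α' t c = αZ (ex t.1 (Z0 t + ((c : ℕ) : ℤ))) := if_pos hc
        rw [h1]
        have h2 : ∀ i, ‖V' t c i‖ ^ 2 =
            ‖VZ (ex t.1 (Z0 t + ((c : ℕ) : ℤ))) (u + ((i : ℕ) : ℤ))‖ ^ 2 := by
          intro i
          have : V' t c i = VZ (ex t.1 (Z0 t + ((c : ℕ) : ℤ))) (u + ((i : ℕ) : ℤ)) := if_pos hc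
          rw [this]
        rw [Finset.sum_congr rfl fun i _ => h2 i]
        have h3 := sum_ext_le (w := w) (q := u) hα hV (ex t.1 (Z0 t + ((c : ℕ) : ℤ)))
          (Ico u (u + n))
        rw [OLevSw.sum_Ico_fin] at h3
        exact h3
      · have h1 : α' t c = 0 := if_neg hc
        rw [h1]
        have h2 : ∀ i, V' t c i = 0 := fun i => if_neg hc
        simp [h2]
    · refine sum_if_le (fun c : Fin n => (Z0 t + ((c : ℕ) : ℤ)) % a = ((t.1.2 : ℕ) : ℤ))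
        (fun c => ex t.1 (Z0 t + ((c : ℕ) : ℤ))) ?_ (fun z => αZ z) _ ?_
      · intro i i' h3 h4 h5
        have h6 := fe_inj hb ha h3 h4 h5
        have h7 : ((i : ℕ) : ℤ) = ((i' : ℕ) : ℤ) := by linarith
        exact Fin.ext (by exact_mod_cast h7)
      · intro S
        exact sum_exa_le1 hα hs S
    · intro c
      show ite _ _ _ ≤ Ht
      split_ifs
      · exact exa_le hHt hαH _
      · exact hHt
    · intro c i
      by_cases hc : (Z0 t + ((c : ℕ) : ℤ)) % a = ((t.1.2 : ℕ) : ℤ)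
      · have h1 : α' t c = αZ (ex t.1 (Z0 t + ((c : ℕ) : ℤ))) := if_pos hc
        rw [h1]
        show ‖ite _ _ _‖ ^ 2 ≤ _
        split_ifs
        · exact ext_cap hHf hα hUH _ _
        · have := exa_nonneg (w := w) hα (ex t.1 (Z0 t + ((c : ℕ) : ℤ)))
          rw [norm_zero, zero_pow two_ne_zero]
          exact mul_nonneg hHf this
      · have h1 : α' t c = 0 := if_neg hc
        have h2 : U' t c i = 0 := by
          refine if_neg ?_
          rintro ⟨⟨-, h3⟩, -⟩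
          exact hc h3
        rw [h1, h2]; simp
    · intro c i
      by_cases hc : (Z0 t + ((c : ℕ) : ℤ)) % a = ((t.1.2 : ℕ) : ℤ)
      · have h1 : α' t c = αZ (ex t.1 (Z0 t + ((c : ℕ) : ℤ))) := if_pos hc
        have h2 : V' t c i = VZ (ex t.1 (Z0 t + ((c : ℕ) : ℤ))) (u + ((i : ℕ) : ℤ)) := if_pos hc
        rw [h1, h2]
        exact ext_cap hHf hα hVH _ _
      · have h1 : α' t c = 0 := if_neg hc
        have h2 : V' t c i = 0 := if_neg hc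
        rw [h1, h2]; simp
  · funext y
    -- left side over integer boxes
    let G : ℤ → ℤ → ℤ → ℂ := fun T x z => ∑ v ∈ Ico u (u + n),
      if T + d * v = y then m z v * UZ x z * VZ x v else 0
    have hL : opA k j e e' n w q u m U V y =
        ∑ x ∈ Ico w (w + n), ∑ z ∈ Ico q (q + n), G (a * x + b * z) x z := by
      unfold opA
      rw [OLevSw.sum_Ico_fin]
      refine Finset.sum_congr rfl fun c _ => ?_
      rw [OLevSw.sum_Ico_fin]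
      refine Finset.sum_congr rfl fun i _ => ?_
      show _ = ∑ v ∈ Ico u (u + n), _
      rw [OLevSw.sum_Ico_fin]
      refine Finset.sum_congr rfl fun i' _ => ?_
      rw [hUZ, hVZ, OLevSw.ext_val, OLevSw.ext_val]
    rw [hL, swap_sum a b ha hb ha3 hb3 (Ico w (w + n)) (Ico q (q + n))
      (Ico w' (w' + (6 : ℕ) * n)) (Ico q' (q' + (6 : ℕ) * n))
      (fun x _ z hz => hw' x z hz) (fun x hx z _ => hq' z x hx) G]
    rw [Fintype.sum_prod_type, Fintype.sum_prod_type]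
    refine Finset.sum_congr rfl fun r _ => Finset.sum_congr rfl fun s _ => ?_
    rw [sum_Ico_blocks, Fintype.sum_prod_type]
    refine Finset.sum_congr rfl fun s1 _ => ?_
    have e1 : ∀ x : ℤ, (∑ z ∈ Ico q' (q' + (6 : ℕ) * n),
        if (x % b = ((r : ℕ) : ℤ) ∧ z % a = ((s : ℕ) : ℤ)) ∧
            (fe b a ((s : ℕ) : ℤ) ((r : ℕ) : ℤ) z ∈ Ico w (w + n) ∧
              fe a b ((r : ℕ) : ℤ) ((s : ℕ) : ℤ) x ∈ Ico q (q + n)) then
          G (a * x + b * z) (fe b a ((s : ℕ) : ℤ) ((r : ℕ) : ℤ) z)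
            (fe a b ((r : ℕ) : ℤ) ((s : ℕ) : ℤ) x) else 0) =
        ∑ s2 : Fin 6, ∑ z ∈ Ico (q' + ((s2 : ℕ) : ℤ) * n) (q' + ((s2 : ℕ) : ℤ) * n + n),
        if (x % b = ((r : ℕ) : ℤ) ∧ z % a = ((s : ℕ) : ℤ)) ∧
            (fe b a ((s : ℕ) : ℤ) ((r : ℕ) : ℤ) z ∈ Ico w (w + n) ∧
              fe a b ((r : ℕ) : ℤ) ((s : ℕ) : ℤ) x ∈ Ico q (q + n)) then
          G (a * x + b * z) (fe b a ((s : ℕ) : ℤ) ((r : ℕ) : ℤ) z)
            (fe a b ((r : ℕ) : ℤ) ((s : ℕ) : ℤ) x) else 0 := fun x => sum_Ico_blocks _ _ _ _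
    rw [Finset.sum_congr rfl fun x _ => e1 x, Finset.sum_comm]
    refine Finset.sum_congr rfl fun s2 _ => ?_
    rw [Finset.sum_comm, OLevSw.sum_Ico_fin]
    unfold opA
    refine Finset.sum_congr rfl fun c _ => ?_
    rw [OLevSw.sum_Ico_fin]
    refine Finset.sum_congr rfl fun i _ => ?_
    by_cases hcd : cd (r, s) (X0 ((r, s), (s1, s2)) + ((i : ℕ) : ℤ))
        (Z0 ((r, s), (s1, s2)) + ((c : ℕ) : ℤ))
    · have hU1 : U' ((r, s), (s1, s2)) c i =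
          UZ (ex (r, s) (Z0 ((r, s), (s1, s2)) + ((c : ℕ) : ℤ)))
            (ez (r, s) (X0 ((r, s), (s1, s2)) + ((i : ℕ) : ℤ))) := if_pos hcd
      rw [if_pos hcd]
      show (∑ v ∈ Ico u (u + n), _) = _
      rw [OLevSw.sum_Ico_fin]
      refine Finset.sum_congr rfl fun i' _ => ?_
      have hV1 : V' ((r, s), (s1, s2)) c i' =
          VZ (ex (r, s) (Z0 ((r, s), (s1, s2)) + ((c : ℕ) : ℤ))) (u + ((i' : ℕ) : ℤ)) :=
        if_pos hcd.1.2
      rw [hU1, hV1]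
      refine if_congr ?_ rfl rfl
      rw [← hadef, ← hbdef, ← hddef]
      constructor <;> intro h9 <;> rw [← h9] <;> ring
    · have hU1 : U' ((r, s), (s1, s2)) c i = 0 := if_neg hcd
      rw [if_neg hcd]
      symm
      refine Finset.sum_eq_zero fun i' _ => ?_
      rw [hU1]
      simp

/-- any vertex may be made special; the mass is multiplied by at most `324` -/
theorem isOpS_any {k j e e' : Fin 4} (hjk : j ≠ k) (hek : e ≠ k) (hek' : e' ≠ k) (hje : j ≠ e)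
    (hje' : j ≠ e') (hee : e ≠ e') {n : ℕ} (hn : 0 < n) {Ht Hf : ℝ} (hH0 : 0 ≤ Hf) {φ : ℤ → ℂ}
    (h : IsOpS k j e e' n Ht Hf φ) (j1 e1 e2 : Fin 4) (h1 : j1 ≠ k) (h2 : e1 ≠ k) (h3 : e2 ≠ k)
    (h12 : j1 ≠ e1) (h13 : j1 ≠ e2) (h23 : e1 ≠ e2) :
    ∃ (N : ℕ) (ψ : Fin N → ℤ → ℂ), N ≤ 324 ∧ (∀ t, IsOpS k j1 e1 e2 n Ht Hf (ψ t)) ∧
      φ = fun y => ∑ t, ψ t y := by
  classical
  -- the order of the last two indices is irrelevant
  have hsym : ∀ φ' : ℤ → ℂ, ∀ x y : Fin 4, x ≠ k → y ≠ k → x ≠ j1 → y ≠ j1 → x ≠ y →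
      IsOpS k j1 x y n Ht Hf φ' → IsOpS k j1 e1 e2 n Ht Hf φ' := by
    intro φ' x y hx hy hx1 hy1 hxy h'
    have hc : (x = e1 ∧ y = e2) ∨ (x = e2 ∧ y = e1) := by
      revert hx hy hx1 hy1 hxy h1 h2 h3 h12 h13 h23
      clear h' h hjk hek hek' hje hje' hee hn hH0
      revert x y j1 e1 e2 k
      decide
    rcases hc with ⟨rfl, rfl⟩ | ⟨rfl, rfl⟩
    · exact h'
    · exact isOpS_sym h'
  have hj : j1 = j ∨ j1 = e ∨ j1 = e' := by
    revert hjk hek hek' hje hje' hee h1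
    clear h h2 h3 h12 h13 h23 hsym
    revert k j e e' j1
    decide
  have fin : ∀ ψ : (Fin 3 × Fin 3) × (Fin 6 × Fin 6) → ℤ → ℂ,
      (∀ t, IsOpS k j1 e1 e2 n Ht Hf (ψ t)) → (φ = fun y => ∑ t, ψ t y) →
      ∃ (N : ℕ) (ψ : Fin N → ℤ → ℂ), N ≤ 324 ∧ (∀ t, IsOpS k j1 e1 e2 n Ht Hf (ψ t)) ∧
        φ = fun y => ∑ t, ψ t y := by
    intro ψ hψ hφ
    let eq := Fintype.equivFin ((Fin 3 × Fin 3) × (Fin 6 × Fin 6))
    refine ⟨Fintype.card ((Fin 3 × Fin 3) × (Fin 6 × Fin 6)), fun i => ψ (eq.symm i), ?_,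
      fun t => hψ _, ?_⟩
    · simp
    · rw [hφ]
      funext y
      exact (Equiv.sum_comp eq.symm (fun t => ψ t y)).symm
  rcases hj with rfl | rfl | rfl
  · refine ⟨1, fun _ => φ, by norm_num, fun _ => ?_, by simp⟩
    exact hsym φ e e' hek hek' (Ne.symm hje) (Ne.symm hje') hee h
  · obtain ⟨ψ, hψ, hφ⟩ := isOpS_swap hjk hek hn hH0 h
    exact fin ψ (fun t => hsym _ j e' hjk hek' hje (Ne.symm hee) hje' (hψ t)) hφ
  · obtain ⟨ψ, hψ, hφ⟩ := isOpS_swap hjk hek' hn hH0 (isOpS_sym h)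
    exact fin ψ (fun t => hsym _ j e hjk hek hje' hee hje (hψ t)) hφ

end Crest.Agent.R079.OpS276
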