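import Crest.Agent.R079.XS4_219
import Crest.Agent.R079.XR_112

/-! R079, Step II, T5 leaf [S3] plugged into the literal `XR112.XR` of leaf [S2] (helper219).

* `s4w_of_XR` : `S4W` of the X letter, no height of `X` nor of `F`;
* `s4w_of_XR'` : the same with `h = σ^(-1/5)`;
* `s2w_of_XR` : `S2W` of the X letter; `tot_of_XR`; `height_of_XR`. -/

set_option autoImplicit false
set_option linter.unusedVariables false

namespace Crest.Agent.R079.XS4x219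

open Finset Crest.Agent.R079.Grid Crest.Agent.R079.Growth Crest.Agent.R079.R244
  Crest.Agent.R079.XDual988 Crest.Agent.R079.F24 Crest.Agent.R079.XR112

variable {α γ δ : ℤ} {T T' : Finset ℤ} {W : Finset Nd} {V σ θ η M A : ℝ}
  {c : ℤ → ℤ → ℂ} {F : ℤ → ℂ} {X : ℤ → ℤ → ℤ → ℂ}

lemma at'_eq (C : ℤ → ℤ → ℤ → ℂ) (p : Nd) : at' α γ δ T T' C p = KK α γ δ T T' p C := rfl

/-- total energy of `Y` from its rows -/
lemma totY_of_rows {Y C : ℤ → ℤ → ℤ → ℂ} {B E : ℝ}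
    (hsup : ∀ w z z', Y w z z' ≠ 0 → z ∈ T ∧ z' ∈ T')
    (hr : ∀ S : Finset (ℤ × ℤ), ∑ r ∈ S, ∑ z' ∈ T', ‖Y r.1 r.2 z'‖ ^ 2 ≤
      ∑ r ∈ S, ∑ z' ∈ T', ‖C r.1 r.2 z'‖ ^ 2 + E)
    (hC : Tot C B) : Tot Y (B + E) := by
  classical
  intro S
  set R : Finset (ℤ × ℤ) := S.image (fun t => (t.1, t.2.1)) with hR
  have h4 : ∑ t ∈ S, ‖Y t.1 t.2.1 t.2.2‖ ^ 2 =
      ∑ t ∈ S.filter (fun t => t.2.2 ∈ T'), ‖Y t.1 t.2.1 t.2.2‖ ^ 2 := by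
    rw [Finset.sum_filter (s := S)]
    refine Finset.sum_congr rfl fun t _ => ?_
    split_ifs with hy
    · rfl
    · have : Y t.1 t.2.1 t.2.2 = 0 := by
        by_contra hne
        exact hy (hsup _ _ _ hne).2
      rw [this, norm_zero, zero_pow two_ne_zero]
  rw [h4]
  have hinj : Set.InjOn (fun t : ℤ × ℤ × ℤ => ((t.1, t.2.1), t.2.2))
      (S.filter (fun t => t.2.2 ∈ T')) := by
    rintro ⟨a, b, c⟩ _ ⟨a', b', c'⟩ _ h
    simp only [Prod.mk.injEq] at h ⊢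
    exact ⟨h.1.1, h.1.2, h.2⟩
  have e := Finset.sum_image (f := fun x : (ℤ × ℤ) × ℤ => ‖Y x.1.1 x.1.2 x.2‖ ^ 2) hinj
  rw [← e]
  have h5 : ∑ x ∈ (S.filter (fun t => t.2.2 ∈ T')).image (fun t => ((t.1, t.2.1), t.2.2)),
      ‖Y x.1.1 x.1.2 x.2‖ ^ 2 ≤ ∑ x ∈ R ×ˢ T', ‖Y x.1.1 x.1.2 x.2‖ ^ 2 := by
    refine Finset.sum_le_sum_of_subset_of_nonneg ?_ (fun _ _ _ => by positivity)
    intro x hx
    obtain ⟨t, ht, rfl⟩ := Finset.mem_image.1 hx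
    rw [Finset.mem_filter] at ht
    exact Finset.mem_product.2 ⟨Finset.mem_image_of_mem _ ht.1, ht.2⟩
  refine h5.trans ?_
  rw [Finset.sum_product]
  refine (hr R).trans ?_
  have h6 : ∑ r ∈ R, ∑ z' ∈ T', ‖C r.1 r.2 z'‖ ^ 2 ≤ B := by
    have hinj2 : Set.InjOn (fun x : (ℤ × ℤ) × ℤ => ((x.1.1, x.1.2, x.2) : ℤ × ℤ × ℤ))
        (R ×ˢ T' : Finset ((ℤ × ℤ) × ℤ)) := by
      rintro ⟨⟨a, b⟩, c⟩ _ ⟨⟨a', b'⟩, c'⟩ _ h
      simp only [Prod.mk.injEq] at h ⊢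
      exact ⟨⟨h.1, h.2.1⟩, h.2.2⟩
    have e2 := Finset.sum_image (f := fun t : ℤ × ℤ × ℤ => ‖C t.1 t.2.1 t.2.2‖ ^ 2) hinj2
    have h7 := hC ((R ×ˢ T').image (fun x : (ℤ × ℤ) × ℤ => ((x.1.1, x.1.2, x.2) : ℤ × ℤ × ℤ)))
    rw [e2, Finset.sum_product] at h7
    exact h7
  linarith

/-- total energy of `C = c F` in the letters of 112 -/
lemma tot_Cc (hα : α ≠ 0) (p : Nd) (hc : ∑ q ∈ T ×ˢ T', ‖c q.1 q.2‖ ^ 2 ≤ M)
    (hF : ∑ y ∈ iv p, ‖F y‖ ^ 2 ≤ A * len p) (hA : 0 ≤ A) :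
    Tot (at' α γ δ T T' (Cc c F α γ δ) p) (M * A * len p) :=
  tot_C hα F p hc hF hA

variable (hα : α ≠ 0) (hγ : γ ≠ 0) (hδ : δ ≠ 0)

include hα in
/-- total energy of `Y` at a node -/
lemma totY_of_XNode {p : Nd} {Y D : ℤ → ℤ → ℤ → ℂ} (hA : 0 ≤ A) (hMA : M * A ≤ V)
    (hc : ∑ q ∈ T ×ˢ T', ‖c q.1 q.2‖ ^ 2 ≤ M) (hF : ∑ y ∈ iv p, ‖F y‖ ^ 2 ≤ A * len p)
    (h : XNode p α γ δ T T' (Cc c F α γ δ) V σ θ η X Y D) :
    Tot Y ((1 + η) * V * len p) := by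
  have hlen : 0 < len p := by unfold len; positivity
  have h1 := totY_of_rows (T := T) (T' := T')
    (fun w z z' hne => ⟨(h.supY w z z' hne).1, (h.supY w z z' hne).2.1⟩) h.rows
    (tot_Cc (γ := γ) (δ := δ) hα p hc hF hA)
  intro S
  refine (h1 S).trans ?_
  have := mul_le_mul_of_nonneg_right hMA hlen.le
  linarith

include hα in
/-- total energy of `X` at a node -/
lemma tot_of_XR (hA : 0 ≤ A) (hMA : M * A ≤ V)
    (hc : ∑ q ∈ T ×ˢ T', ‖c q.1 q.2‖ ^ 2 ≤ M) (hF : ∀ p ∈ W, ∑ y ∈ iv p, ‖F y‖ ^ 2 ≤ A * len p)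
    (h : XR W α γ δ T T' (Cc c F α γ δ) V σ θ η X) :
    ∀ p ∈ W, Tot (at' α γ δ T T' X p) ((2 * (1 + η) + 6 * θ) * V * len p) := by
  intro p hp S
  obtain ⟨Y, D, hN⟩ := h p hp
  have h1 := totY_of_XNode hα hA hMA hc (hF p hp) hN S
  have h2 := hN.eD S
  have h3 : ∑ t ∈ S, ‖at' α γ δ T T' X p t.1 t.2.1 t.2.2‖ ^ 2 ≤
      ∑ t ∈ S, (2 * ‖Y t.1 t.2.1 t.2.2‖ ^ 2 + 2 * ‖D t.1 t.2.1 t.2.2‖ ^ 2) := by
    refine Finset.sum_le_sum fun t _ => ?_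
    rw [hN.eq]
    have h4 := pow_le_pow_left₀ (norm_nonneg _) (norm_add_le (Y t.1 t.2.1 t.2.2)
      (D t.1 t.2.1 t.2.2)) 2
    nlinarith [sq_nonneg (‖Y t.1 t.2.1 t.2.2‖ - ‖D t.1 t.2.1 t.2.2‖)]
  rw [Finset.sum_add_distrib, ← Finset.mul_sum, ← Finset.mul_sum] at h3
  linarith

include hα in
/-- **`S2W` of the X letter** -/
theorem s2w_of_XR {κ : ℕ} (hA : 0 ≤ A) (hMA : M * A ≤ V)
    (hc : ∑ q ∈ T ×ˢ T', ‖c q.1 q.2‖ ^ 2 ≤ M) (hF : ∀ p ∈ W, ∑ y ∈ iv p, ‖F y‖ ^ 2 ≤ A * len p)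
    (h : XR W α γ δ T T' (Cc c F α γ δ) V σ θ η X) :
    EW49.S2W W κ ((2 * (1 + η) + 6 * θ) * V) α γ δ T T' X (fun _ => 1) := by
  refine EW990.s2w_of_total fun p hp S => ?_
  refine (tot_of_XR hα hA hMA hc hF h p hp S).trans (le_of_eq ?_)
  unfold len
  ring

/-- height of the X letter on the node -/
lemma height_of_XR (h : XR W α γ δ T T' (Cc c F α γ δ) V σ θ η X) {p : Nd} (hp : p ∈ W) {Hc : ℝ}
    (hcF : ∀ z ∈ T, ∀ z' ∈ T', ∀ y ∈ iv p, ‖c z z'‖ * ‖F y‖ ≤ Hc) (w : ℤ) {z z' : ℤ} (hz : z ∈ T)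
    (hz' : z' ∈ T') (hy : α * w + γ * z + δ * z' ∈ iv p) : ‖X w z z'‖ ≤ Hc + 3 / σ := by
  classical
  obtain ⟨Y, D, hN⟩ := h p hp
  have h1 := hN.eq w z z'
  have h2 := hN.hY w z z'
  have h3 := hN.hD w z z'
  rw [at'_eq, KK_eq, if_pos ⟨hz, hz', hy⟩] at h1 h2
  have h4 : ‖Cc c F α γ δ w z z'‖ ≤ Hc := by
    unfold Cc
    rw [norm_mul]
    exact hcF z hz z' hz' _ hy
  have e : X w z z' = Cc c F α γ δ w z z' - (Cc c F α γ δ w z z' - Y w z z') + D w z z' := by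
    rw [h1]
    ring
  rw [e]
  have h5 := norm_add_le (Cc c F α γ δ w z z' - (Cc c F α γ δ w z z' - Y w z z')) (D w z z')
  have h6 := norm_sub_le (Cc c F α γ δ w z z') (Cc c F α γ δ w z z' - Y w z z')
  have e3 : (3 : ℝ) / σ = 1 / σ + 2 / σ := by ring
  rw [e3]
  linarith

include hα hγ hδ in
/-- **[S3] `S4W` of the X letter**, `|c| ≤ 1` -/
theorem s4w_of_XR {κ : ℕ} {h s4 : ℝ} (hσ : 0 < σ) (hη : 0 ≤ η) (hV : 0 ≤ V) (hh : 0 < h)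
    (hA : 0 ≤ A) (hMA : M * A ≤ V) (hc1 : ∀ z z', ‖c z z'‖ ≤ 1)
    (hc : ∑ q ∈ T ×ˢ T', ‖c q.1 q.2‖ ^ 2 ≤ M) (hF : ∀ p ∈ W, ∑ y ∈ iv p, ‖F y‖ ^ 2 ≤ A * len p)
    (hX : XR W α γ δ T T' (Cc c F α γ δ) V σ θ η X)
    (hs : 64 * (1024 * (h ^ 3 * σ) + 2 * ((256 * A / h) ^ 2 * (1 + η)) +
      ((256 * A + 2 / σ ^ 2) * (4 * η) + 12 * θ / σ ^ 2)) ≤ s4) :
    EW49.S4W W κ V s4 α γ δ T T' X (fun _ => 1) := by
  classical
  intro p hp k _ S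
  obtain ⟨Y, D, hN⟩ := hX p hp
  have hlen : 0 < len p := by unfold len; positivity
  have hYe := totY_of_XNode hα hA hMA hc (hF p hp) hN
  have key := sum_e4_abs (T := T) (T' := T') (X := at' α γ δ T T' X p) (Y := Y)
    (C := at' α γ δ T T' (Cc c F α γ δ) p)
    (f := fun w z z' => at' α γ δ T T' (Cc c F α γ δ) p w z z' - Y w z z') (D := D) (h := h)
    (Mf := 1 / σ) (Md := 2 / σ) (ED := 3 * θ * V * len p) (EY := (1 + η) * V * len p)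
    (η := η * V * len p) (Λ := 2 * σ * V * len p) (ρ := A * len p)
    (N := 2 ^ (p.1 + k)) (by positivity) hh (α := α) hγ hδ (p.2 * 2 ^ (p.1 + 7))
    (fun w z z' hne => by
      have h1 := (hN.supY w z z' hne).2.2
      have h2 : α * w + γ * z + δ * z' ∈ Finset.Ico (p.2 * 2 ^ (p.1 + 7))
        ((p.2 + 1) * 2 ^ (p.1 + 7)) := h1
      rw [Finset.mem_Ico] at h2
      have e1 : (2 : ℤ) ^ (p.1 + 7) ≤ 128 * 2 ^ (p.1 + k) := by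
        have e2 : (2 : ℤ) ^ (p.1 + 7) = 128 * 2 ^ p.1 := by rw [pow_add]; ring
        rw [e2]
        have : (2 : ℤ) ^ p.1 ≤ 2 ^ (p.1 + k) := pow_le_pow_right₀ (by norm_num) (by omega)
        linarith
      push_cast
      refine ⟨h2.1, ?_⟩
      have e3 : (p.2 + 1) * (2 : ℤ) ^ (p.1 + 7) = p.2 * 2 ^ (p.1 + 7) + 2 ^ (p.1 + 7) := by ring
      have h4 := h2.2
      rw [e3] at h4
      linarith)
    (fun w z z' hne => ⟨(hN.supY w z z' hne).1, (hN.supY w z z' hne).2.1⟩)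
    (fun w z z' => hN.eq w z z')
    (fun w z z' => by ring)
    (by positivity) (fun w z z' => hN.hY w z z') (by positivity) (fun w z z' => hN.hD w z z')
    hN.eD hYe (by positivity)
    (fun w z s => sum_row_le w z (rows_C hδ hc1 F p (hF p hp) w z) s)
    (fun w z' s => sum_col_le w z' (cols_C hγ hc1 F p (hF p hp) w z') s)
    hN.rows hN.cols hN.lev S
  have e0 : ∀ t : ℤ × ℤ × ℤ, at' α γ δ T T' X p t.1 =
      cK α γ δ T T' (X t.1) (res p fun _ => 1) t.1 := fun t => rfl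
  simp only [e0] at key
  refine key.trans ?_
  -- numbers
  have hN1 : (0 : ℝ) < ((2 ^ (p.1 + k) : ℕ) : ℝ) := by positivity
  have hNl : len p ≤ 128 * ((2 ^ (p.1 + k) : ℕ) : ℝ) := by
    have e1 : len p = 128 * 2 ^ p.1 := by unfold len; rw [pow_add]; ring
    rw [e1]
    push_cast
    have : (2 : ℝ) ^ p.1 ≤ 2 ^ (p.1 + k) := pow_le_pow_right₀ (by norm_num) (by omega)
    linarith
  have r1 : A * len p / ((2 ^ (p.1 + k) : ℕ) : ℝ) ≤ 128 * A := by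
    rw [div_le_iff₀ hN1]
    nlinarith
  have r2 : 2 * (A * len p) / (h * ((2 ^ (p.1 + k) : ℕ) : ℝ)) ≤ 256 * A / h := by
    have e : 2 * (A * len p) / (h * ((2 ^ (p.1 + k) : ℕ) : ℝ)) =
        2 * (A * len p / ((2 ^ (p.1 + k) : ℕ) : ℝ)) / h := by field_simp
    rw [e]
    exact div_le_div_of_nonneg_right (by linarith) hh.le
  have hE0 : 0 ≤ (1 + η) * V * len p := by positivity
  have r3 : (2 * (A * len p) / (h * ((2 ^ (p.1 + k) : ℕ) : ℝ))) ^ 2 * ((1 + η) * V * len p) ≤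
      (256 * A / h) ^ 2 * (1 + η) * V * len p := by
    have h0 : 0 ≤ 2 * (A * len p) / (h * ((2 ^ (p.1 + k) : ℕ) : ℝ)) := by positivity
    have h1 := pow_le_pow_left₀ h0 r2 2
    have h2 := mul_le_mul_of_nonneg_right h1 hE0
    linarith
  have r4 : (2 * (A * len p) / ((2 ^ (p.1 + k) : ℕ) : ℝ) + 2 * (1 / σ) ^ 2) *
      (4 * (η * V * len p)) ≤ (256 * A + 2 / σ ^ 2) * (4 * η) * V * len p := by
    have e : 2 * (A * len p) / ((2 ^ (p.1 + k) : ℕ) : ℝ) =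
        2 * (A * len p / ((2 ^ (p.1 + k) : ℕ) : ℝ)) := by ring
    have e' : 2 * (1 / σ) ^ 2 = 2 / σ ^ 2 := by ring
    rw [e, e']
    have h1 : 2 * (A * len p / ((2 ^ (p.1 + k) : ℕ) : ℝ)) + 2 / σ ^ 2 ≤
        256 * A + 2 / σ ^ 2 := by linarith
    have h2 := mul_le_mul_of_nonneg_right h1 (show 0 ≤ 4 * (η * V * len p) by positivity)
    linarith
  have e5 : (2 : ℝ) ^ (p.1 + 7) = len p := rfl
  have e6 : (2 / σ) ^ 2 * (3 * θ * V * len p) = 12 * θ / σ ^ 2 * (V * len p) := by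
    field_simp
    ring
  rw [e5, e6]
  have hs' := mul_le_mul_of_nonneg_right hs (mul_nonneg hV hlen.le)
  calc _ ≤ 64 * (4 * (128 * (h ^ 3 * (2 * σ * V * len p))) +
          2 * ((256 * A / h) ^ 2 * (1 + η) * V * len p)) +
        64 * ((256 * A + 2 / σ ^ 2) * (4 * η) * V * len p + 12 * θ / σ ^ 2 * (V * len p)) := by
          linarith
    _ = 64 * (1024 * (h ^ 3 * σ) + 2 * ((256 * A / h) ^ 2 * (1 + η)) +
      ((256 * A + 2 / σ ^ 2) * (4 * η) + 12 * θ / σ ^ 2)) * (V * len p) := by ring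
    _ ≤ s4 * (V * len p) := hs'
    _ = s4 * (len p * V) := by ring

include hα hγ hδ in
/-- **[S3] with `h = σ^(-1/5)`, `A = 1`, `η ≤ σ^3`, `θ ≤ σ^3`**: `s4 = 2^25 σ^(2/5)` -/
theorem s4w_of_XR' {κ : ℕ} (hσ : 0 < σ) (hσ1 : σ ≤ 1) (hη : 0 ≤ η) (hη1 : η ≤ σ ^ 3)
    (hθ1 : θ ≤ σ ^ 3) (hV : 0 ≤ V) (hMA : M ≤ V) (hc1 : ∀ z z', ‖c z z'‖ ≤ 1)
    (hc : ∑ q ∈ T ×ˢ T', ‖c q.1 q.2‖ ^ 2 ≤ M) (hF : ∀ p ∈ W, ∑ y ∈ iv p, ‖F y‖ ^ 2 ≤ len p)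
    (hX : XR W α γ δ T T' (Cc c F α γ δ) V σ θ η X) :
    EW49.S4W W κ V (2 ^ 25 * σ ^ (2 / 5 : ℝ)) α γ δ T T' X (fun _ => 1) := by
  set h : ℝ := σ ^ (-(1 / 5) : ℝ) with hh
  have hh0 : 0 < h := Real.rpow_pos_of_pos hσ _
  set a : ℝ := σ ^ (2 / 5 : ℝ) with ha
  have ha0 : 0 < a := Real.rpow_pos_of_pos hσ _
  have hσa : σ ≤ a := by
    calc σ = σ ^ (1 : ℝ) := (Real.rpow_one σ).symm
      _ ≤ σ ^ (2 / 5 : ℝ) := Real.rpow_le_rpow_of_exponent_ge hσ hσ1 (by norm_num)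
  have e1 : h ^ 3 * σ = a := by
    have e2 : h ^ 3 = σ ^ (-(3 / 5) : ℝ) := by
      rw [hh, ← Real.rpow_natCast, ← Real.rpow_mul hσ.le]
      norm_num
    rw [e2, ha]
    nth_rewrite 2 [← Real.rpow_one σ]
    rw [← Real.rpow_add hσ]
    norm_num
  have e2 : (256 * (1 : ℝ) / h) ^ 2 = 65536 * a := by
    have e3 : (1 / h) ^ 2 = a := by
      rw [hh, one_div, ← Real.rpow_neg hσ.le, ← Real.rpow_natCast, ← Real.rpow_mul hσ.le, ha]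
      norm_num
    calc (256 * (1 : ℝ) / h) ^ 2 = 65536 * (1 / h) ^ 2 := by ring
      _ = 65536 * a := by rw [e3]
  refine s4w_of_XR (A := 1) (h := h) hα hγ hδ hσ hη hV hh0 zero_le_one (by simpa using hMA) hc1 hc
    (by simpa using hF) hX ?_
  rw [e1, e2]
  have hσ3 : σ ^ 3 ≤ 1 := pow_le_one₀ hσ.le hσ1
  have s1 : 2 * (65536 * a * (1 + η)) ≤ 2 * (65536 * a * 2) := by
    have : 1 + η ≤ 2 := by linarith
    have h0 : 0 ≤ 65536 * a := by positivity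
    nlinarith
  have s2 : (256 * 1 + 2 / σ ^ 2) * (4 * η) ≤ 1032 * a := by
    have h1 : (256 * 1 + 2 / σ ^ 2) * (4 * η) ≤ (256 * 1 + 2 / σ ^ 2) * (4 * σ ^ 3) := by
      refine mul_le_mul_of_nonneg_left (by linarith) (by positivity)
    have h2 : (256 * 1 + 2 / σ ^ 2) * (4 * σ ^ 3) = 1024 * σ ^ 3 + 8 * σ := by
      field_simp
      ring
    have h3 : σ ^ 3 ≤ σ := by
      calc σ ^ 3 = σ ^ 2 * σ := by ring
        _ ≤ 1 * σ := mul_le_mul_of_nonneg_right (pow_le_one₀ hσ.le hσ1) hσ.le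
        _ = σ := one_mul _
    rw [h2] at h1
    linarith
  have s3 : 12 * θ / σ ^ 2 ≤ 12 * a := by
    rw [div_le_iff₀ (by positivity)]
    have h1 : σ ^ 3 = σ * σ ^ 2 := by ring
    have h2 : σ * σ ^ 2 ≤ a * σ ^ 2 := mul_le_mul_of_nonneg_right hσa (by positivity)
    linarith
  linarith

end Crest.Agent.R079.XS4x219
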