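import Crest.Agent.R079.XR_112
import Crest.Agent.R079.XS4b_219
import Crest.Agent.R079.EW5_702
import Crest.Agent.R079.BAt_112
import Crest.Agent.R079.BadN_360
import Crest.Agent.R079.Leaf_259

/-! R079, RuleS assembly, leaf S9 part 1 (helper256): the two ERROR WORDS of a static window, all
parameters expressed by `σ` (`θ = η = σ³`, `|G| ≤ 1/σ`): bound `K (1 + 1/k) σ^(1/20) V len J`. -/

set_option autoImplicit false
set_option linter.unusedVariables false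

namespace Crest.Agent.R079.RuS256

open Finset Crest.Agent.R079.Grid Crest.Agent.R079.Growth Crest.Agent.R079.QRed
  Crest.Agent.R079.TWin Crest.Agent.R079.R244 Crest.Agent.R079.F24 Crest.Agent.R079.XR112
  Crest.Agent.R079.XS4x219 Crest.Agent.R079.EWG990 Crest.Agent.R079.EW5702
  Crest.Agent.R079.Cg408

/-- `log (1/σ) ≤ 20 σ^(-1/20)` -/
theorem log_inv_le {σ : ℝ} (hσ : 0 < σ) : Real.log (1 / σ) ≤ 20 * σ ^ (-(1 / 20) : ℝ) := by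
  have h := Real.log_le_rpow_div (x := 1 / σ) (by positivity) (show (0 : ℝ) < 1 / 20 by norm_num)
  have e : (1 / σ) ^ (1 / 20 : ℝ) = σ ^ (-(1 / 20) : ℝ) := by
    rw [one_div, Real.inv_rpow hσ.le, ← Real.rpow_neg hσ.le]
  rw [e] at h
  calc _ ≤ _ := h
    _ = _ := by ring

theorem one_le_neg {σ a : ℝ} (hσ : 0 < σ) (hσ1 : σ ≤ 1) (ha : 0 ≤ a) : 1 ≤ σ ^ (-a) := by
  rw [Real.rpow_neg hσ.le, one_le_inv₀ (Real.rpow_pos_of_pos hσ _)]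
  exact Real.rpow_le_one hσ.le hσ1 ha

/-- numbers of the word `E` -/
theorem num_E {σ : ℝ} (hσ : 0 < σ) (hσ1 : σ ≤ 1) :
    3 * σ ^ (3 / 2 : ℝ) * (1 + Real.log (2 / σ / (3 * σ ^ (3 / 2 : ℝ)))) ≤
      153 * σ ^ (1 / 20 : ℝ) := by
  have h1 := log_inv_le hσ
  have h2 := one_le_neg hσ hσ1 (show (0 : ℝ) ≤ 1 / 20 by norm_num)
  have h32 : 0 < σ ^ (3 / 2 : ℝ) := Real.rpow_pos_of_pos hσ _
  have e1 : Real.log (2 / σ / (3 * σ ^ (3 / 2 : ℝ))) ≤ 5 / 2 * Real.log (1 / σ) := by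
    rw [Real.log_div (by positivity) (by positivity), Real.log_div (by norm_num) hσ.ne',
      Real.log_mul (by norm_num) h32.ne', Real.log_rpow hσ, one_div, Real.log_inv]
    have : Real.log 2 ≤ Real.log 3 := Real.log_le_log (by norm_num) (by norm_num)
    linarith
  have e2 : 1 + Real.log (2 / σ / (3 * σ ^ (3 / 2 : ℝ))) ≤ 51 * σ ^ (-(1 / 20) : ℝ) := by linarith
  have e3 : σ ^ (3 / 2 : ℝ) * σ ^ (-(1 / 20) : ℝ) ≤ σ ^ (1 / 20 : ℝ) := by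
    rw [← Real.rpow_add hσ]
    exact Real.rpow_le_rpow_of_exponent_ge hσ hσ1 (by norm_num)
  calc _ ≤ 3 * σ ^ (3 / 2 : ℝ) * (51 * σ ^ (-(1 / 20) : ℝ)) :=
        mul_le_mul_of_nonneg_left e2 (by positivity)
    _ = 153 * (σ ^ (3 / 2 : ℝ) * σ ^ (-(1 / 20) : ℝ)) := by ring
    _ ≤ _ := mul_le_mul_of_nonneg_left e3 (by norm_num)

/-- numbers of the word `X` -/
theorem num_X {σ k : ℝ} (hσ : 0 < σ) (hσ1 : σ ≤ 1) (hk : 0 < k) :
    64 * σ ^ (1 / 10 : ℝ) * (1 + Real.log (σ ^ (-(2 / k)) / (64 * σ ^ (1 / 10 : ℝ)) ^ 2)) +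
      σ * (1 + Real.log (4 / σ)) ≤ 2560 * (1 + 1 / k) * σ ^ (1 / 20 : ℝ) := by
  have h1 := log_inv_le hσ
  have h2 := one_le_neg hσ hσ1 (show (0 : ℝ) ≤ 1 / 20 by norm_num)
  have h10 : 0 < σ ^ (1 / 10 : ℝ) := Real.rpow_pos_of_pos hσ _
  have hl0 : 0 ≤ Real.log (1 / σ) := Real.log_nonneg (by rw [le_div_iff₀ hσ]; linarith)
  have hk1 : 0 < 1 / k := by positivity
  have hpk : 0 < σ ^ (-(2 / k)) := Real.rpow_pos_of_pos hσ _
  have e1 : Real.log (σ ^ (-(2 / k)) / (64 * σ ^ (1 / 10 : ℝ)) ^ 2) ≤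
      (2 * (1 / k) + 1 / 5) * Real.log (1 / σ) := by
    rw [Real.log_div hpk.ne' (by positivity), Real.log_pow, Real.log_mul (by norm_num) h10.ne',
      Real.log_rpow hσ, Real.log_rpow hσ, one_div σ, Real.log_inv]
    have : 0 ≤ Real.log 64 := Real.log_nonneg (by norm_num)
    push_cast
    have e : -(2 / k) * Real.log σ = (2 * (1 / k)) * -Real.log σ := by ring
    rw [e]
    linarith
  have e1' : (2 * (1 / k) + 1 / 5) * Real.log (1 / σ) ≤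
      (40 * (1 / k) + 4) * σ ^ (-(1 / 20) : ℝ) := by
    calc _ ≤ (2 * (1 / k) + 1 / 5) * (20 * σ ^ (-(1 / 20) : ℝ)) :=
          mul_le_mul_of_nonneg_left h1 (by positivity)
      _ = _ := by ring
  have e2 : 1 + Real.log (σ ^ (-(2 / k)) / (64 * σ ^ (1 / 10 : ℝ)) ^ 2) ≤
      (40 * (1 / k) + 5) * σ ^ (-(1 / 20) : ℝ) := by linarith
  have e3 : σ ^ (1 / 10 : ℝ) * σ ^ (-(1 / 20) : ℝ) = σ ^ (1 / 20 : ℝ) := by
    rw [← Real.rpow_add hσ]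
    congr 1
    norm_num
  have e4 : 1 + Real.log (4 / σ) ≤ 23 * σ ^ (-(1 / 20) : ℝ) := by
    have : Real.log (4 / σ) = Real.log 4 + Real.log (1 / σ) := by
      rw [Real.log_div (by norm_num) hσ.ne', one_div, Real.log_inv]; ring
    have h4 : Real.log 4 ≤ 2 := by
      have := Real.log_two_lt_d9
      have e : Real.log 4 = 2 * Real.log 2 := by
        rw [show (4 : ℝ) = 2 ^ 2 by norm_num, Real.log_pow]; norm_num
      rw [e]; linarith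
    rw [this]; linarith
  have e5 : σ * σ ^ (-(1 / 20) : ℝ) ≤ σ ^ (1 / 20 : ℝ) := by
    nth_rewrite 1 [← Real.rpow_one σ]
    rw [← Real.rpow_add hσ]
    exact Real.rpow_le_rpow_of_exponent_ge hσ hσ1 (by norm_num)
  have h20 : 0 < σ ^ (1 / 20 : ℝ) := Real.rpow_pos_of_pos hσ _
  have f1 : 64 * σ ^ (1 / 10 : ℝ) *
      (1 + Real.log (σ ^ (-(2 / k)) / (64 * σ ^ (1 / 10 : ℝ)) ^ 2)) ≤
      64 * (40 * (1 / k) + 5) * σ ^ (1 / 20 : ℝ) := by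
    calc _ ≤ 64 * σ ^ (1 / 10 : ℝ) * ((40 * (1 / k) + 5) * σ ^ (-(1 / 20) : ℝ)) :=
          mul_le_mul_of_nonneg_left e2 (by positivity)
      _ = 64 * (40 * (1 / k) + 5) * (σ ^ (1 / 10 : ℝ) * σ ^ (-(1 / 20) : ℝ)) := by ring
      _ = _ := by rw [e3]
  have f2 : σ * (1 + Real.log (4 / σ)) ≤ 23 * σ ^ (1 / 20 : ℝ) := by
    calc _ ≤ σ * (23 * σ ^ (-(1 / 20) : ℝ)) := mul_le_mul_of_nonneg_left e4 hσ.le
      _ = 23 * (σ * σ ^ (-(1 / 20) : ℝ)) := by ring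
      _ ≤ _ := mul_le_mul_of_nonneg_left e5 (by norm_num)
  have f3 : 0 < 1 / k * σ ^ (1 / 20 : ℝ) := by positivity
  nlinarith

theorem tl_eq_hi (h : ℝ) (F : ℤ → ℂ) : tl h F = BadN360.hi h F := by
  classical
  funext y
  unfold tl BadN360.hi
  split_ifs <;> rfl

/-- tall energy of a line letter -/
theorem tall_energy {k σ : ℝ} (hk : 0 < k) (hσ : 0 < σ) {p : Nd} {F : ℤ → ℂ}
    (h : TRec.aq (2 + k) p F ≤ 1) :
    ∑ y ∈ dI (p.1 + 7) p.2, ‖tl (σ ^ (-(2 / k))) F y‖ ^ 2 ≤ σ ^ 2 * 2 ^ (p.1 + 7) := by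
  have hH : 0 < σ ^ (-(2 / k)) := Real.rpow_pos_of_pos hσ _
  have h1 := BadN360.av_hi (q := 2 + k) (by linarith) hH h
  have e : (σ ^ (-(2 / k))) ^ (-((2 + k - 2) / 2)) = σ := by
    rw [← Real.rpow_mul hσ.le]
    have : -(2 / k) * -((2 + k - 2) / 2) = 1 := by field_simp; ring
    rw [this, Real.rpow_one]
  rw [e, ← tl_eq_hi] at h1
  exact Leaf259.sum2_of_av h1

theorem s2w_mono {R : Finset Nd} {κ : ℕ} {V V' : ℝ} {α γ δ : ℤ} {T T' : Finset ℤ}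
    {a : ℤ → ℤ → ℤ → ℂ} {F : ℤ → ℂ} (h : EW49.S2W R κ V α γ δ T T' a F) (hV : V ≤ V') :
    EW49.S2W R κ V' α γ δ T T' a F := fun p hp k hk S =>
  (h p hp k hk S).trans (mul_le_mul_of_nonneg_left hV (by positivity))

theorem s4w_mono {R : Finset Nd} {κ : ℕ} {V V' s s' : ℝ} {α γ δ : ℤ} {T T' : Finset ℤ}
    {a : ℤ → ℤ → ℤ → ℂ} {F : ℤ → ℂ} (h : EW49.S4W R κ V s α γ δ T T' a F)
    (hV : s * V ≤ s' * V') : EW49.S4W R κ V' s' α γ δ T T' a F := fun p hp k hk S => by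
  refine (h p hp k hk S).trans ?_
  have h1 : (0 : ℝ) ≤ 2 ^ (p.1 + 7) := by positivity
  calc s * (2 ^ (p.1 + 7) * V) = 2 ^ (p.1 + 7) * (s * V) := by ring
    _ ≤ 2 ^ (p.1 + 7) * (s' * V') := mul_le_mul_of_nonneg_left hV h1
    _ = _ := by ring

theorem sd (j : Fin 4) : sl j - sl (j.succAbove 2) ≠ 0 ∧
    sl (j.succAbove 0) - sl (j.succAbove 2) ≠ 0 ∧ sl (j.succAbove 1) - sl (j.succAbove 2) ≠ 0 := by
  revert j; decide

/-- **THE TWO ERROR WORDS of a static window** -/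
theorem error_words : ∃ K : ℝ, 0 ≤ K ∧ ∀ (bb : ℤ), bb = -1 ∨ bb = -7 →
    ∀ (R : Finset Nd) (J : Nd), Full R J → ∀ (j : Fin 4) (T : Fin 3 → Finset ℤ)
      (g : Fin 3 → ℤ → ℤ → ℂ) (F : Fin 4 → ℤ → ℂ) (G : ℤ → ℂ) (E X : ℤ → ℤ → ℤ → ℂ) (V σ k : ℝ),
      0 < V → 0 < σ → σ ≤ 1 / 2 ^ 60 → 0 < k →
      (∀ z z', ‖g 0 z z'‖ ≤ 1) → (∀ z z', ‖g 1 z z'‖ ≤ 1) → (∀ z z', ‖g 2 z z'‖ ≤ 1) →
      BAt112.n2 (T 0) (T 1) (g 0) ≤ V → BAt112.n2 (T 1) (T 2) (g 1) ≤ V →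
      BAt112.n2 (T 2) (T 0) (g 2) ≤ V →
      (∀ p ∈ R, TRec.aq (2 + k) p (F (j.succAbove 0)) ≤ 1) →
      (∀ p ∈ R, TRec.aq (2 + k) p (F (j.succAbove 1)) ≤ 1) →
      (∀ p ∈ R, ∑ y ∈ iv p, ‖G y‖ ^ 2 ≤ len p) → (∀ y, ‖G y‖ ≤ 1 / σ) →
      E2T R (sl j - sl (j.succAbove 2)) (sl (j.succAbove 0) - sl (j.succAbove 2))
        (sl (j.succAbove 1) - sl (j.succAbove 2)) (T 0) (T 1) (9 * σ ^ 3 * V) E →
      (∀ w z z', ‖E w z z'‖ ≤ 2 / σ) →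
      XR R (sl j - sl (j.succAbove 2)) (sl (j.succAbove 0) - sl (j.succAbove 2))
        (sl (j.succAbove 1) - sl (j.succAbove 2)) (T 0) (T 1)
        (Cc (g 0) G (sl j - sl (j.succAbove 2)) (sl (j.succAbove 0) - sl (j.succAbove 2))
          (sl (j.succAbove 1) - sl (j.succAbove 2))) V σ (σ ^ 3) (σ ^ 3) X →
      ∑ p ∈ R, ∑ x ∈ adm p.1 p.2,
        ‖LboxG (2 ^ p.1) bb (KP j T (upk g 0 E) (upF F (j.succAbove 2))) x‖ +
      ∑ p ∈ R, ∑ x ∈ adm p.1 p.2,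
        ‖LboxG (2 ^ p.1) bb (KP j T (upk g 0 X) (upF F (j.succAbove 2))) x‖ ≤
        K * (1 + 1 / k) * σ ^ (1 / 20 : ℝ) * V * len J := by
  obtain ⟨K1, hK1, hE⟩ := wordE
  obtain ⟨K2, hK2, hX⟩ := wordX
  refine ⟨153 * K1 + 25600 * K2, by positivity, ?_⟩
  intro bb hbb R J hR j T g F G E X V σ k hV hσ hσs hk hg0 hg1 hg2 hn0 hn1 hn2 hFa hFb hG hGh hE2
    hEh hXR
  have hσ1 : σ ≤ 1 := hσs.trans (by norm_num)
  obtain ⟨s0, s1, s2⟩ := sd j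
  have hlJ : len J = 2 ^ (J.1 + 7) := rfl
  have h20 : 0 < σ ^ (1 / 20 : ℝ) := Real.rpow_pos_of_pos hσ _
  have hFa2 : ∀ p ∈ R, ∑ y ∈ dI (p.1 + 7) p.2, ‖F (j.succAbove 0) y‖ ^ 2 ≤ 2 ^ (p.1 + 7) := by
    intro p hp
    have := Leaf259.sum2_of_aq (by linarith) (hFa p hp)
    rw [one_mul] at this
    exact this
  have hFb2 : ∀ p ∈ R, ∑ y ∈ dI (p.1 + 7) p.2, ‖F (j.succAbove 1) y‖ ^ 2 ≤ 2 ^ (p.1 + 7) := by
    intro p hp
    have := Leaf259.sum2_of_aq (by linarith) (hFb p hp)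
    rw [one_mul] at this
    exact this
  have hG1 : ∀ p ∈ R, ∑ y ∈ iv p, ‖G y‖ ^ 2 ≤ 1 * len p := fun p hp => by
    rw [one_mul]; exact hG p hp
  have hc0 : ∑ q ∈ T 0 ×ˢ T 1, ‖g 0 q.1 q.2‖ ^ 2 ≤ V := by
    rw [Finset.sum_product]; exact hn0
  have hσ3 : σ ^ 3 ≤ 1 := pow_le_one₀ hσ.le hσ1
  -- word `E`
  have wE := hE bb hbb R J hR.reg j T g F E V (3 * σ ^ (3 / 2 : ℝ)) (2 / σ) hV.le
    (by have := Real.rpow_pos_of_pos hσ (3 / 2 : ℝ); positivity)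
    (by
      have h1 : σ ^ (3 / 2 : ℝ) ≤ σ := by
        calc σ ^ (3 / 2 : ℝ) ≤ σ ^ (1 : ℝ) :=
              Real.rpow_le_rpow_of_exponent_ge hσ hσ1 (by norm_num)
          _ = σ := Real.rpow_one σ
      rw [le_div_iff₀ hσ]
      have h2 : σ ≤ 1 / 2 := hσs.trans (by norm_num)
      nlinarith)
    hg1 hg2 hn1 hn2 hFa2 hFb2
    (fun κ => by
      have e : (3 * σ ^ (3 / 2 : ℝ)) ^ 2 * V = 9 * σ ^ 3 * V := by
        rw [mul_pow, ← Real.rpow_natCast (σ ^ (3 / 2 : ℝ)), ← Real.rpow_mul hσ.le,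
          show (3 / 2 : ℝ) * ((2 : ℕ) : ℝ) = ((3 : ℕ) : ℝ) by norm_num, Real.rpow_natCast]
        norm_num
      rw [e]
      exact EW990.s2w_of_total fun p hp S => by
        have := hE2 p hp S
        unfold at' len at this
        rw [mul_comm] at this
        exact this)
    (fun w z _ z' _ _ => hEh w z z')
  -- word `X`
  have e25 : (2 : ℝ) ^ 25 * σ ^ (2 / 5 : ℝ) * V ≤ (64 * σ ^ (1 / 10 : ℝ)) ^ 4 * (10 * V) := by
    have e : (σ ^ (1 / 10 : ℝ)) ^ 4 = σ ^ (2 / 5 : ℝ) := by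
      rw [← Real.rpow_natCast, ← Real.rpow_mul hσ.le]
      norm_num
    rw [mul_pow, e]
    have : 0 < σ ^ (2 / 5 : ℝ) * V := mul_pos (Real.rpow_pos_of_pos hσ _) hV
    nlinarith
  have wX := hX bb hbb R J hR.reg j T g F X (10 * V) (64 * σ ^ (1 / 10 : ℝ)) (4 / σ)
    (σ ^ (-(2 / k))) σ (by positivity)
    (by have := Real.rpow_pos_of_pos hσ (1 / 10 : ℝ); positivity)
    (by
      have h1 : σ ^ (1 / 10 : ℝ) ≤ (1 / 2 ^ 60 : ℝ) ^ (1 / 10 : ℝ) :=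
        Real.rpow_le_rpow hσ.le hσs (by norm_num)
      have h2 : (1 / 2 ^ 60 : ℝ) ^ (1 / 10 : ℝ) = 1 / 64 := by
        have : (1 / 2 ^ 60 : ℝ) = (1 / 64) ^ (10 : ℕ) := by norm_num
        rw [this, ← Real.rpow_natCast, ← Real.rpow_mul (by norm_num)]
        norm_num
      rw [h2] at h1
      linarith)
    (by rw [le_div_iff₀ hσ]; linarith)
    (by
      have := one_le_neg hσ hσ1 (show (0 : ℝ) ≤ 2 / k by positivity)
      exact this) hσ hg1 hg2 (hn1.trans (by linarith)) (hn2.trans (by linarith)) hFa2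
    (fun p hp => tall_energy hk hσ (hFa p hp)) hFb2
    (fun κ => s2w_mono (s2w_of_XR (M := V) (A := 1) (V := V) (σ := σ) (θ := σ ^ 3) (η := σ ^ 3)
      s0 zero_le_one (by rw [mul_one]) hc0 hG1 hXR) (by nlinarith))
    (fun κ => s4w_mono (s4w_of_XR' (M := V) s0 s1 s2 hσ hσ1 (by positivity) le_rfl le_rfl hV.le
      le_rfl hg0 hc0 hG hXR) e25)
    (fun w z hz z' hz' hy => by
      have h1 := height_of_XR hXR hR.top (Hc := 1 / σ) (fun x _ x' _ y _ => by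
        calc ‖g 0 x x'‖ * ‖G y‖ ≤ 1 * (1 / σ) :=
              mul_le_mul (hg0 x x') (hGh y) (norm_nonneg _) zero_le_one
          _ = _ := one_mul _) w hz hz' hy
      refine h1.trans (le_of_eq ?_)
      ring)
  have nE := num_E hσ hσ1
  have nX := num_X hσ hσ1 hk
  rw [← hlJ] at wE wX
  have hl : 0 < len J := Growth.len_pos J
  have hk1 : (0 : ℝ) < 1 / k := by positivity
  have f1 : K1 * (3 * σ ^ (3 / 2 : ℝ) * (1 + Real.log (2 / σ / (3 * σ ^ (3 / 2 : ℝ)))) * len J * V) ≤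
      153 * K1 * (1 + 1 / k) * σ ^ (1 / 20 : ℝ) * V * len J := by
    have h1 : K1 * (3 * σ ^ (3 / 2 : ℝ) * (1 + Real.log (2 / σ / (3 * σ ^ (3 / 2 : ℝ)))) * len J * V)
        ≤ K1 * (153 * σ ^ (1 / 20 : ℝ) * len J * V) := by
      refine mul_le_mul_of_nonneg_left ?_ hK1
      exact mul_le_mul_of_nonneg_right (mul_le_mul_of_nonneg_right nE hl.le) hV.le
    refine h1.trans ?_
    have h2 : 0 ≤ K1 * (153 * σ ^ (1 / 20 : ℝ) * len J * V) * (1 / k) := by positivity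
    calc _ ≤ K1 * (153 * σ ^ (1 / 20 : ℝ) * len J * V) +
          K1 * (153 * σ ^ (1 / 20 : ℝ) * len J * V) * (1 / k) := by linarith
      _ = _ := by ring
  have f2 : K2 * ((64 * σ ^ (1 / 10 : ℝ) *
      (1 + Real.log (σ ^ (-(2 / k)) / (64 * σ ^ (1 / 10 : ℝ)) ^ 2)) +
      σ * (1 + Real.log (4 / σ))) * len J * (10 * V)) ≤
      25600 * K2 * (1 + 1 / k) * σ ^ (1 / 20 : ℝ) * V * len J := by
    have h1 : K2 * ((64 * σ ^ (1 / 10 : ℝ) *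
      (1 + Real.log (σ ^ (-(2 / k)) / (64 * σ ^ (1 / 10 : ℝ)) ^ 2)) +
      σ * (1 + Real.log (4 / σ))) * len J * (10 * V)) ≤
      K2 * ((2560 * (1 + 1 / k) * σ ^ (1 / 20 : ℝ)) * len J * (10 * V)) := by
      refine mul_le_mul_of_nonneg_left ?_ hK2
      exact mul_le_mul_of_nonneg_right (mul_le_mul_of_nonneg_right nX hl.le) (by positivity)
    refine h1.trans (le_of_eq ?_)
    ring
  calc _ ≤ _ := add_le_add (wE.trans f1) (wX.trans f2)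
    _ = _ := by ring

end Crest.Agent.R079.RuS256
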