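import Crest.Agent.R079.SWd_360

/-! R079, item (c) of 973 / note 1201 (helper261): `labelled24` for a general label vertex `e : Fin 3`
(frozen slot `j.succAbove e`), and the `S₂` bound of the static edge. -/

set_option autoImplicit false
set_option linter.unusedSectionVars false

namespace Crest.Agent.R079.SKx261

open Finset Crest.Agent.R079.Grid Crest.Agent.R079.Pot Crest.Agent.R079.Glue Crest.Agent.R079.R244
  Crest.Agent.R079.F24 Crest.Agent.R079.GlueK Crest.Agent.R079.Sgn Crest.Agent.R079.SWc360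
  Crest.Agent.R079.Growth

/-- line form of the slot `j`, label vertex `e` first -/
def Yl (j : Fin 4) (e : Fin 3) (z u v : ℤ) : ℤ := cf j e * z + cf j (e + 1) * u + cf j (e + 2) * v

/-- `kerF` with the label vertex `e` first -/
noncomputable def kerG (j : Fin 4) (e : Fin 3) (T : Fin 3 → Finset ℤ) (Φ : ℤ → ℤ → ℤ → ℂ) (y : ℤ) :
    ℂ :=
  ∑ z ∈ T e, ∑ u ∈ T (e + 1), ∑ v ∈ T (e + 2), if Yl j e z u v = y then Φ z u v else 0

lemma kerG_0 (j : Fin 4) (T : Fin 3 → Finset ℤ) (Φ : ℤ → ℤ → ℤ → ℂ) (y : ℤ) :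
    kerG j 0 T Φ y = kerF j 1 T Φ y := by
  unfold kerG kerF Yl
  push_cast
  rw [one_mul]

lemma kerG_1 (j : Fin 4) (T : Fin 3 → Finset ℤ) (Φ : ℤ → ℤ → ℤ → ℂ) (y : ℤ) :
    kerG j 1 T Φ y = kerF j 1 T (fun z0 z1 z2 => Φ z1 z2 z0) y := by
  unfold kerG kerF Yl
  push_cast
  rw [one_mul]
  show ∑ z ∈ T 1, ∑ u ∈ T 2, ∑ v ∈ T 0, (if cf j 1 * z + cf j 2 * u + cf j 0 * v = y then
    Φ z u v else 0) = _
  have h1 : ∀ z ∈ T 1, ∑ u ∈ T 2, ∑ v ∈ T 0, (if cf j 1 * z + cf j 2 * u + cf j 0 * v = y then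
    Φ z u v else 0) = ∑ v ∈ T 0, ∑ u ∈ T 2, (if cf j 0 * v + cf j 1 * z + cf j 2 * u = y then
    Φ z u v else 0) := by
    intro z _
    rw [Finset.sum_comm]
    refine Finset.sum_congr rfl fun v _ => Finset.sum_congr rfl fun u _ => ?_
    rw [show cf j 1 * z + cf j 2 * u + cf j 0 * v = cf j 0 * v + cf j 1 * z + cf j 2 * u by ring]
  rw [Finset.sum_congr rfl h1, Finset.sum_comm]

lemma kerG_2 (j : Fin 4) (T : Fin 3 → Finset ℤ) (Φ : ℤ → ℤ → ℤ → ℂ) (y : ℤ) :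
    kerG j 2 T Φ y = kerF j 1 T (fun z0 z1 z2 => Φ z2 z0 z1) y := by
  unfold kerG kerF Yl
  push_cast
  rw [one_mul]
  show ∑ z ∈ T 2, ∑ u ∈ T 0, ∑ v ∈ T 1, (if cf j 2 * z + cf j 0 * u + cf j 1 * v = y then
    Φ z u v else 0) = _
  rw [Finset.sum_comm]
  refine Finset.sum_congr rfl fun u _ => ?_
  rw [Finset.sum_comm]
  refine Finset.sum_congr rfl fun v _ => Finset.sum_congr rfl fun z _ => ?_
  rw [show cf j 2 * z + cf j 0 * u + cf j 1 * v = cf j 0 * u + cf j 1 * v + cf j 2 * z by ring]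

/-- **`labelled24` at a general label vertex** -/
theorem labelled24_g : ∃ K : ℝ, 0 ≤ K ∧ ∃ κ0 : ℕ, ∀ (bb : ℤ), bb = -1 ∨ bb = -7 →
    ∀ (R : Finset (ℕ × ℤ)) (J : ℕ × ℤ), IsRegion R J →
    ∀ (j : Fin 4) (e : Fin 3) (s H : ℝ), 0 < s → s ≤ 1 → 1 ≤ H → ∀ (V : ℝ), 0 ≤ V →
    ∀ {κ : Type} [Fintype κ] [DecidableEq κ] {ι : Type} (S : Finset ι) (lam : ι → ℝ),
      (∀ n ∈ S, 0 ≤ lam n) →
    ∀ (T : Fin 3 → Finset ℤ) (U W : ι → ℤ → ℤ → κ → ℂ) (b : ι → ℤ → ℤ → ℂ) (F : Fin 4 → ℤ → ℂ),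
      S2K S lam R κ0 V (fun n G w => frK j (j.succAbove (e + 2)) (j.succAbove e)
        (j.succAbove (e + 1)) (T e) (T (e + 1)) (U n) G w) (F (j.succAbove (e + 2))) →
      S4K S lam R κ0 V (s ^ 2) (fun n G w => frK j (j.succAbove (e + 2)) (j.succAbove e)
        (j.succAbove (e + 1)) (T e) (T (e + 1)) (U n) G w) (F (j.succAbove (e + 2))) →
      S2Mix S lam R κ0 V (fun n => frz j (j.succAbove e) (j.succAbove (e + 1))
        (j.succAbove (e + 2)) (T (e + 1)) (T (e + 2)) (b n)) (F (j.succAbove e)) →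
      (∀ n ∈ S, ∀ w z z', ‖frz j (j.succAbove e) (j.succAbove (e + 1))
        (j.succAbove (e + 2)) (T (e + 1)) (T (e + 2)) (b n) (F (j.succAbove e)) w z z'‖ ≤ H) →
      S2K S lam R κ0 V (fun n G w x y l => frK j (j.succAbove (e + 1)) (j.succAbove (e + 2))
        (j.succAbove e) (T (e + 2)) (T e) (W n) G w y x l) (F (j.succAbove (e + 1))) →
      S4K S lam R κ0 V (s ^ 2) (fun n G w x y l => frK j (j.succAbove (e + 1))
        (j.succAbove (e + 2)) (j.succAbove e) (T (e + 2)) (T e) (W n) G w y x l)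
        (F (j.succAbove (e + 1))) →
      (∀ y, F j y = ∑ n ∈ S, (lam n : ℂ) *
        kerG j e T (fun z u v => (∑ l, U n z u l * W n v z l) * b n u v) y) →
      ∑ p ∈ R, ∑ x ∈ adm p.1 p.2, ‖Lbox (2 ^ p.1) bb F x‖ ≤
        K * (s * (1 + Real.log (H / s)) * 2 ^ (J.1 + 7) * V) := by
  obtain ⟨K0, hK0, κ0, h0⟩ := labelled24_0
  obtain ⟨K1, hK1, κ1, h1⟩ := labelled24_1
  obtain ⟨K2, hK2, κ2, h2⟩ := labelled24_2
  refine ⟨max K0 (max K1 K2), le_max_of_le_left hK0, max κ0 (max κ1 κ2), ?_⟩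
  intro bb hbb R J hR j e s H hs hs1 hH V hV κ _ _ ι S lam hlam T U W b F a1 a2 a3 a4 a5 a6 a7
  have hmono : ∀ (K' : ℝ), K' ≤ max K0 (max K1 K2) → ∀ X : ℝ, X ≤ K' * (s *
      (1 + Real.log (H / s)) * 2 ^ (J.1 + 7) * V) → X ≤ max K0 (max K1 K2) *
      (s * (1 + Real.log (H / s)) * 2 ^ (J.1 + 7) * V) := by
    intro K' hK' X hX
    refine hX.trans (mul_le_mul_of_nonneg_right hK' ?_)
    have : 0 ≤ Real.log (H / s) := Real.log_nonneg (by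
      rw [le_div_iff₀ hs]; linarith)
    positivity
  have k2 : ∀ (κ' : ℕ), κ' ≤ max κ0 (max κ1 κ2) → ∀ {X : ι → (ℤ → ℂ) → ℤ → ℤ → ℤ → κ → ℂ}
      {G : ℤ → ℂ}, S2K S lam R (max κ0 (max κ1 κ2)) V X G → S2K S lam R κ' V X G :=
    fun κ' hκ' X G h p hp k hk Λ => h p hp k (hk.trans hκ') Λ
  have k4 : ∀ (κ' : ℕ), κ' ≤ max κ0 (max κ1 κ2) → ∀ {X : ι → (ℤ → ℂ) → ℤ → ℤ → ℤ → κ → ℂ}
      {G : ℤ → ℂ}, S4K S lam R (max κ0 (max κ1 κ2)) V (s ^ 2) X G → S4K S lam R κ' V (s ^ 2) X G :=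
    fun κ' hκ' X G h p hp k hk Λ => h p hp k (hk.trans hκ') Λ
  have km : ∀ (κ' : ℕ), κ' ≤ max κ0 (max κ1 κ2) → ∀ {X : ι → (ℤ → ℂ) → ℤ → ℤ → ℤ → ℂ}
      {G : ℤ → ℂ}, S2Mix S lam R (max κ0 (max κ1 κ2)) V X G → S2Mix S lam R κ' V X G :=
    fun κ' hκ' X G h p hp k hk => h p hp k (hk.trans hκ')
  fin_cases e
  · have c0 : κ0 ≤ max κ0 (max κ1 κ2) := le_max_left _ _
    refine hmono K0 (le_max_left _ _) _ ?_
    exact h0 bb hbb R J hR j s H hs hs1 hH V hV S lam hlam T U W b F (k2 _ c0 a1) (k4 _ c0 a2)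
      (km _ c0 a3) a4 (k2 _ c0 a5) (k4 _ c0 a6) (fun y => (a7 y).trans
        (Finset.sum_congr rfl fun n _ => congrArg (fun x => (lam n : ℂ) * x) (kerG_0 j T _ y)))
  · have c1 : κ1 ≤ max κ0 (max κ1 κ2) := (le_max_left _ _).trans (le_max_right _ _)
    refine hmono K1 ((le_max_left _ _).trans (le_max_right _ _)) _ ?_
    exact h1 bb hbb R J hR j s H hs hs1 hH V hV S lam hlam T U W b F (k2 _ c1 a1) (k4 _ c1 a2)
      (km _ c1 a3) a4 (k2 _ c1 a5) (k4 _ c1 a6) (fun y => (a7 y).trans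
        (Finset.sum_congr rfl fun n _ => congrArg (fun x => (lam n : ℂ) * x) (kerG_1 j T _ y)))
  · have c2 : κ2 ≤ max κ0 (max κ1 κ2) := (le_max_right _ _).trans (le_max_right _ _)
    refine hmono K2 ((le_max_right _ _).trans (le_max_right _ _)) _ ?_
    exact h2 bb hbb R J hR j s H hs hs1 hH V hV S lam hlam T U W b F (k2 _ c2 a1) (k4 _ c2 a2)
      (km _ c2 a3) a4 (k2 _ c2 a5) (k4 _ c2 a6) (fun y => (a7 y).trans
        (Finset.sum_congr rfl fun n _ => congrArg (fun x => (lam n : ℂ) * x) (kerG_2 j T _ y)))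

/-- `S₂` bound of the static edge -/
theorem s2mix_of {ι : Type} (S : Finset ι) (lam : ι → ℝ) (hlam : ∀ n ∈ S, 0 ≤ lam n)
    (R : Finset (ℕ × ℤ)) (κ0 : ℕ) (V V' : ℝ) (T T' : Finset ℤ) {j k e f : Fin 4} (hj : j ≠ k)
    (b : ι → ℤ → ℤ → ℂ) (F : Fn) {A : ℝ} (hA0 : 0 ≤ A)
    (hA : ∀ p ∈ R, ∑ y ∈ iv p, ‖F y‖ ^ 2 ≤ A * len p)
    (hV : ∑ n ∈ S, lam n * ∑ z ∈ T, ∑ x ∈ T', ‖b n z x‖ ^ 2 ≤ V) (hVV : A * V ≤ V') :
    S2Mix S lam R κ0 V' (fun n => frz j k e f T T' (b n)) F := by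
  have h := s2K_frK (κ := Unit) S lam hlam R κ0 V V' T T' (e := e) (f := f) hj
    (fun n z x _ => b n z x) F hA0 hA (by
      refine le_trans (le_of_eq ?_) hV
      refine Finset.sum_congr rfl fun n _ => ?_
      congr 1
      refine Finset.sum_congr rfl fun z hz => Finset.sum_congr rfl fun x hx => ?_
      unfold kD mU
      simp [hz, hx]) hVV
  intro p hp k' hk'
  refine mix_finsum _ _ _ (fun n _ => supp_frz (Sgn.sl_ne hj) T T' _ p F _ e2 e2_congr e2_zero) _ ?_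
  intro Λ
  refine le_trans (le_of_eq ?_) (h p hp k' hk' Λ)
  refine Finset.sum_congr rfl fun n _ => ?_
  congr 1
  refine Finset.sum_congr rfl fun t _ => ?_
  unfold e2 e2K frz frK
  simp

end Crest.Agent.R079.SKx261
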