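import Crest.Agent.R079.SWd_360

/-! R079, item (c) of 973 / note 1201 (helper261): frames made of several cells per row.

`γ` = cells (without the fibre), `τ` = columns (labels inside a cell).  For every fibre `z` and cell
`c` the labelled kernel is dominated by `(c0 / 2^m) B B*`, `B` a kernel supported on the columns
`[a c, a c + 2^m)`, with normalised operator bound `ρ` on all aligned boxes of the scales of the
nodes; every row meets at most `M` cells.  Then `HSk`, trace and diagonal bounds. -/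

set_option autoImplicit false
set_option linter.unusedSectionVars false

namespace Crest.Agent.R079.SKx261

open Finset Crest.Agent.R079.Grid Crest.Agent.R079.Glue Crest.Agent.R079.R244
  Crest.Agent.R079.Growth Crest.Agent.R079.Sgn Crest.Agent.R079.SWc360 Crest.Agent.R079.ExA999
  Crest.Agent.R079.ClW59

open scoped ComplexConjugate

/-- few nonzero terms -/
theorem norm_sum_sq_le_card {γ : Type} [Fintype γ] (a : γ → ℂ) (A : Finset γ) {M : ℝ}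
    (hA : (A.card : ℝ) ≤ M) (h0 : ∀ c ∉ A, a c = 0) : ‖∑ c, a c‖ ^ 2 ≤ M * ∑ c, ‖a c‖ ^ 2 := by
  classical
  have h1 : ∑ c, a c = ∑ c ∈ A, a c := by
    symm
    exact Finset.sum_subset (Finset.subset_univ A) fun c _ hc => h0 c hc
  rw [h1]
  have h2 : ‖∑ c ∈ A, a c‖ ^ 2 ≤ (∑ c ∈ A, ‖a c‖) ^ 2 :=
    pow_le_pow_left₀ (norm_nonneg _) (norm_sum_le _ _) 2
  have h3 : (∑ c ∈ A, ‖a c‖) ^ 2 ≤ A.card * ∑ c ∈ A, ‖a c‖ ^ 2 := sq_sum_le_card_mul_sum_sq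
  have h4 : ∑ c ∈ A, ‖a c‖ ^ 2 ≤ ∑ c, ‖a c‖ ^ 2 :=
    Finset.sum_le_sum_of_subset_of_nonneg (Finset.subset_univ A) fun _ _ _ => sq_nonneg _
  have h5 : 0 ≤ ∑ c ∈ A, ‖a c‖ ^ 2 := Finset.sum_nonneg fun _ _ => sq_nonneg _
  have hM : 0 ≤ M := (Nat.cast_nonneg _).trans hA
  calc ‖∑ c ∈ A, a c‖ ^ 2 ≤ A.card * ∑ c ∈ A, ‖a c‖ ^ 2 := h2.trans h3
    _ ≤ M * ∑ c ∈ A, ‖a c‖ ^ 2 := mul_le_mul_of_nonneg_right hA h5
    _ ≤ _ := mul_le_mul_of_nonneg_left h4 hM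

section

variable {γ τ : Type} [Fintype γ] [DecidableEq γ] [Fintype τ] [DecidableEq τ] {ι : Type}

/-- data of a family of frames made of cells -/
structure CellFr (S : Finset ι) (T T' : Finset ℤ) (m : γ → ℕ) (a : γ → ℤ)
    (B : ι → ℤ → γ → ℤ → ℤ → ℂ) (U : ι → ℤ → ℤ → γ × τ → ℂ) (c0 M : ℝ) : Prop where
  hc : 0 ≤ c0
  hM : 0 ≤ M
  maj : ∀ n ∈ S, ∀ z ∈ T, ∀ c, ∀ (q : ℤ) (N : ℕ) (f : ℕ → ℂ),
    ∑ k, ‖∑ j ∈ range N, f j * mU T T' (U n) z (q + (j : ℤ)) (c, k)‖ ^ 2 ≤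
      (c0 / 2 ^ m c) * ∑ y ∈ Ico (a c) (a c + 2 ^ m c),
        ‖∑ j ∈ range N, f j * B n z c (q + (j : ℤ)) y‖ ^ 2
  supp : ∀ n ∈ S, ∀ z ∈ T, ∀ c y, ¬ (a c ≤ y ∧ y < a c + 2 ^ m c) → ∀ x, B n z c x y = 0
  row : ∀ n ∈ S, ∀ z ∈ T, ∀ c, ∀ x ∉ T', ∀ y, B n z c x y = 0
  mult : ∀ n ∈ S, ∀ z ∈ T, ∀ x, ∃ A : Finset γ, (A.card : ℝ) ≤ M ∧
    ∀ c ∉ A, ∀ k, mU T T' (U n) z x (c, k) = 0

/-- the weighted energy -/
noncomputable def GE (S : Finset ι) (lam : ι → ℝ) (T T' : Finset ℤ) (m : γ → ℕ) (a : γ → ℤ)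
    (B : ι → ℤ → γ → ℤ → ℤ → ℂ) : ℝ :=
  ∑ n ∈ S, lam n * ∑ z ∈ T, ∑ c, (1 / (2 : ℝ) ^ m c) * ∑ x ∈ T',
    ∑ y ∈ Ico (a c) (a c + 2 ^ m c), ‖B n z c x y‖ ^ 2

variable {S : Finset ι} {T T' : Finset ℤ} {m : γ → ℕ} {a : γ → ℤ}
  {B : ι → ℤ → γ → ℤ → ℤ → ℂ} {U : ι → ℤ → ℤ → γ × τ → ℂ} {c0 M : ℝ}

/-- diagonal of one cell -/
theorem CellFr.diag (h : CellFr S T T' m a B U c0 M) {n : ι} (hn : n ∈ S) {z : ℤ} (hz : z ∈ T)
    (c : γ) (x : ℤ) : ∑ k, ‖mU T T' (U n) z x (c, k)‖ ^ 2 ≤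
      (c0 / 2 ^ m c) * ∑ y ∈ Ico (a c) (a c + 2 ^ m c), ‖B n z c x y‖ ^ 2 := by
  have h1 := h.maj n hn z hz c x 1 (fun _ => 1)
  simpa using h1

/-- **trace** -/
theorem CellFr.trace (h : CellFr S T T' m a B U c0 M) {lam : ι → ℝ} (hlam : ∀ n ∈ S, 0 ≤ lam n) :
    ∑ n ∈ S, lam n * ∑ z ∈ T, ∑ x ∈ T', kD T T' (U n) z x ≤ c0 * GE S lam T T' m a B := by
  unfold GE
  rw [Finset.mul_sum]
  refine Finset.sum_le_sum fun n hn => ?_
  rw [mul_left_comm]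
  refine mul_le_mul_of_nonneg_left ?_ (hlam n hn)
  rw [Finset.mul_sum]
  refine Finset.sum_le_sum fun z hz => ?_
  have h1 : ∀ x, kD T T' (U n) z x ≤ ∑ c, (c0 / 2 ^ m c) *
      ∑ y ∈ Ico (a c) (a c + 2 ^ m c), ‖B n z c x y‖ ^ 2 := by
    intro x
    unfold kD
    rw [Fintype.sum_prod_type]
    exact Finset.sum_le_sum fun c _ => h.diag hn hz c x
  refine (Finset.sum_le_sum fun x _ => h1 x).trans (le_of_eq ?_)
  rw [Finset.sum_comm, Finset.mul_sum]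
  refine Finset.sum_congr rfl fun c _ => ?_
  rw [← Finset.mul_sum]
  ring

/-- **diagonal** -/
theorem CellFr.kD_le (h : CellFr S T T' m a B U c0 M) {Hr : ℝ} (hHr : 0 ≤ Hr)
    (hB : ∀ n ∈ S, ∀ z ∈ T, ∀ c x, ∑ y ∈ Ico (a c) (a c + 2 ^ m c), ‖B n z c x y‖ ^ 2 ≤
      Hr * 2 ^ m c) {n : ι} (hn : n ∈ S) (z x : ℤ) : kD T T' (U n) z x ≤ M * (c0 * Hr) := by
  classical
  have hM := h.hM
  have hc0 := h.hc
  by_cases hz : z ∈ T
  · obtain ⟨A, hA, hA0⟩ := h.mult n hn z hz x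
    unfold kD
    rw [Fintype.sum_prod_type]
    have h1 : ∑ c, ∑ k, ‖mU T T' (U n) z x (c, k)‖ ^ 2 =
        ∑ c ∈ A, ∑ k, ‖mU T T' (U n) z x (c, k)‖ ^ 2 := by
      symm
      refine Finset.sum_subset (Finset.subset_univ A) fun c _ hc => ?_
      exact Finset.sum_eq_zero fun k _ => by rw [hA0 c hc k]; simp
    rw [h1]
    have h2 : ∀ c ∈ A, ∑ k, ‖mU T T' (U n) z x (c, k)‖ ^ 2 ≤ c0 * Hr := by
      intro c _
      refine (h.diag hn hz c x).trans ?_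
      refine (mul_le_mul_of_nonneg_left (hB n hn z hz c x) (by positivity)).trans (le_of_eq ?_)
      field_simp
    refine (Finset.sum_le_sum h2).trans ?_
    rw [Finset.sum_const, nsmul_eq_mul]
    exact mul_le_mul_of_nonneg_right hA (by positivity)
  · rw [kD_zero_left hz]
    positivity

/-- **`HSk`** -/
theorem CellFr.hsk (h : CellFr S T T' m a B U c0 M) {lam : ι → ℝ} (hlam : ∀ n ∈ S, 0 ≤ lam n)
    {R : Finset (ℕ × ℤ)} {κ0 : ℕ} {ρ : ℝ}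
    (hm : ∀ c, ∀ p ∈ R, p.1 + κ0 ≤ m c)
    (hop : ∀ n ∈ S, ∀ z ∈ T, ∀ c, ∀ p ∈ R, ∀ k ≤ κ0, ∀ i i',
      OpS (dI (p.1 + k) i) (dI (p.1 + k) i') (B n z c) (ρ * 2 ^ (p.1 + k))) :
    HSk S lam R κ0 (M * (8 * (c0 * ρ) ^ 2) * GE S lam T T' m a B) T T' U := by
  classical
  intro p hp k hk Λ
  set N : ℕ := 2 ^ (p.1 + k) with hN
  have hN0 : 0 < N := by positivity
  have hN' : (0 : ℝ) < N := by exact_mod_cast hN0
  have eN : ((N : ℕ) : ℝ) = 2 ^ (p.1 + k) := by rw [hN]; push_cast; rfl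
  have hM := h.hM
  have hc0 := h.hc
  unfold GE
  rw [Finset.mul_sum]
  refine Finset.sum_le_sum fun n hn => ?_
  rw [mul_left_comm]
  refine mul_le_mul_of_nonneg_left ?_ (hlam n hn)
  rw [Finset.sum_comm, Finset.mul_sum]
  refine Finset.sum_le_sum fun z hz => ?_
  -- one position
  have h1 : ∀ r0 : ℤ, (1 / (N : ℝ) ^ 2) * ∑ j ∈ range N, ∑ j' ∈ range N,
      ‖kK T T' (U n) z (r0 + (j : ℤ)) (r0 + (j' : ℤ))‖ ^ 2 ≤
      ∑ c, M * (8 * (c0 * ρ) ^ 2 * ((1 / ((2 ^ m c : ℝ) * N)) *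
        ∑ j ∈ range N, ∑ y ∈ Ico (a c) (a c + 2 ^ m c), ‖B n z c (r0 + (j : ℤ)) y‖ ^ 2)) := by
    intro r0
    have h2 : ∀ x x' : ℤ, ‖kK T T' (U n) z x x'‖ ^ 2 ≤ M * ∑ c,
        ‖∑ l, mU T T' (U n) z x (c, l) * conj (mU T T' (U n) z x' (c, l))‖ ^ 2 := by
      intro x x'
      obtain ⟨A, hA, hA0⟩ := h.mult n hn z hz x
      unfold kK
      rw [Fintype.sum_prod_type]
      refine norm_sum_sq_le_card _ A hA fun c hc => ?_
      exact Finset.sum_eq_zero fun l _ => by rw [hA0 c hc l, zero_mul]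
    have h3 : ∀ c, (1 / (N : ℝ) ^ 2) * ∑ j ∈ range N, ∑ j' ∈ range N,
        ‖∑ l, mU T T' (U n) z (r0 + (j : ℤ)) (c, l) *
          conj (mU T T' (U n) z (r0 + (j' : ℤ)) (c, l))‖ ^ 2 ≤
        8 * (c0 * ρ) ^ 2 * ((1 / ((2 ^ m c : ℝ) * N)) *
        ∑ j ∈ range N, ∑ y ∈ Ico (a c) (a c + 2 ^ m c), ‖B n z c (r0 + (j : ℤ)) y‖ ^ 2) := by
      intro c
      have e2 : (((2 ^ m c : ℕ) : ℤ)) = 2 ^ m c := by push_cast; rfl
      have e2' : (((2 ^ m c : ℕ) : ℝ)) = 2 ^ m c := by push_cast; rfl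
      have h4 := hs_box_cells (κ := τ) (B n z c) (p.1 + k) ρ c0 hc0 (hop n hn z hz c p hp k hk)
        (a c) (2 ^ m c) (Nat.pow_le_pow_right (by norm_num) (by have := hm c p hp; omega)) r0
        (by rw [e2]; exact h.supp n hn z hz c) (fun x l => mU T T' (U n) z x (c, l))
        (by
          intro f
          rw [e2, e2']
          exact h.maj n hn z hz c r0 _ f)
      rw [← hN, e2, e2', ← eN] at h4
      rw [Finset.sum_comm (s := Ico (a c) (a c + 2 ^ m c))] at h4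
      exact h4
    have h5 : (1 / (N : ℝ) ^ 2) * ∑ j ∈ range N, ∑ j' ∈ range N,
        ‖kK T T' (U n) z (r0 + (j : ℤ)) (r0 + (j' : ℤ))‖ ^ 2 ≤
        ∑ c, M * ((1 / (N : ℝ) ^ 2) * ∑ j ∈ range N, ∑ j' ∈ range N,
        ‖∑ l, mU T T' (U n) z (r0 + (j : ℤ)) (c, l) *
          conj (mU T T' (U n) z (r0 + (j' : ℤ)) (c, l))‖ ^ 2) := by
      have h6 : ∑ j ∈ range N, ∑ j' ∈ range N,
          ‖kK T T' (U n) z (r0 + (j : ℤ)) (r0 + (j' : ℤ))‖ ^ 2 ≤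
          ∑ j ∈ range N, ∑ j' ∈ range N, M * ∑ c,
          ‖∑ l, mU T T' (U n) z (r0 + (j : ℤ)) (c, l) *
            conj (mU T T' (U n) z (r0 + (j' : ℤ)) (c, l))‖ ^ 2 :=
        Finset.sum_le_sum fun j _ => Finset.sum_le_sum fun j' _ => h2 _ _
      have h7 : ∑ j ∈ range N, ∑ j' ∈ range N, M * ∑ c,
          ‖∑ l, mU T T' (U n) z (r0 + (j : ℤ)) (c, l) *
            conj (mU T T' (U n) z (r0 + (j' : ℤ)) (c, l))‖ ^ 2 =
          ∑ c, M * ∑ j ∈ range N, ∑ j' ∈ range N,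
          ‖∑ l, mU T T' (U n) z (r0 + (j : ℤ)) (c, l) *
            conj (mU T T' (U n) z (r0 + (j' : ℤ)) (c, l))‖ ^ 2 := by
        simp only [Finset.mul_sum]
        have e3 : ∀ j ∈ range N, ∑ j' ∈ range N, ∑ c, M *
            ‖∑ l, mU T T' (U n) z (r0 + (j : ℤ)) (c, l) *
              conj (mU T T' (U n) z (r0 + (j' : ℤ)) (c, l))‖ ^ 2 =
            ∑ c, ∑ j' ∈ range N, M *
            ‖∑ l, mU T T' (U n) z (r0 + (j : ℤ)) (c, l) *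
              conj (mU T T' (U n) z (r0 + (j' : ℤ)) (c, l))‖ ^ 2 := fun j _ => Finset.sum_comm
        rw [Finset.sum_congr rfl e3, Finset.sum_comm]
      refine (mul_le_mul_of_nonneg_left (h6.trans (le_of_eq h7)) (by positivity)).trans
        (le_of_eq ?_)
      rw [Finset.mul_sum]
      exact Finset.sum_congr rfl fun c _ => by ring
    refine h5.trans (Finset.sum_le_sum fun c _ => ?_)
    exact mul_le_mul_of_nonneg_left (h3 c) hM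
  refine (Finset.sum_le_sum fun r0 _ => h1 r0).trans ?_
  rw [Finset.sum_comm, Finset.mul_sum]
  refine Finset.sum_le_sum fun c _ => ?_
  have h8 := sum_pos_le N Λ T' (fun x => ∑ y ∈ Ico (a c) (a c + 2 ^ m c), ‖B n z c x y‖ ^ 2)
    (fun x => Finset.sum_nonneg fun _ _ => sq_nonneg _)
    (fun x hx => Finset.sum_eq_zero fun y _ => by rw [h.row n hn z hz c x hx y]; simp)
  have hm2 : (0 : ℝ) < 2 ^ m c := by positivity
  calc ∑ r0 ∈ Λ, M * (8 * (c0 * ρ) ^ 2 * ((1 / ((2 ^ m c : ℝ) * N)) *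
        ∑ j ∈ range N, ∑ y ∈ Ico (a c) (a c + 2 ^ m c), ‖B n z c (r0 + (j : ℤ)) y‖ ^ 2))
      = M * (8 * (c0 * ρ) ^ 2 * ((1 / ((2 ^ m c : ℝ) * N)) * ∑ r0 ∈ Λ,
        ∑ j ∈ range N, ∑ y ∈ Ico (a c) (a c + 2 ^ m c), ‖B n z c (r0 + (j : ℤ)) y‖ ^ 2)) := by
        simp only [Finset.mul_sum]
    _ ≤ M * (8 * (c0 * ρ) ^ 2 * ((1 / ((2 ^ m c : ℝ) * N)) * (N * ∑ x ∈ T',
        ∑ y ∈ Ico (a c) (a c + 2 ^ m c), ‖B n z c x y‖ ^ 2))) := by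
        refine mul_le_mul_of_nonneg_left ?_ hM
        refine mul_le_mul_of_nonneg_left ?_ (by positivity)
        exact mul_le_mul_of_nonneg_left h8 (by positivity)
    _ = _ := by field_simp

end

end Crest.Agent.R079.SKx261
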