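import Crest.Agent.R079.NonCol_37
import Crest.Agent.R079.PLS4_242

/-! R079, Step I, (S) words (helper360): **the two `S₄` costs** of the structured letter
(item (d) of the port map 973, the old `SWc`), in the form `Sgn.S2K` / `Sgn.S4K` of
`labelled24_0/_1/_2`.

`kK U z x x' = ∑_l U z x l conj (U z x' l)` is the frame of the labelled kernel `U` at the vertex
`z`.  For a function `F` with `∑_{iv p} |F|² ≤ A len p`, whose correlations are `≤ g len p` off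
`d len p` shifts (`NCs`, = the conclusion of `NonCol37.noncoll_set`), and a labelled kernel with
trace `≤ V`, leaf cost `≤ η V` (`HSk`) and diagonal `≤ Hk`:

  `S4K .. V σ ..` with `σ = 2^7 g² η + 2^14 A² d Hk + 2^8 A² Hk / 2^m0`   (killer edge),

any height of `F`.  The partner edge (Young) is the case `g = A`, `d = 0`. -/

set_option autoImplicit false
set_option linter.unusedSectionVars false

namespace Crest.Agent.R079.SWc360

open Finset Crest.Agent.R079.Grid Crest.Agent.R079.Glue Crest.Agent.R079.R244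
  Crest.Agent.R079.Growth Crest.Agent.R079.Cell37 Crest.Agent.R079.CellH237
  Crest.Agent.R079.Hank37 Crest.Agent.R079.Sgn

/-! ### Hankel kernels in `ℓ²` form -/

/-- `ℓ²` form of the Hankel bound -/
theorem hankel_l2 (Z : Finset ℤ) (k : ℤ → ℂ) (hk : ∀ z ∉ Z, k z = 0) {α β : ℤ} (hα : α ≠ 0)
    (hβ : β ≠ 0) (c : ℤ) {B : ℝ} (hB : ∀ ξ : ℝ, ‖∑ z ∈ Z, k z * ee (ξ * (z : ℝ))‖ ≤ B)
    (X Y : Finset ℤ) (f : ℤ → ℂ) :
    ∑ x ∈ X, ‖∑ y ∈ Y, f y * k (α * x + β * y + c)‖ ^ 2 ≤ B ^ 2 * ∑ y ∈ Y, ‖f y‖ ^ 2 := by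
  have hB0 : 0 ≤ B := (norm_nonneg _).trans (hB 0)
  set v : ℤ → ℂ := fun x => ∑ y ∈ Y, f y * k (α * x + β * y + c) with hv
  set S : ℝ := ∑ x ∈ X, ‖v x‖ ^ 2 with hS
  set T : ℝ := ∑ y ∈ Y, ‖f y‖ ^ 2 with hT
  have hS0 : 0 ≤ S := Finset.sum_nonneg fun _ _ => sq_nonneg _
  have hT0 : 0 ≤ T := Finset.sum_nonneg fun _ _ => sq_nonneg _
  have h := hankel_op Z X Y k (fun x => (starRingEnd ℂ) (v x)) f hα hβ c hB
  have h1 : ∀ z, (if z ∈ Z then k z else 0) = k z := by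
    intro z
    split_ifs with hz
    · rfl
    · exact (hk z hz).symm
  simp only [h1] at h
  have h2 : ∑ x ∈ X, ∑ y ∈ Y, k (α * x + β * y + c) * (starRingEnd ℂ) (v x) * f y = (S : ℂ) := by
    rw [hS]
    push_cast
    refine Finset.sum_congr rfl fun x _ => ?_
    have : ∑ y ∈ Y, k (α * x + β * y + c) * (starRingEnd ℂ) (v x) * f y =
        (starRingEnd ℂ) (v x) * v x := by
      rw [hv]
      simp only
      rw [Finset.mul_sum]
      exact Finset.sum_congr rfl fun y _ => by ring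
    rw [this, mul_comm, Complex.mul_conj, Complex.normSq_eq_norm_sq]
    push_cast
    rfl
  rw [h2] at h
  have h3 : ∑ x ∈ X, ‖(starRingEnd ℂ) (v x)‖ ^ 2 = S := by
    rw [hS]
    exact Finset.sum_congr rfl fun x _ => by rw [RCLike.norm_conj]
  rw [h3] at h
  have h4 : ‖(S : ℂ)‖ = S := by
    rw [Complex.norm_real, Real.norm_of_nonneg hS0]
  rw [h4] at h
  rcases eq_or_lt_of_le hS0 with h5 | h5
  · rw [← h5]; positivity
  · have h6 : 0 < Real.sqrt S := Real.sqrt_pos.2 h5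
    have h7 : Real.sqrt S * Real.sqrt S = S := Real.mul_self_sqrt hS0
    have h8 : Real.sqrt S ≤ B * Real.sqrt T := by
      have : Real.sqrt S * Real.sqrt S ≤ (B * Real.sqrt T) * Real.sqrt S := by
        rw [h7]; linarith [h]
      exact le_of_mul_le_mul_right this h6
    calc S = Real.sqrt S ^ 2 := by rw [sq, h7]
      _ ≤ (B * Real.sqrt T) ^ 2 := pow_le_pow_left₀ h6.le h8 2
      _ = B ^ 2 * T := by rw [mul_pow, Real.sq_sqrt hT0]

/-! ### injective sums -/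

/-- a sum along an arithmetic progression is at most the whole sum -/
theorem sum_prog_le {β : ℤ} (hβ : β ≠ 0) (c : ℤ) (Z Y : Finset ℤ) (φ : ℤ → ℝ)
    (h0 : ∀ y, 0 ≤ φ y) (hZ : ∀ y ∉ Z, φ y = 0) :
    ∑ y ∈ Y, φ (β * y + c) ≤ ∑ z ∈ Z, φ z := by
  classical
  have h1 : ∑ y ∈ Y, φ (β * y + c) = ∑ z ∈ Y.image (fun y => β * y + c), φ z := by
    rw [Finset.sum_image]
    intro x _ y _ h
    have h2 : β * x = β * y := by
      have : β * x + c = β * y + c := h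
      linarith
    exact mul_left_cancel₀ hβ h2
  rw [h1]
  have h2 : ∑ z ∈ Y.image (fun y => β * y + c), φ z ≤
      ∑ z ∈ Y.image (fun y => β * y + c) ∪ Z, φ z :=
    Finset.sum_le_sum_of_subset_of_nonneg Finset.subset_union_left fun _ _ _ => h0 _
  refine h2.trans (le_of_eq ?_)
  symm
  apply Finset.sum_subset Finset.subset_union_right
  intro x _ hx
  exact hZ x hx

/-- range sum as a sum over an interval -/
theorem sum_range_Ico {M : Type*} [AddCommMonoid M] (N : ℕ) (q : ℤ) (φ : ℤ → M) :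
    ∑ i ∈ range N, φ (q + (i : ℤ)) = ∑ z ∈ Ico q (q + N), φ z := by
  refine Finset.sum_bij (fun i _ => q + (i : ℤ)) ?_ ?_ ?_ ?_
  · intro i hi
    rw [Finset.mem_range] at hi
    rw [Finset.mem_Ico]
    omega
  · intro i _ i' _ h
    have : (i : ℤ) = i' := by linarith
    exact_mod_cast this
  · intro z hz
    rw [Finset.mem_Ico] at hz
    refine ⟨(z - q).toNat, ?_, ?_⟩
    · rw [Finset.mem_range]; omega
    · omega
  · intro i _; rfl

/-- sum over the box positions -/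
theorem sum_pos_le (N : ℕ) (Λ T : Finset ℤ) (φ : ℤ → ℝ) (h0 : ∀ z, 0 ≤ φ z)
    (hT : ∀ z ∉ T, φ z = 0) :
    ∑ q ∈ Λ, ∑ i ∈ range N, φ (q + (i : ℤ)) ≤ N * ∑ z ∈ T, φ z := by
  rw [Finset.sum_comm]
  have h1 : ∀ i ∈ range N, ∑ q ∈ Λ, φ (q + (i : ℤ)) ≤ ∑ z ∈ T, φ z := by
    intro i _
    have := sum_prog_le (β := 1) one_ne_zero (i : ℤ) T Λ φ h0 hT
    simpa only [one_mul] using this
  refine (Finset.sum_le_sum h1).trans (le_of_eq ?_)
  rw [Finset.sum_const, Finset.card_range, nsmul_eq_mul]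

/-! ### frames of labelled kernels -/

variable {κ : Type} [Fintype κ] [DecidableEq κ]

/-- labelled kernel times a line function -/
noncomputable def XU (T T' : Finset ℤ) (α γ δ : ℤ) (U : ℤ → ℤ → κ → ℂ) (G : ℤ → ℂ)
    (w z z' : ℤ) (l : κ) : ℂ :=
  if z ∈ T ∧ z' ∈ T' then U z z' l * G (α * w + γ * z + δ * z') else 0

theorem frK_eq (j k e f : Fin 4) (T T' : Finset ℤ) (U : ℤ → ℤ → κ → ℂ) (G : ℤ → ℂ) :
    frK j k e f T T' U G = XU T T' (sl j - sl k) (sl e - sl k) (sl f - sl k) U G := rfl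

theorem frK_swap (j k e f : Fin 4) (T T' : Finset ℤ) (W : ℤ → ℤ → κ → ℂ) (G : ℤ → ℂ) (w : ℤ) :
    (fun x y l => frK j k e f T T' W G w y x l) =
      XU T' T (sl j - sl k) (sl f - sl k) (sl e - sl k) (fun x y l => W y x l) G w := by
  funext x y l
  unfold frK XU
  have e : (sl j - sl k) * w + (sl e - sl k) * y + (sl f - sl k) * x =
      (sl j - sl k) * w + (sl f - sl k) * x + (sl e - sl k) * y := by ring
  rw [e]
  by_cases h1 : x ∈ T' <;> by_cases h2 : y ∈ T <;> simp [h1, h2]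

/-- masked labelled kernel -/
noncomputable def mU (T T' : Finset ℤ) (U : ℤ → ℤ → κ → ℂ) (z x : ℤ) (l : κ) : ℂ :=
  if z ∈ T ∧ x ∈ T' then U z x l else 0

/-- **frame** at the vertex `z` (masked) -/
noncomputable def kK (T T' : Finset ℤ) (U : ℤ → ℤ → κ → ℂ) (z x x' : ℤ) : ℂ :=
  ∑ l, mU T T' U z x l * (starRingEnd ℂ) (mU T T' U z x' l)

/-- diagonal of the frame -/
noncomputable def kD (T T' : Finset ℤ) (U : ℤ → ℤ → κ → ℂ) (z x : ℤ) : ℝ :=
  ∑ l, ‖mU T T' U z x l‖ ^ 2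

theorem kD_nonneg (T T' : Finset ℤ) (U : ℤ → ℤ → κ → ℂ) (z x : ℤ) : 0 ≤ kD T T' U z x :=
  Finset.sum_nonneg fun _ _ => sq_nonneg _

theorem mU_zero_left {T T' : Finset ℤ} {U : ℤ → ℤ → κ → ℂ} {z x : ℤ} (h : z ∉ T) (l : κ) :
    mU T T' U z x l = 0 := by
  unfold mU
  rw [if_neg fun hh => h hh.1]

theorem mU_zero_right {T T' : Finset ℤ} {U : ℤ → ℤ → κ → ℂ} {z x : ℤ} (h : x ∉ T') (l : κ) :
    mU T T' U z x l = 0 := by
  unfold mU
  rw [if_neg fun hh => h hh.2]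

theorem kK_zero {T T' : Finset ℤ} {U : ℤ → ℤ → κ → ℂ} {z : ℤ} (h : z ∉ T) (x x' : ℤ) :
    kK T T' U z x x' = 0 := by
  unfold kK
  exact Finset.sum_eq_zero fun l _ => by rw [mU_zero_left h, zero_mul]

theorem kD_zero_left {T T' : Finset ℤ} {U : ℤ → ℤ → κ → ℂ} {z : ℤ} (h : z ∉ T) (x : ℤ) :
    kD T T' U z x = 0 := by
  unfold kD
  exact Finset.sum_eq_zero fun l _ => by rw [mU_zero_left h]; simp

theorem kD_zero_right {T T' : Finset ℤ} {U : ℤ → ℤ → κ → ℂ} {z x : ℤ} (h : x ∉ T') :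
    kD T T' U z x = 0 := by
  unfold kD
  exact Finset.sum_eq_zero fun l _ => by rw [mU_zero_right h]; simp

/-- Cauchy-Schwarz for the frame -/
theorem kK_le (T T' : Finset ℤ) (U : ℤ → ℤ → κ → ℂ) (z x x' : ℤ) :
    ‖kK T T' U z x x'‖ ^ 2 ≤ kD T T' U z x * kD T T' U z x' := by
  unfold kK kD
  have h1 : ‖∑ l, mU T T' U z x l * (starRingEnd ℂ) (mU T T' U z x' l)‖ ≤
      ∑ l, ‖mU T T' U z x l‖ * ‖mU T T' U z x' l‖ := by
    refine (norm_sum_le _ _).trans (Finset.sum_le_sum fun l _ => ?_)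
    rw [norm_mul, RCLike.norm_conj]
  refine (pow_le_pow_left₀ (norm_nonneg _) h1 2).trans ?_
  exact Finset.sum_mul_sq_le_sq_mul_sq _ _ _

theorem XU_eq (T T' : Finset ℤ) (α γ δ : ℤ) (U : ℤ → ℤ → κ → ℂ) (G : ℤ → ℂ) (w z z' : ℤ) (l : κ) :
    XU T T' α γ δ U G w z z' l = mU T T' U z z' l * G (α * w + γ * z + δ * z') := by
  unfold XU mU
  split_ifs <;> simp

theorem sum_XU (T T' : Finset ℤ) (α γ δ : ℤ) (U : ℤ → ℤ → κ → ℂ) (G : ℤ → ℂ) (w z x x' : ℤ) :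
    ∑ l, XU T T' α γ δ U G w z x l * (starRingEnd ℂ) (XU T T' α γ δ U G w z x' l) =
      kK T T' U z x x' * (G (α * w + γ * z + δ * x) *
        (starRingEnd ℂ) (G (α * w + γ * z + δ * x'))) := by
  unfold kK
  rw [Finset.sum_mul]
  refine Finset.sum_congr rfl fun l _ => ?_
  rw [XU_eq, XU_eq, map_mul]
  ring

theorem sum_XU_sq (T T' : Finset ℤ) (α γ δ : ℤ) (U : ℤ → ℤ → κ → ℂ) (G : ℤ → ℂ) (w z x : ℤ) :
    ∑ l, ‖XU T T' α γ δ U G w z x l‖ ^ 2 =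
      kD T T' U z x * ‖G (α * w + γ * z + δ * x)‖ ^ 2 := by
  unfold kD
  rw [Finset.sum_mul]
  refine Finset.sum_congr rfl fun l _ => ?_
  rw [XU_eq, norm_mul, mul_pow]

/-- `res` and `cr` -/
theorem res_mul (q : Nd) (F : Fn) (y h : ℤ) :
    res q F y * (starRingEnd ℂ) (res q F (y - h)) = cr q F h y := by
  unfold res cr iv
  by_cases h1 : y ∈ dI (q.1 + 7) q.2 <;> by_cases h2 : y - h ∈ dI (q.1 + 7) q.2 <;> simp [h1, h2]

theorem cr_zero (q : Nd) (F : Fn) (h y : ℤ) (hy : y ∉ iv q) : cr q F h y = 0 := by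
  unfold cr
  rw [if_neg fun hh => hy hh.1]

/-- trivial bound of the correlation -/
theorem acor_le (q : Nd) (F : Fn) (h : ℤ) (ξ : ℝ) :
    ‖acor q F h ξ‖ ≤ ∑ y ∈ iv q, ‖F y‖ ^ 2 := by
  unfold acor
  have h1 : ‖∑ y ∈ iv q, cr q F h y * ee (ξ * (y : ℝ))‖ ≤ ∑ y ∈ iv q, ‖cr q F h y‖ := by
    refine (norm_sum_le _ _).trans (Finset.sum_le_sum fun y _ => ?_)
    rw [norm_mul, norm_ee, mul_one]
  refine h1.trans ?_
  set a : ℤ → ℝ := fun y => if y ∈ iv q then ‖F y‖ ^ 2 else 0 with ha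
  have h2 : ∀ y ∈ iv q, ‖cr q F h y‖ ≤ (a y + a (y - h)) / 2 := by
    intro y hy
    unfold cr
    by_cases h3 : y ∈ iv q ∧ y - h ∈ iv q
    · rw [if_pos h3, norm_mul, RCLike.norm_conj]
      simp only [ha, if_pos h3.1, if_pos h3.2]
      nlinarith [sq_nonneg (‖F y‖ - ‖F (y - h)‖)]
    · rw [if_neg h3, norm_zero]
      simp only [ha]
      split_ifs <;> positivity
  refine (Finset.sum_le_sum h2).trans ?_
  rw [← Finset.sum_div, Finset.sum_add_distrib]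
  have h4 : ∑ y ∈ iv q, a y = ∑ y ∈ iv q, ‖F y‖ ^ 2 :=
    Finset.sum_congr rfl fun y hy => by simp only [ha, if_pos hy]
  have h5 : ∑ y ∈ iv q, a (y - h) ≤ ∑ y ∈ iv q, a y := by
    have := sum_prog_le (β := 1) one_ne_zero (-h) (iv q) (iv q) a
      (fun y => by simp only [ha]; split_ifs <;> positivity)
      (fun y hy => by simp only [ha, if_neg hy])
    simpa only [one_mul, ← sub_eq_add_neg] using this
  linarith

/-! ### one node, one kernel -/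

section node

variable (T T' : Finset ℤ) (α γ δ : ℤ) (U : ℤ → ℤ → κ → ℂ) (q : Nd) (F : Fn)

/-- `S₄` part: sum over the frozen variable and the first box position -/
theorem e4_core (hα : α ≠ 0) (hγ : γ ≠ 0) (M : ℤ → ℝ)
    (hM : ∀ h : ℤ, ∀ ξ : ℝ, ‖acor q F h ξ‖ ≤ M h) (N : ℕ) (Λ1 Λ2 : Finset ℤ) (x x' : ℤ) :
    ∑ w ∈ Λ1, ∑ q0 ∈ Λ2, ‖∑ i ∈ range N, ∑ l,
      XU T T' α γ δ U (res q F) w (q0 + (i : ℤ)) x l *
        (starRingEnd ℂ) (XU T T' α γ δ U (res q F) w (q0 + (i : ℤ)) x' l)‖ ^ 2 ≤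
      M (δ * x - δ * x') ^ 2 * (N * ∑ z ∈ T, ‖kK T T' U z x x'‖ ^ 2) := by
  set h : ℤ := δ * x - δ * x' with hh
  rw [Finset.sum_comm]
  have h1 : ∀ q0 ∈ Λ2, ∑ w ∈ Λ1, ‖∑ i ∈ range N, ∑ l,
      XU T T' α γ δ U (res q F) w (q0 + (i : ℤ)) x l *
        (starRingEnd ℂ) (XU T T' α γ δ U (res q F) w (q0 + (i : ℤ)) x' l)‖ ^ 2 ≤
      M h ^ 2 * ∑ i ∈ range N, ‖kK T T' U (q0 + (i : ℤ)) x x'‖ ^ 2 := by
    intro q0 _
    have h2 : ∀ w ∈ Λ1, ∑ i ∈ range N, ∑ l,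
      XU T T' α γ δ U (res q F) w (q0 + (i : ℤ)) x l *
        (starRingEnd ℂ) (XU T T' α γ δ U (res q F) w (q0 + (i : ℤ)) x' l) =
        ∑ z ∈ Ico q0 (q0 + N), kK T T' U z x x' * cr q F h (α * w + γ * z + δ * x) := by
      intro w _
      rw [← sum_range_Ico N q0 (fun z => kK T T' U z x x' * cr q F h (α * w + γ * z + δ * x))]
      refine Finset.sum_congr rfl fun i _ => ?_
      rw [sum_XU, ← res_mul]
      have e : α * w + γ * (q0 + (i : ℤ)) + δ * x - h = α * w + γ * (q0 + (i : ℤ)) + δ * x' := by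
        rw [hh]; ring
      rw [e]
    rw [Finset.sum_congr rfl fun w hw => by rw [h2 w hw]]
    have h3 := hankel_l2 (iv q) (cr q F h) (cr_zero q F h) hα hγ (δ * x) (hM h) Λ1
      (Ico q0 (q0 + N)) (fun z => kK T T' U z x x')
    rw [← sum_range_Ico N q0 (fun z => ‖kK T T' U z x x'‖ ^ 2)] at h3
    exact h3
  refine (Finset.sum_le_sum h1).trans ?_
  rw [← Finset.mul_sum]
  refine mul_le_mul_of_nonneg_left ?_ (sq_nonneg _)
  exact sum_pos_le N Λ2 T (fun z => ‖kK T T' U z x x'‖ ^ 2) (fun _ => sq_nonneg _)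
    (fun z hz => by rw [kK_zero hz]; simp)

/-- projections of a finite set of triples -/
theorem sum_prod_le (Λ : Finset (ℤ × ℤ × ℤ)) (Φ : ℤ → ℤ → ℤ → ℝ) (h0 : ∀ a b c, 0 ≤ Φ a b c) :
    ∑ t ∈ Λ, Φ t.1 t.2.1 t.2.2 ≤
      ∑ r ∈ Λ.image (fun t => t.2.2), ∑ w ∈ Λ.image (fun t => t.1),
        ∑ q0 ∈ Λ.image (fun t => t.2.1), Φ w q0 r := by
  have h1 : ∑ r ∈ Λ.image (fun t => t.2.2), ∑ w ∈ Λ.image (fun t => t.1),
        ∑ q0 ∈ Λ.image (fun t => t.2.1), Φ w q0 r =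
      ∑ t ∈ (Λ.image (fun t => t.1)) ×ˢ ((Λ.image (fun t => t.2.1)) ×ˢ
        (Λ.image (fun t => t.2.2))), Φ t.1 t.2.1 t.2.2 := by
    rw [Finset.sum_product]
    simp only [Finset.sum_product]
    rw [Finset.sum_comm]
    refine Finset.sum_congr rfl fun w _ => ?_
    rw [Finset.sum_comm]
  rw [h1]
  refine Finset.sum_le_sum_of_subset_of_nonneg ?_ fun t _ _ => h0 _ _ _
  intro t ht
  rw [Finset.mem_product, Finset.mem_product]
  exact ⟨Finset.mem_image_of_mem _ ht, Finset.mem_image_of_mem _ ht, Finset.mem_image_of_mem _ ht⟩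

/-- **`S₄` cost of one kernel at one node** -/
theorem e4_node (hα : α ≠ 0) (hγ : γ ≠ 0) (M : ℤ → ℝ)
    (hM : ∀ h : ℤ, ∀ ξ : ℝ, ‖acor q F h ξ‖ ≤ M h) (N : ℕ) (hN : 0 < N)
    (Λ : Finset (ℤ × ℤ × ℤ)) :
    ∑ t ∈ Λ, e4K (XU T T' α γ δ U (res q F) t.1) N t.2.1 t.2.2 ≤
      (1 / (N : ℝ) ^ 3) * ∑ r ∈ Λ.image (fun t => t.2.2), ∑ j ∈ range N, ∑ j' ∈ range N,
        M (δ * (r + (j : ℤ)) - δ * (r + (j' : ℤ))) ^ 2 *
          ∑ z ∈ T, ‖kK T T' U z (r + (j : ℤ)) (r + (j' : ℤ))‖ ^ 2 := by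
  have hN' : (0 : ℝ) < N := by exact_mod_cast hN
  refine (sum_prod_le Λ (fun w q0 r => e4K (XU T T' α γ δ U (res q F) w) N q0 r)
    (fun a b c => by unfold e4K; positivity)).trans ?_
  rw [Finset.mul_sum]
  refine Finset.sum_le_sum fun r _ => ?_
  unfold e4K
  simp only [← Finset.mul_sum]
  have e1 : (1 : ℝ) / (N : ℝ) ^ 3 = (1 / (N : ℝ) ^ 4) * N := by field_simp
  rw [e1, mul_assoc]
  refine mul_le_mul_of_nonneg_left ?_ (by positivity)
  have h1 : ∑ w ∈ Λ.image (fun t => t.1), ∑ q0 ∈ Λ.image (fun t => t.2.1),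
      ∑ j ∈ range N, ∑ j' ∈ range N, ‖∑ i ∈ range N, ∑ l,
        XU T T' α γ δ U (res q F) w (q0 + (i : ℤ)) (r + (j : ℤ)) l *
          (starRingEnd ℂ) (XU T T' α γ δ U (res q F) w (q0 + (i : ℤ)) (r + (j' : ℤ)) l)‖ ^ 2 =
      ∑ j ∈ range N, ∑ j' ∈ range N, ∑ w ∈ Λ.image (fun t => t.1),
        ∑ q0 ∈ Λ.image (fun t => t.2.1), ‖∑ i ∈ range N, ∑ l,
        XU T T' α γ δ U (res q F) w (q0 + (i : ℤ)) (r + (j : ℤ)) l *
          (starRingEnd ℂ) (XU T T' α γ δ U (res q F) w (q0 + (i : ℤ)) (r + (j' : ℤ)) l)‖ ^ 2 := by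
    simp only [Finset.sum_comm (s := Λ.image (fun t => t.2.1)) (t := range N)]
    simp only [Finset.sum_comm (s := Λ.image (fun t => t.1)) (t := range N)]
  rw [h1, Finset.mul_sum]
  refine Finset.sum_le_sum fun j _ => ?_
  rw [Finset.mul_sum]
  refine Finset.sum_le_sum fun j' _ => ?_
  refine (e4_core T T' α γ δ U q F hα hγ M hM N _ _ _ _).trans (le_of_eq ?_)
  ring

/-- **diagonal error of one kernel at one node** -/
theorem dg_node (hα : α ≠ 0) (hδ : δ ≠ 0) {B Hk : ℝ} (hB : ∑ y ∈ iv q, ‖F y‖ ^ 2 ≤ B)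
    (hHk : ∀ z x, kD T T' U z x ≤ Hk) (N : ℕ) (hN : 0 < N) (Λ : Finset (ℤ × ℤ × ℤ)) :
    ∑ t ∈ Λ, dgK (XU T T' α γ δ U (res q F) t.1) N t.2.1 t.2.2 ≤
      (1 / (N : ℝ) ^ 2) * (Hk * B ^ 2 * ∑ z ∈ T, ∑ x ∈ T', kD T T' U z x) := by
  have hN' : (0 : ℝ) < N := by exact_mod_cast hN
  have hB0 : 0 ≤ B := (Finset.sum_nonneg fun _ _ => sq_nonneg _).trans hB
  have hHk0 : 0 ≤ Hk := (kD_nonneg T T' U 0 0).trans (hHk 0 0)
  have hres : ∀ (β c : ℤ), β ≠ 0 → ∀ Y : Finset ℤ,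
      ∑ y ∈ Y, ‖res q F (β * y + c)‖ ^ 2 ≤ B := by
    intro β c hβ Y
    have h1 := sum_prog_le hβ c (iv q) Y (fun y => ‖res q F y‖ ^ 2) (fun _ => sq_nonneg _)
      (fun y hy => by
        unfold res
        unfold iv at hy
        rw [if_neg hy]; simp)
    refine h1.trans (le_trans (le_of_eq ?_) hB)
    refine Finset.sum_congr rfl fun y hy => ?_
    unfold res
    unfold iv at hy
    rw [if_pos hy]
  refine (sum_prod_le Λ (fun w q0 r => dgK (XU T T' α γ δ U (res q F) w) N q0 r)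
    (fun a b c => by unfold dgK; positivity)).trans ?_
  unfold dgK
  simp only [sum_XU_sq, ← Finset.mul_sum]
  have e1 : (1 : ℝ) / (N : ℝ) ^ 2 = (1 / (N : ℝ) ^ 4) * (N * N) := by field_simp
  rw [e1, mul_assoc]
  refine mul_le_mul_of_nonneg_left ?_ (by positivity)
  -- the summand
  set G : ℤ → ℝ := fun y => ‖res q F y‖ ^ 2 with hG
  have hG0 : ∀ y, 0 ≤ G y := fun y => sq_nonneg _
  have h1 : ∀ r w q0 : ℤ, ∑ j ∈ range N, ∑ j' ∈ range N, ∑ i ∈ range N,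
      kD T T' U (q0 + (i : ℤ)) (r + (j : ℤ)) * G (α * w + γ * (q0 + (i : ℤ)) + δ * (r + (j : ℤ))) *
        (kD T T' U (q0 + (i : ℤ)) (r + (j' : ℤ)) *
          G (α * w + γ * (q0 + (i : ℤ)) + δ * (r + (j' : ℤ)))) ≤
      Hk * B * ∑ j ∈ range N, ∑ i ∈ range N, kD T T' U (q0 + (i : ℤ)) (r + (j : ℤ)) *
        G (α * w + γ * (q0 + (i : ℤ)) + δ * (r + (j : ℤ))) := by
    intro r w q0
    rw [Finset.mul_sum]
    refine Finset.sum_le_sum fun j _ => ?_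
    rw [Finset.sum_comm, Finset.mul_sum]
    refine Finset.sum_le_sum fun i _ => ?_
    rw [← Finset.mul_sum, mul_comm]
    refine mul_le_mul_of_nonneg_right ?_ (mul_nonneg (kD_nonneg _ _ _ _ _) (hG0 _))
    have h2 : ∑ j' ∈ range N, kD T T' U (q0 + (i : ℤ)) (r + (j' : ℤ)) *
        G (α * w + γ * (q0 + (i : ℤ)) + δ * (r + (j' : ℤ))) ≤
        Hk * ∑ j' ∈ range N, G (α * w + γ * (q0 + (i : ℤ)) + δ * (r + (j' : ℤ))) := by
      rw [Finset.mul_sum]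
      exact Finset.sum_le_sum fun j' _ => mul_le_mul_of_nonneg_right (hHk _ _) (hG0 _)
    refine h2.trans (mul_le_mul_of_nonneg_left ?_ hHk0)
    have h3 := hres δ (α * w + γ * (q0 + (i : ℤ))) hδ (Ico r (r + N))
    rw [← sum_range_Ico N r (fun y => ‖res q F (δ * y + (α * w + γ * (q0 + (i : ℤ))))‖ ^ 2)] at h3
    refine le_trans (le_of_eq (Finset.sum_congr rfl fun j' _ => ?_)) h3
    simp only [hG]
    have e : α * w + γ * (q0 + (i : ℤ)) + δ * (r + (j' : ℤ)) =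
      δ * (r + (j' : ℤ)) + (α * w + γ * (q0 + (i : ℤ))) := by ring
    rw [e]
  refine (Finset.sum_le_sum fun r _ => Finset.sum_le_sum fun w _ => Finset.sum_le_sum
    fun q0 _ => h1 r w q0).trans ?_
  -- sum over w
  have h4 : ∀ r q0 : ℤ, ∑ w ∈ Λ.image (fun t => t.1), ∑ j ∈ range N, ∑ i ∈ range N,
      kD T T' U (q0 + (i : ℤ)) (r + (j : ℤ)) *
        G (α * w + γ * (q0 + (i : ℤ)) + δ * (r + (j : ℤ))) ≤
      B * ∑ j ∈ range N, ∑ i ∈ range N, kD T T' U (q0 + (i : ℤ)) (r + (j : ℤ)) := by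
    intro r q0
    rw [Finset.sum_comm, Finset.mul_sum]
    refine Finset.sum_le_sum fun j _ => ?_
    rw [Finset.sum_comm, Finset.mul_sum]
    refine Finset.sum_le_sum fun i _ => ?_
    rw [← Finset.mul_sum, mul_comm]
    refine mul_le_mul_of_nonneg_right ?_ (kD_nonneg _ _ _ _ _)
    have h3 := hres α (γ * (q0 + (i : ℤ)) + δ * (r + (j : ℤ))) hα (Λ.image (fun t => t.1))
    refine le_trans (le_of_eq (Finset.sum_congr rfl fun w _ => ?_)) h3
    simp only [hG]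
    have e : α * w + γ * (q0 + (i : ℤ)) + δ * (r + (j : ℤ)) =
      α * w + (γ * (q0 + (i : ℤ)) + δ * (r + (j : ℤ))) := by ring
    rw [e]
  have h5 : ∑ r ∈ Λ.image (fun t => t.2.2), ∑ w ∈ Λ.image (fun t => t.1),
      ∑ q0 ∈ Λ.image (fun t => t.2.1), Hk * B * ∑ j ∈ range N, ∑ i ∈ range N,
        kD T T' U (q0 + (i : ℤ)) (r + (j : ℤ)) *
        G (α * w + γ * (q0 + (i : ℤ)) + δ * (r + (j : ℤ))) ≤
      Hk * B * (B * ∑ r ∈ Λ.image (fun t => t.2.2), ∑ q0 ∈ Λ.image (fun t => t.2.1),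
        ∑ j ∈ range N, ∑ i ∈ range N, kD T T' U (q0 + (i : ℤ)) (r + (j : ℤ))) := by
    simp only [← Finset.mul_sum]
    refine mul_le_mul_of_nonneg_left ?_ (mul_nonneg hHk0 hB0)
    rw [Finset.mul_sum]
    refine Finset.sum_le_sum fun r _ => ?_
    rw [Finset.sum_comm, Finset.mul_sum]
    exact Finset.sum_le_sum fun q0 _ => h4 r q0
  refine h5.trans ?_
  have h6 : ∑ r ∈ Λ.image (fun t => t.2.2), ∑ q0 ∈ Λ.image (fun t => t.2.1),
        ∑ j ∈ range N, ∑ i ∈ range N, kD T T' U (q0 + (i : ℤ)) (r + (j : ℤ)) ≤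
      N * (N * ∑ z ∈ T, ∑ x ∈ T', kD T T' U z x) := by
    have h7 : ∀ r ∈ Λ.image (fun t => t.2.2), ∑ q0 ∈ Λ.image (fun t => t.2.1),
        ∑ j ∈ range N, ∑ i ∈ range N, kD T T' U (q0 + (i : ℤ)) (r + (j : ℤ)) ≤
        ∑ j ∈ range N, N * ∑ z ∈ T, kD T T' U z (r + (j : ℤ)) := by
      intro r _
      rw [Finset.sum_comm]
      refine Finset.sum_le_sum fun j _ => ?_
      exact sum_pos_le N _ T (fun z => kD T T' U z (r + (j : ℤ)))
        (fun z => kD_nonneg _ _ _ _ _) (fun z hz => kD_zero_left hz _)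
    refine (Finset.sum_le_sum h7).trans ?_
    simp only [← Finset.mul_sum]
    refine mul_le_mul_of_nonneg_left ?_ hN'.le
    have h8 := sum_pos_le N (Λ.image (fun t => t.2.2)) T' (fun x => ∑ z ∈ T, kD T T' U z x)
      (fun x => Finset.sum_nonneg fun z _ => kD_nonneg _ _ _ _ _)
      (fun x hx => Finset.sum_eq_zero fun z _ => kD_zero_right hx)
    refine h8.trans (le_of_eq ?_)
    rw [Finset.sum_comm]
  calc Hk * B * (B * ∑ r ∈ Λ.image (fun t => t.2.2), ∑ q0 ∈ Λ.image (fun t => t.2.1),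
        ∑ j ∈ range N, ∑ i ∈ range N, kD T T' U (q0 + (i : ℤ)) (r + (j : ℤ)))
      ≤ Hk * B * (B * (N * (N * ∑ z ∈ T, ∑ x ∈ T', kD T T' U z x))) := by gcongr
    _ = N * N * (Hk * B ^ 2 * ∑ z ∈ T, ∑ x ∈ T', kD T T' U z x) := by ring

end node

/-! ### hypotheses -/

/-- correlations `≤ g len p` off `d len p` shifts (the conclusion of `NonCol37.noncoll_set`) -/
def NCs (p : Nd) (g d : ℝ) (F : Fn) : Prop :=
  ∃ Bad : Finset ℤ, (Bad.card : ℝ) ≤ d * len p ∧ ∀ h ∉ Bad, ∀ ξ : ℝ, ‖acor p F h ξ‖ ≤ g * len p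

/-- everybody is `NCs` with `g = A`, `d = 0` (Young) -/
theorem ncs_of_l2 {p : Nd} {A : ℝ} {F : Fn} (h : ∑ y ∈ iv p, ‖F y‖ ^ 2 ≤ A * len p) :
    NCs p A 0 F :=
  ⟨∅, by simp, fun s _ ξ => (acor_le p F s ξ).trans h⟩

variable {ι : Type}

/-- leaf cost of the frames: box averages of `|k|²` -/
def HSk (S : Finset ι) (lam : ι → ℝ) (R : Finset (ℕ × ℤ)) (κ0 : ℕ) (B : ℝ) (T T' : Finset ℤ)
    (U : ι → ℤ → ℤ → κ → ℂ) : Prop :=
  ∀ p ∈ R, ∀ k : ℕ, k ≤ κ0 → ∀ Λ : Finset ℤ,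
    ∑ n ∈ S, lam n * ∑ r ∈ Λ, ∑ z ∈ T, (1 / ((2 ^ (p.1 + k) : ℕ) : ℝ) ^ 2) *
      ∑ j ∈ range (2 ^ (p.1 + k)), ∑ j' ∈ range (2 ^ (p.1 + k)),
        ‖kK T T' (U n) z (r + (j : ℤ)) (r + (j' : ℤ))‖ ^ 2 ≤ B

/-- number of partners at a bad shift -/
theorem count_bad {δ : ℤ} (hδ : δ ≠ 0) (Bad : Finset ℤ) (c r : ℤ) (N : ℕ) :
    ∑ j' ∈ range N, (if c - δ * (r + (j' : ℤ)) ∈ Bad then (1 : ℝ) else 0) ≤ Bad.card := by
  classical
  have h1 := sum_prog_le (β := -δ) (neg_ne_zero.2 hδ) c Bad (Ico r (r + N))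
    (fun y => if y ∈ Bad then (1 : ℝ) else 0) (fun y => by split_ifs <;> norm_num)
    (fun y hy => by rw [if_neg hy])
  rw [← sum_range_Ico N r (fun y => if -δ * y + c ∈ Bad then (1 : ℝ) else 0)] at h1
  have h2 : ∑ z ∈ Bad, (if z ∈ Bad then (1 : ℝ) else 0) = Bad.card := by
    rw [Finset.sum_congr rfl fun z hz => if_pos hz]
    simp
  rw [h2] at h1
  refine le_trans (le_of_eq (Finset.sum_congr rfl fun j' _ => ?_)) h1
  have e : c - δ * (r + (j' : ℤ)) = -δ * (r + (j' : ℤ)) + c := by ring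
  rw [e]

/-- **`S₄` cost of one kernel at one node, good and bad shifts** -/
theorem e4_good_bad (T T' : Finset ℤ) (α γ δ : ℤ) (U : ℤ → ℤ → κ → ℂ) (p : Nd) (F : Fn)
    (hα : α ≠ 0) (hγ : γ ≠ 0) (hδ : δ ≠ 0) {A g d Hk : ℝ} (_hg : 0 ≤ g)
    (hA : ∑ y ∈ iv p, ‖F y‖ ^ 2 ≤ A * len p) (hNC : NCs p g d F)
    (hHk : ∀ z x, kD T T' U z x ≤ Hk) (N : ℕ) (hN : 0 < N) (Λ : Finset (ℤ × ℤ × ℤ)) :
    ∑ t ∈ Λ, e4K (XU T T' α γ δ U (res p F) t.1) N t.2.1 t.2.2 ≤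
      (1 / (N : ℝ) ^ 3) * ((g * len p) ^ 2 * ∑ r ∈ Λ.image (fun t => t.2.2), ∑ z ∈ T,
        ∑ j ∈ range N, ∑ j' ∈ range N, ‖kK T T' U z (r + (j : ℤ)) (r + (j' : ℤ))‖ ^ 2) +
      (1 / (N : ℝ) ^ 2) * ((A * len p) ^ 2 * (d * len p * Hk *
        ∑ z ∈ T, ∑ x ∈ T', kD T T' U z x)) := by
  classical
  have hN' : (0 : ℝ) < N := by exact_mod_cast hN
  obtain ⟨Bad, hBc, hBad⟩ := hNC
  have hl : 0 < len p := QVar181.len_pos' p
  have hAl : 0 ≤ A * len p := (Finset.sum_nonneg fun _ _ => sq_nonneg _).trans hA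
  have hHk0 : 0 ≤ Hk := (kD_nonneg T T' U 0 0).trans (hHk 0 0)
  have hM : ∀ h : ℤ, ∀ ξ : ℝ, ‖acor p F h ξ‖ ≤ if h ∈ Bad then A * len p else g * len p := by
    intro h ξ
    split_ifs with hh
    · exact (acor_le p F h ξ).trans hA
    · exact hBad h hh ξ
  refine (e4_node T T' α γ δ U p F hα hγ _ hM N hN Λ).trans ?_
  set P : Finset ℤ := Λ.image (fun t => t.2.2) with hP
  set K2 : ℤ → ℤ → ℝ := fun x x' => ∑ z ∈ T, ‖kK T T' U z x x'‖ ^ 2 with hK2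
  have hK20 : ∀ x x', 0 ≤ K2 x x' := fun x x' => Finset.sum_nonneg fun _ _ => sq_nonneg _
  have h1 : ∀ r j j' : ℤ, (if δ * (r + j) - δ * (r + j') ∈ Bad then A * len p
      else g * len p) ^ 2 * K2 (r + j) (r + j') ≤
      (g * len p) ^ 2 * K2 (r + j) (r + j') +
        (A * len p) ^ 2 * ((if δ * (r + j) - δ * (r + j') ∈ Bad then (1 : ℝ) else 0) *
          K2 (r + j) (r + j')) := by
    intro r j j'
    have h0 := hK20 (r + j) (r + j')
    split_ifs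
    · have : 0 ≤ (g * len p) ^ 2 * K2 (r + j) (r + j') := by positivity
      linarith
    · have : (g * len p) ^ 2 * K2 (r + j) (r + j') +
        (A * len p) ^ 2 * (0 * K2 (r + j) (r + j')) = (g * len p) ^ 2 * K2 (r + j) (r + j') := by
        ring
      rw [this]
  have h2 : ∑ r ∈ P, ∑ j ∈ range N, ∑ j' ∈ range N,
      (if δ * (r + (j : ℤ)) - δ * (r + (j' : ℤ)) ∈ Bad then A * len p else g * len p) ^ 2 *
        K2 (r + (j : ℤ)) (r + (j' : ℤ)) ≤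
      (g * len p) ^ 2 * ∑ r ∈ P, ∑ j ∈ range N, ∑ j' ∈ range N, K2 (r + (j : ℤ)) (r + (j' : ℤ)) +
      (A * len p) ^ 2 * ∑ r ∈ P, ∑ j ∈ range N, ∑ j' ∈ range N,
        ((if δ * (r + (j : ℤ)) - δ * (r + (j' : ℤ)) ∈ Bad then (1 : ℝ) else 0) *
          K2 (r + (j : ℤ)) (r + (j' : ℤ))) := by
    simp only [Finset.mul_sum, ← Finset.sum_add_distrib]
    refine Finset.sum_le_sum fun r _ => Finset.sum_le_sum fun j _ => Finset.sum_le_sum
      fun j' _ => ?_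
    have := h1 r j j'
    simpa only [Finset.mul_sum] using this
  have h3 : ∑ r ∈ P, ∑ j ∈ range N, ∑ j' ∈ range N, K2 (r + (j : ℤ)) (r + (j' : ℤ)) =
      ∑ r ∈ P, ∑ z ∈ T, ∑ j ∈ range N, ∑ j' ∈ range N,
        ‖kK T T' U z (r + (j : ℤ)) (r + (j' : ℤ))‖ ^ 2 := by
    refine Finset.sum_congr rfl fun r _ => ?_
    simp only [hK2]
    rw [Finset.sum_comm (s := T)]
    refine Finset.sum_congr rfl fun j _ => ?_
    rw [Finset.sum_comm (s := T)]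
  have h4 : ∑ r ∈ P, ∑ j ∈ range N, ∑ j' ∈ range N,
        ((if δ * (r + (j : ℤ)) - δ * (r + (j' : ℤ)) ∈ Bad then (1 : ℝ) else 0) *
          K2 (r + (j : ℤ)) (r + (j' : ℤ))) ≤
      N * (d * len p * Hk * ∑ z ∈ T, ∑ x ∈ T', kD T T' U z x) := by
    have h5 : ∀ r j : ℤ, ∑ j' ∈ range N,
        ((if δ * (r + j) - δ * (r + (j' : ℤ)) ∈ Bad then (1 : ℝ) else 0) *
          K2 (r + j) (r + (j' : ℤ))) ≤ (d * len p * Hk) * ∑ z ∈ T, kD T T' U z (r + j) := by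
      intro r j
      have h6 : ∀ j' ∈ range N, ((if δ * (r + j) - δ * (r + (j' : ℤ)) ∈ Bad then (1 : ℝ) else 0) *
          K2 (r + j) (r + (j' : ℤ))) ≤
          (if δ * (r + j) - δ * (r + (j' : ℤ)) ∈ Bad then (1 : ℝ) else 0) *
            (Hk * ∑ z ∈ T, kD T T' U z (r + j)) := by
        intro j' _
        refine mul_le_mul_of_nonneg_left ?_ (by split_ifs <;> norm_num)
        simp only [hK2]
        rw [Finset.mul_sum]
        refine Finset.sum_le_sum fun z _ => ?_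
        refine (kK_le T T' U z _ _).trans ?_
        rw [mul_comm]
        exact mul_le_mul_of_nonneg_right (hHk _ _) (kD_nonneg _ _ _ _ _)
      refine (Finset.sum_le_sum h6).trans ?_
      rw [← Finset.sum_mul]
      have h7 := count_bad hδ Bad (δ * (r + j)) r N
      have h8 : 0 ≤ Hk * ∑ z ∈ T, kD T T' U z (r + j) :=
        mul_nonneg hHk0 (Finset.sum_nonneg fun z _ => kD_nonneg _ _ _ _ _)
      calc _ ≤ (d * len p) * (Hk * ∑ z ∈ T, kD T T' U z (r + j)) :=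
            mul_le_mul_of_nonneg_right (h7.trans hBc) h8
        _ = _ := by ring
    have h9 : ∑ r ∈ P, ∑ j ∈ range N, ∑ j' ∈ range N,
        ((if δ * (r + (j : ℤ)) - δ * (r + (j' : ℤ)) ∈ Bad then (1 : ℝ) else 0) *
          K2 (r + (j : ℤ)) (r + (j' : ℤ))) ≤
        (d * len p * Hk) * ∑ r ∈ P, ∑ j ∈ range N, ∑ z ∈ T, kD T T' U z (r + (j : ℤ)) := by
      rw [Finset.mul_sum]
      refine Finset.sum_le_sum fun r _ => ?_
      rw [Finset.mul_sum]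
      exact Finset.sum_le_sum fun j _ => h5 r j
    refine h9.trans ?_
    have hd0 : 0 ≤ d * len p := (Nat.cast_nonneg _).trans hBc
    have h10 := sum_pos_le N P T' (fun x => ∑ z ∈ T, kD T T' U z x)
      (fun x => Finset.sum_nonneg fun z _ => kD_nonneg _ _ _ _ _)
      (fun x hx => Finset.sum_eq_zero fun z _ => kD_zero_right hx)
    rw [Finset.sum_comm (s := T') (t := T)] at h10
    calc (d * len p * Hk) * ∑ r ∈ P, ∑ j ∈ range N, ∑ z ∈ T, kD T T' U z (r + (j : ℤ))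
        ≤ (d * len p * Hk) * (N * ∑ z ∈ T, ∑ x ∈ T', kD T T' U z x) :=
          mul_le_mul_of_nonneg_left h10 (mul_nonneg hd0 hHk0)
      _ = _ := by ring
  have h11 := h2.trans (add_le_add le_rfl (mul_le_mul_of_nonneg_left h4 (sq_nonneg (A * len p))))
  rw [h3] at h11
  calc (1 / (N : ℝ) ^ 3) * ∑ r ∈ P, ∑ j ∈ range N, ∑ j' ∈ range N,
        (if δ * (r + (j : ℤ)) - δ * (r + (j' : ℤ)) ∈ Bad then A * len p else g * len p) ^ 2 *
          K2 (r + (j : ℤ)) (r + (j' : ℤ))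
      ≤ (1 / (N : ℝ) ^ 3) * ((g * len p) ^ 2 * (∑ r ∈ P, ∑ z ∈ T, ∑ j ∈ range N, ∑ j' ∈ range N,
        ‖kK T T' U z (r + (j : ℤ)) (r + (j' : ℤ))‖ ^ 2) +
        (A * len p) ^ 2 * (N * (d * len p * Hk * ∑ z ∈ T, ∑ x ∈ T', kD T T' U z x))) :=
        mul_le_mul_of_nonneg_left h11 (by positivity)
    _ = _ := by
        field_simp

/-- **THE `S₄` COST OF A MIXTURE** (killer edge: `NCs` from non-collision; partner edge: `g = A`,
`d = 0`) -/
theorem s4K_of (S : Finset ι) (lam : ι → ℝ) (hlam : ∀ n ∈ S, 0 ≤ lam n) (R : Finset (ℕ × ℤ))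
    (κ0 : ℕ) (V : ℝ) (T T' : Finset ℤ) {α γ δ : ℤ} (hα : α ≠ 0) (hγ : γ ≠ 0) (hδ : δ ≠ 0)
    (U : ι → ℤ → ℤ → κ → ℂ) (F : Fn) {A g d Hk η σ : ℝ} {m0 : ℕ} (hg : 0 ≤ g) (hd : 0 ≤ d)
    (hm0 : ∀ p ∈ R, m0 ≤ p.1)
    (hA : ∀ p ∈ R, ∑ y ∈ iv p, ‖F y‖ ^ 2 ≤ A * len p) (hNC : ∀ p ∈ R, NCs p g d F)
    (hHk : ∀ n ∈ S, ∀ z x, kD T T' (U n) z x ≤ Hk) (hHk0 : 0 ≤ Hk)
    (hV : ∑ n ∈ S, lam n * ∑ z ∈ T, ∑ x ∈ T', kD T T' (U n) z x ≤ V)
    (hη : HSk S lam R κ0 (η * V) T T' U)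
    (hσ : 2 ^ 7 * g ^ 2 * η + 2 ^ 14 * A ^ 2 * d * Hk + 2 ^ 8 * A ^ 2 * Hk / 2 ^ m0 ≤ σ) :
    S4K S lam R κ0 V σ (fun n G w => XU T T' α γ δ (U n) G w) F := by
  intro p hp k hk Λ
  have hV0 : 0 ≤ V := (Finset.sum_nonneg fun n hn => mul_nonneg (hlam n hn)
    (Finset.sum_nonneg fun _ _ => Finset.sum_nonneg fun _ _ => kD_nonneg _ _ _ _ _)).trans hV
  have hηV : 0 ≤ η * V := by
    have := hη p hp k hk ∅
    simpa using this
  have hl : 0 < len p := QVar181.len_pos' p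
  set N : ℕ := 2 ^ (p.1 + k) with hN
  have hN0 : 0 < N := by positivity
  have hN' : (0 : ℝ) < N := by exact_mod_cast hN0
  set P : Finset ℤ := Λ.image (fun t => t.2.2) with hP
  set HH : ι → ℝ := fun n => ∑ r ∈ P, ∑ z ∈ T, ∑ j ∈ range N, ∑ j' ∈ range N,
        ‖kK T T' (U n) z (r + (j : ℤ)) (r + (j' : ℤ))‖ ^ 2 with hHH
  set TT : ι → ℝ := fun n => ∑ z ∈ T, ∑ x ∈ T', kD T T' (U n) z x with hTT
  have h1 : ∀ n ∈ S, ∑ t ∈ Λ, (e4K (XU T T' α γ δ (U n) (res p F) t.1) N t.2.1 t.2.2 +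
      2 * dgK (XU T T' α γ δ (U n) (res p F) t.1) N t.2.1 t.2.2) ≤
      (1 / (N : ℝ) ^ 3) * (g * len p) ^ 2 * HH n +
        ((1 / (N : ℝ) ^ 2) * ((A * len p) ^ 2 * (d * len p * Hk)) +
          2 * ((1 / (N : ℝ) ^ 2) * (Hk * (A * len p) ^ 2))) * TT n := by
    intro n hn
    have a1 := e4_good_bad T T' α γ δ (U n) p F hα hγ hδ hg (hA p hp) (hNC p hp) (hHk n hn) N hN0 Λ
    have a2 := dg_node T T' α γ δ (U n) p F hα hδ (hA p hp) (hHk n hn) N hN0 Λ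
    rw [Finset.sum_add_distrib, ← Finset.mul_sum]
    simp only [hHH, hTT]
    calc _ ≤ _ := add_le_add a1 (mul_le_mul_of_nonneg_left a2 (by norm_num : (0 : ℝ) ≤ 2))
      _ = _ := by ring
  have h2 : ∑ n ∈ S, lam n * ∑ t ∈ Λ, (e4K (XU T T' α γ δ (U n) (res p F) t.1) N t.2.1 t.2.2 +
      2 * dgK (XU T T' α γ δ (U n) (res p F) t.1) N t.2.1 t.2.2) ≤
      (1 / (N : ℝ) ^ 3) * (g * len p) ^ 2 * ∑ n ∈ S, lam n * HH n +
        ((1 / (N : ℝ) ^ 2) * ((A * len p) ^ 2 * (d * len p * Hk)) +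
          2 * ((1 / (N : ℝ) ^ 2) * (Hk * (A * len p) ^ 2))) * ∑ n ∈ S, lam n * TT n := by
    rw [Finset.mul_sum, Finset.mul_sum, ← Finset.sum_add_distrib]
    refine Finset.sum_le_sum fun n hn => ?_
    calc _ ≤ lam n * _ := mul_le_mul_of_nonneg_left (h1 n hn) (hlam n hn)
      _ = _ := by ring
  have h3 : ∑ n ∈ S, lam n * HH n ≤ (N : ℝ) ^ 2 * (η * V) := by
    have h4 := hη p hp k hk P
    have h5 : ∑ n ∈ S, lam n * ∑ r ∈ P, ∑ z ∈ T, (1 / ((2 ^ (p.1 + k) : ℕ) : ℝ) ^ 2) *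
        ∑ j ∈ range (2 ^ (p.1 + k)), ∑ j' ∈ range (2 ^ (p.1 + k)),
          ‖kK T T' (U n) z (r + (j : ℤ)) (r + (j' : ℤ))‖ ^ 2 =
        (1 / (N : ℝ) ^ 2) * ∑ n ∈ S, lam n * HH n := by
      rw [Finset.mul_sum]
      refine Finset.sum_congr rfl fun n _ => ?_
      simp only [hHH, ← Finset.mul_sum, ← hN]
      ring
    rw [h5] at h4
    have h6 : ∑ n ∈ S, lam n * HH n = (N : ℝ) ^ 2 * ((1 / (N : ℝ) ^ 2) * ∑ n ∈ S, lam n * HH n) := by
      field_simp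
    rw [h6]
    exact mul_le_mul_of_nonneg_left h4 (by positivity)
  refine h2.trans ?_
  have hc1 : 0 ≤ (1 / (N : ℝ) ^ 3) * (g * len p) ^ 2 := by positivity
  have hc2 : 0 ≤ (1 / (N : ℝ) ^ 2) * ((A * len p) ^ 2 * (d * len p * Hk)) +
          2 * ((1 / (N : ℝ) ^ 2) * (Hk * (A * len p) ^ 2)) := by positivity
  have h7 := add_le_add (mul_le_mul_of_nonneg_left h3 hc1) (mul_le_mul_of_nonneg_left hV hc2)
  refine h7.trans ?_
  -- numerics
  have hlen : len p = 2 ^ 7 * (2 : ℝ) ^ p.1 := by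
    unfold len
    rw [pow_add]; ring
  have hlN : len p ≤ 2 ^ 7 * N := by
    rw [hlen, hN]
    push_cast
    have : (2 : ℝ) ^ p.1 ≤ 2 ^ (p.1 + k) := pow_le_pow_right₀ (by norm_num) (by omega)
    linarith
  have hmN : (2 : ℝ) ^ m0 ≤ N := by
    rw [hN]
    push_cast
    exact pow_le_pow_right₀ (by norm_num) (by have := hm0 p hp; omega)
  have hx : len p / N ≤ 2 ^ 7 := by
    rw [div_le_iff₀ hN']
    exact hlN
  have hx0 : 0 ≤ len p / N := by positivity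
  have t1 : (1 / (N : ℝ) ^ 3) * (g * len p) ^ 2 * ((N : ℝ) ^ 2 * (η * V)) ≤
      2 ^ 7 * g ^ 2 * (η * V) * len p := by
    have e : (1 / (N : ℝ) ^ 3) * (g * len p) ^ 2 * ((N : ℝ) ^ 2 * (η * V)) =
        (g ^ 2 * (η * V) * len p) * (len p / N) := by field_simp
    rw [e]
    have h0 : 0 ≤ g ^ 2 * (η * V) * len p := by positivity
    calc _ ≤ (g ^ 2 * (η * V) * len p) * 2 ^ 7 := mul_le_mul_of_nonneg_left hx h0
      _ = _ := by ring
  have t2 : (1 / (N : ℝ) ^ 2) * ((A * len p) ^ 2 * (d * len p * Hk)) * V ≤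
      2 ^ 14 * A ^ 2 * d * Hk * V * len p := by
    have e : (1 / (N : ℝ) ^ 2) * ((A * len p) ^ 2 * (d * len p * Hk)) * V =
        (A ^ 2 * d * Hk * V * len p) * (len p / N) ^ 2 := by field_simp
    rw [e]
    have h0 : 0 ≤ A ^ 2 * d * Hk * V * len p := by positivity
    calc _ ≤ (A ^ 2 * d * Hk * V * len p) * (2 ^ 7) ^ 2 :=
          mul_le_mul_of_nonneg_left (pow_le_pow_left₀ hx0 hx 2) h0
      _ = _ := by ring
  have t3 : 2 * ((1 / (N : ℝ) ^ 2) * (Hk * (A * len p) ^ 2)) * V ≤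
      2 ^ 8 * A ^ 2 * Hk / 2 ^ m0 * V * len p := by
    have e : 2 * ((1 / (N : ℝ) ^ 2) * (Hk * (A * len p) ^ 2)) * V =
        (2 * A ^ 2 * Hk * V * len p) * (len p / N) * (1 / N) := by field_simp
    rw [e]
    have h0 : 0 ≤ 2 * A ^ 2 * Hk * V * len p := by positivity
    have h8 : (1 : ℝ) / N ≤ 1 / 2 ^ m0 := one_div_le_one_div_of_le (by positivity) hmN
    calc _ ≤ (2 * A ^ 2 * Hk * V * len p) * 2 ^ 7 * (1 / 2 ^ m0) :=
          mul_le_mul (mul_le_mul_of_nonneg_left hx h0) h8 (by positivity) (by positivity)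
      _ = _ := by ring
  have hfin : (2 : ℝ) ^ 7 * g ^ 2 * (η * V) * len p + (2 ^ 14 * A ^ 2 * d * Hk * V * len p +
      2 ^ 8 * A ^ 2 * Hk / 2 ^ m0 * V * len p) ≤ σ * (len p * V) := by
    have h0 : 0 ≤ len p * V := by positivity
    calc _ = (2 ^ 7 * g ^ 2 * η + 2 ^ 14 * A ^ 2 * d * Hk + 2 ^ 8 * A ^ 2 * Hk / 2 ^ m0) *
          (len p * V) := by ring
      _ ≤ _ := mul_le_mul_of_nonneg_right hσ h0
  have hgoal : σ * (2 ^ (p.1 + 7) * V) = σ * (len p * V) := rfl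
  rw [hgoal]
  refine le_trans ?_ hfin
  rw [add_mul]
  exact add_le_add t1 (add_le_add t2 t3)

/-- **THE `S₂` COST OF A MIXTURE** -/
theorem s2K_of (S : Finset ι) (lam : ι → ℝ) (hlam : ∀ n ∈ S, 0 ≤ lam n) (R : Finset (ℕ × ℤ))
    (κ0 : ℕ) (V V' : ℝ) (T T' : Finset ℤ) {α γ δ : ℤ} (hα : α ≠ 0)
    (U : ι → ℤ → ℤ → κ → ℂ) (F : Fn) {A : ℝ} (hA0 : 0 ≤ A)
    (hA : ∀ p ∈ R, ∑ y ∈ iv p, ‖F y‖ ^ 2 ≤ A * len p)
    (hV : ∑ n ∈ S, lam n * ∑ z ∈ T, ∑ x ∈ T', kD T T' (U n) z x ≤ V) (hVV : A * V ≤ V') :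
    S2K S lam R κ0 V' (fun n G w => XU T T' α γ δ (U n) G w) F := by
  intro p hp k hk Λ
  have hl : 0 < len p := QVar181.len_pos' p
  set N : ℕ := 2 ^ (p.1 + k) with hN
  have hN0 : 0 < N := by positivity
  have hN' : (0 : ℝ) < N := by exact_mod_cast hN0
  have h1 : ∀ n ∈ S, ∑ t ∈ Λ, e2K (XU T T' α γ δ (U n) (res p F) t.1) N t.2.1 t.2.2 ≤
      (A * len p) * ∑ z ∈ T, ∑ x ∈ T', kD T T' (U n) z x := by
    intro n _
    refine (sum_prod_le Λ (fun w q0 r => e2K (XU T T' α γ δ (U n) (res p F) w) N q0 r)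
      (fun a b c => by unfold e2K; positivity)).trans ?_
    unfold e2K
    simp only [sum_XU_sq, ← Finset.mul_sum]
    set G : ℤ → ℝ := fun y => ‖res p F y‖ ^ 2 with hG
    have hG0 : ∀ y, 0 ≤ G y := fun y => sq_nonneg _
    have hw : ∀ c : ℤ, ∑ w ∈ Λ.image (fun t => t.1), G (α * w + c) ≤ A * len p := by
      intro c
      have h3 := sum_prog_le hα c (iv p) (Λ.image (fun t => t.1)) G hG0
        (fun y hy => by
          simp only [hG]
          unfold res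
          unfold iv at hy
          rw [if_neg hy]; simp)
      refine h3.trans (le_trans (le_of_eq ?_) (hA p hp))
      refine Finset.sum_congr rfl fun y hy => ?_
      simp only [hG]
      unfold res
      unfold iv at hy
      rw [if_pos hy]
    have h4 : ∀ r q0 : ℤ, ∑ w ∈ Λ.image (fun t => t.1), ∑ i ∈ range N, ∑ j ∈ range N,
        kD T T' (U n) (q0 + (i : ℤ)) (r + (j : ℤ)) *
          G (α * w + γ * (q0 + (i : ℤ)) + δ * (r + (j : ℤ))) ≤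
        (A * len p) * ∑ i ∈ range N, ∑ j ∈ range N,
          kD T T' (U n) (q0 + (i : ℤ)) (r + (j : ℤ)) := by
      intro r q0
      rw [Finset.sum_comm, Finset.mul_sum]
      refine Finset.sum_le_sum fun i _ => ?_
      rw [Finset.sum_comm, Finset.mul_sum]
      refine Finset.sum_le_sum fun j _ => ?_
      rw [← Finset.mul_sum, mul_comm]
      refine mul_le_mul_of_nonneg_right ?_ (kD_nonneg _ _ _ _ _)
      refine le_trans (le_of_eq (Finset.sum_congr rfl fun w _ => ?_))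
        (hw (γ * (q0 + (i : ℤ)) + δ * (r + (j : ℤ))))
      have e : α * w + γ * (q0 + (i : ℤ)) + δ * (r + (j : ℤ)) =
        α * w + (γ * (q0 + (i : ℤ)) + δ * (r + (j : ℤ))) := by ring
      rw [e]
    have h5 : ∑ r ∈ Λ.image (fun t => t.2.2), ∑ w ∈ Λ.image (fun t => t.1),
        ∑ q0 ∈ Λ.image (fun t => t.2.1), ∑ i ∈ range N, ∑ j ∈ range N,
          kD T T' (U n) (q0 + (i : ℤ)) (r + (j : ℤ)) *
            G (α * w + γ * (q0 + (i : ℤ)) + δ * (r + (j : ℤ))) ≤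
        (A * len p) * (N * (N * ∑ z ∈ T, ∑ x ∈ T', kD T T' (U n) z x)) := by
      have h6 : ∀ r ∈ Λ.image (fun t => t.2.2), ∑ w ∈ Λ.image (fun t => t.1),
          ∑ q0 ∈ Λ.image (fun t => t.2.1), ∑ i ∈ range N, ∑ j ∈ range N,
            kD T T' (U n) (q0 + (i : ℤ)) (r + (j : ℤ)) *
              G (α * w + γ * (q0 + (i : ℤ)) + δ * (r + (j : ℤ))) ≤
          (A * len p) * ∑ j ∈ range N, N * ∑ z ∈ T, kD T T' (U n) z (r + (j : ℤ)) := by
        intro r _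
        rw [Finset.sum_comm]
        refine (Finset.sum_le_sum fun q0 _ => h4 r q0).trans ?_
        rw [← Finset.mul_sum]
        refine mul_le_mul_of_nonneg_left ?_ (by positivity)
        have h7 : ∑ q0 ∈ Λ.image (fun t => t.2.1), ∑ i ∈ range N, ∑ j ∈ range N,
            kD T T' (U n) (q0 + (i : ℤ)) (r + (j : ℤ)) =
            ∑ j ∈ range N, ∑ q0 ∈ Λ.image (fun t => t.2.1), ∑ i ∈ range N,
              kD T T' (U n) (q0 + (i : ℤ)) (r + (j : ℤ)) := by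
          rw [Finset.sum_comm (s := range N)]
          refine Finset.sum_congr rfl fun q0 _ => ?_
          rw [Finset.sum_comm]
        rw [h7]
        refine Finset.sum_le_sum fun j _ => ?_
        exact sum_pos_le N _ T (fun z => kD T T' (U n) z (r + (j : ℤ)))
          (fun z => kD_nonneg _ _ _ _ _) (fun z hz => kD_zero_left hz _)
      refine (Finset.sum_le_sum h6).trans ?_
      simp only [← Finset.mul_sum]
      refine mul_le_mul_of_nonneg_left ?_ (by positivity)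
      refine mul_le_mul_of_nonneg_left ?_ hN'.le
      have h8 := sum_pos_le N (Λ.image (fun t => t.2.2)) T' (fun x => ∑ z ∈ T, kD T T' (U n) z x)
        (fun x => Finset.sum_nonneg fun z _ => kD_nonneg _ _ _ _ _)
        (fun x hx => Finset.sum_eq_zero fun z _ => kD_zero_right hx)
      refine h8.trans (le_of_eq ?_)
      rw [Finset.sum_comm]
    calc _ ≤ (1 / (N : ℝ) ^ 2) * ((A * len p) * (N * (N *
          ∑ z ∈ T, ∑ x ∈ T', kD T T' (U n) z x))) := mul_le_mul_of_nonneg_left h5 (by positivity)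
      _ = _ := by field_simp
  have h2 : ∑ n ∈ S, lam n * ∑ t ∈ Λ, e2K (XU T T' α γ δ (U n) (res p F) t.1) N t.2.1 t.2.2 ≤
      (A * len p) * ∑ n ∈ S, lam n * ∑ z ∈ T, ∑ x ∈ T', kD T T' (U n) z x := by
    rw [Finset.mul_sum]
    refine Finset.sum_le_sum fun n hn => ?_
    calc _ ≤ lam n * _ := mul_le_mul_of_nonneg_left (h1 n hn) (hlam n hn)
      _ = _ := by ring
  refine h2.trans ?_
  have hgoal : (2 : ℝ) ^ (p.1 + 7) * V' = len p * V' := rfl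
  rw [hgoal]
  calc (A * len p) * ∑ n ∈ S, lam n * ∑ z ∈ T, ∑ x ∈ T', kD T T' (U n) z x
      ≤ (A * len p) * V := mul_le_mul_of_nonneg_left hV (by positivity)
    _ = len p * (A * V) := by ring
    _ ≤ len p * V' := mul_le_mul_of_nonneg_left hVV hl.le

end Crest.Agent.R079.SWc360
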