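import Crest.Agent.R079.SWc_360
import Crest.Agent.R079.NC2_37
import Crest.Agent.R079.ExC_999

/-! R079, Step I, (S) words (helper360), second file to `SWc_360`:

* `s4K_frK`, `s4K_frK_swap`, `s2K_frK`, `s2K_frK_swap`: the two costs in the literal of
  `labelled24_0/_1/_2` (labels at the first / second variable of `frK`);
* `ncs_of_nc2`: `NC2 p p g d F` (254's literal, landed by 37) gives `NCs p g d F`;
* `s4_symm`, `hs_majorant`: box Hilbert-Schmidt norm of a frame dominated by `c C C*`;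
* `opS_up`: the operator bound of the exit cells at all larger scales;
* `hsk_of_cells`: `HSk` of frames dominated by `(c/L) C C*`, `C` with `OpS` bound `r 2^n` on the
  aligned cells of the scale of the node: `η = 8 c r²` times the trace of `(c/L) C C*`. -/

set_option autoImplicit false
set_option linter.unusedSectionVars false

namespace Crest.Agent.R079.SWc360

open Finset Crest.Agent.R079.Grid Crest.Agent.R079.Glue Crest.Agent.R079.R244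
  Crest.Agent.R079.Growth Crest.Agent.R079.Cell37 Crest.Agent.R079.CellH237
  Crest.Agent.R079.Hank37 Crest.Agent.R079.Sgn Crest.Agent.R079.NC237 Crest.Agent.R079.ExA999
  Crest.Agent.R079.ClW59

open scoped ComplexConjugate

variable {κ : Type} [Fintype κ] [DecidableEq κ] {ι : Type}

/-! ### the literals of `labelled24` -/

theorem s4K_frK (S : Finset ι) (lam : ι → ℝ) (hlam : ∀ n ∈ S, 0 ≤ lam n) (R : Finset (ℕ × ℤ))
    (κ0 : ℕ) (V : ℝ) (T T' : Finset ℤ) {j k e f : Fin 4} (hj : j ≠ k) (he : e ≠ k) (hf : f ≠ k)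
    (U : ι → ℤ → ℤ → κ → ℂ) (F : Fn) {A g d Hk η σ : ℝ} {m0 : ℕ} (hg : 0 ≤ g) (hd : 0 ≤ d)
    (hm0 : ∀ p ∈ R, m0 ≤ p.1)
    (hA : ∀ p ∈ R, ∑ y ∈ iv p, ‖F y‖ ^ 2 ≤ A * len p) (hNC : ∀ p ∈ R, NCs p g d F)
    (hHk : ∀ n ∈ S, ∀ z x, kD T T' (U n) z x ≤ Hk) (hHk0 : 0 ≤ Hk)
    (hV : ∑ n ∈ S, lam n * ∑ z ∈ T, ∑ x ∈ T', kD T T' (U n) z x ≤ V)
    (hη : HSk S lam R κ0 (η * V) T T' U)
    (hσ : 2 ^ 7 * g ^ 2 * η + 2 ^ 14 * A ^ 2 * d * Hk + 2 ^ 8 * A ^ 2 * Hk / 2 ^ m0 ≤ σ) :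
    S4K S lam R κ0 V σ (fun n G w => frK j k e f T T' (U n) G w) F := by
  have h := s4K_of S lam hlam R κ0 V T T' (Sgn.sl_ne hj) (Sgn.sl_ne he) (Sgn.sl_ne hf) U F hg hd hm0 hA hNC
    hHk hHk0 hV hη hσ
  exact h

theorem s2K_frK (S : Finset ι) (lam : ι → ℝ) (hlam : ∀ n ∈ S, 0 ≤ lam n) (R : Finset (ℕ × ℤ))
    (κ0 : ℕ) (V V' : ℝ) (T T' : Finset ℤ) {j k e f : Fin 4} (hj : j ≠ k)
    (U : ι → ℤ → ℤ → κ → ℂ) (F : Fn) {A : ℝ} (hA0 : 0 ≤ A)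
    (hA : ∀ p ∈ R, ∑ y ∈ iv p, ‖F y‖ ^ 2 ≤ A * len p)
    (hV : ∑ n ∈ S, lam n * ∑ z ∈ T, ∑ x ∈ T', kD T T' (U n) z x ≤ V) (hVV : A * V ≤ V') :
    S2K S lam R κ0 V' (fun n G w => frK j k e f T T' (U n) G w) F :=
  s2K_of S lam hlam R κ0 V V' T T' (γ := sl e - sl k) (δ := sl f - sl k) (Sgn.sl_ne hj) U F hA0 hA hV hVV

/-- labels at the SECOND variable of `frK` (frames: `kK T' T (fun x y l => W y x l)`) -/
theorem s4K_frK_swap (S : Finset ι) (lam : ι → ℝ) (hlam : ∀ n ∈ S, 0 ≤ lam n)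
    (R : Finset (ℕ × ℤ)) (κ0 : ℕ) (V : ℝ) (T T' : Finset ℤ) {j k e f : Fin 4} (hj : j ≠ k)
    (he : e ≠ k) (hf : f ≠ k)
    (W : ι → ℤ → ℤ → κ → ℂ) (F : Fn) {A g d Hk η σ : ℝ} {m0 : ℕ} (hg : 0 ≤ g) (hd : 0 ≤ d)
    (hm0 : ∀ p ∈ R, m0 ≤ p.1)
    (hA : ∀ p ∈ R, ∑ y ∈ iv p, ‖F y‖ ^ 2 ≤ A * len p) (hNC : ∀ p ∈ R, NCs p g d F)
    (hHk : ∀ n ∈ S, ∀ z x, kD T' T (fun x y l => W n y x l) z x ≤ Hk) (hHk0 : 0 ≤ Hk)
    (hV : ∑ n ∈ S, lam n * ∑ z ∈ T', ∑ x ∈ T, kD T' T (fun x y l => W n y x l) z x ≤ V)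
    (hη : HSk S lam R κ0 (η * V) T' T (fun n x y l => W n y x l))
    (hσ : 2 ^ 7 * g ^ 2 * η + 2 ^ 14 * A ^ 2 * d * Hk + 2 ^ 8 * A ^ 2 * Hk / 2 ^ m0 ≤ σ) :
    S4K S lam R κ0 V σ (fun n G w x y l => frK j k e f T T' (W n) G w y x l) F := by
  have h := s4K_of S lam hlam R κ0 V T' T (Sgn.sl_ne hj) (Sgn.sl_ne hf) (Sgn.sl_ne he)
    (fun n x y l => W n y x l) F hg hd hm0 hA hNC hHk hHk0 hV hη hσ
  intro p hp k' hk Λ
  have h1 := h p hp k' hk Λ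
  simpa only [frK_swap] using h1

theorem s2K_frK_swap (S : Finset ι) (lam : ι → ℝ) (hlam : ∀ n ∈ S, 0 ≤ lam n)
    (R : Finset (ℕ × ℤ)) (κ0 : ℕ) (V V' : ℝ) (T T' : Finset ℤ) {j k e f : Fin 4} (hj : j ≠ k)
    (W : ι → ℤ → ℤ → κ → ℂ) (F : Fn) {A : ℝ} (hA0 : 0 ≤ A)
    (hA : ∀ p ∈ R, ∑ y ∈ iv p, ‖F y‖ ^ 2 ≤ A * len p)
    (hV : ∑ n ∈ S, lam n * ∑ z ∈ T', ∑ x ∈ T, kD T' T (fun x y l => W n y x l) z x ≤ V)
    (hVV : A * V ≤ V') :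
    S2K S lam R κ0 V' (fun n G w x y l => frK j k e f T T' (W n) G w y x l) F := by
  have h := s2K_of S lam hlam R κ0 V V' T' T (α := sl j - sl k) (γ := sl f - sl k)
    (δ := sl e - sl k) (Sgn.sl_ne hj) (fun n x y l => W n y x l) F hA0 hA hV hVV
  intro p hp k' hk Λ
  have h1 := h p hp k' hk Λ
  simpa only [frK_swap] using h1

/-! ### non-collision in 254's form -/

theorem ncs_of_nc2 {p : Nd} {g d : ℝ} {F : Fn} (h : NC2 p p g d F) : NCs p g d F := by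
  classical
  obtain ⟨Z, hc, hZ⟩ := h
  refine ⟨Z.image (fun h => -h), ?_, ?_⟩
  · refine le_trans ?_ hc
    exact_mod_cast Finset.card_image_le
  · intro s hs ξ
    have h1 : -s ∉ Z := fun h2 => hs (Finset.mem_image.2 ⟨-s, h2, by ring⟩)
    refine le_trans (le_of_eq ?_) (hZ (-s) h1 ξ)
    unfold acor
    congr 1
    refine Finset.sum_congr rfl fun y hy => ?_
    unfold cr
    have e : y + -s = y - s := by ring
    rw [e]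
    by_cases h3 : y - s ∈ iv p
    · rw [if_pos ⟨hy, h3⟩, if_pos h3]
    · rw [if_neg fun hh => h3 hh.2, if_neg h3, zero_mul]

/-! ### symmetry of the box norm, majorants -/

/-- `|u u*|_HS = |u* u|_HS` -/
theorem s4_symm {X Y : Type*} (s : Finset X) (t : Finset Y) (u : X → Y → ℂ) :
    ∑ x ∈ s, ∑ x' ∈ s, ‖∑ y ∈ t, u x y * conj (u x' y)‖ ^ 2 =
      ∑ y ∈ t, ∑ y' ∈ t, ‖∑ x ∈ s, u x y * conj (u x y')‖ ^ 2 := by
  have key : ∀ (X Y : Type _) (s : Finset X) (t : Finset Y) (u : X → Y → ℂ),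
      ((∑ x ∈ s, ∑ x' ∈ s, ‖∑ y ∈ t, u x y * conj (u x' y)‖ ^ 2 : ℝ) : ℂ) =
      ∑ x ∈ s, ∑ x' ∈ s, ∑ y ∈ t, ∑ y' ∈ t,
        u x y * conj (u x' y) * (conj (u x y') * u x' y') := by
    intro X Y s t u
    push_cast
    refine Finset.sum_congr rfl fun x _ => Finset.sum_congr rfl fun x' _ => ?_
    rw [← Complex.mul_conj', map_sum, Finset.sum_mul_sum]
    refine Finset.sum_congr rfl fun y _ => Finset.sum_congr rfl fun y' _ => ?_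
    rw [map_mul, Complex.conj_conj]
  have h1 := key X Y s t u
  have h2 : ((∑ y ∈ t, ∑ y' ∈ t, ‖∑ x ∈ s, u x y * conj (u x y')‖ ^ 2 : ℝ) : ℂ) =
      ∑ y ∈ t, ∑ y' ∈ t, ∑ x ∈ s, ∑ x' ∈ s,
        u x y * conj (u x y') * (conj (u x' y) * u x' y') := by
    push_cast
    refine Finset.sum_congr rfl fun x _ => Finset.sum_congr rfl fun x' _ => ?_
    rw [← Complex.mul_conj', map_sum, Finset.sum_mul_sum]
    refine Finset.sum_congr rfl fun y _ => Finset.sum_congr rfl fun y' _ => ?_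
    rw [map_mul, Complex.conj_conj]
  have h3 : ∑ x ∈ s, ∑ x' ∈ s, ∑ y ∈ t, ∑ y' ∈ t,
        u x y * conj (u x' y) * (conj (u x y') * u x' y') =
      ∑ y ∈ t, ∑ y' ∈ t, ∑ x ∈ s, ∑ x' ∈ s,
        u x y * conj (u x y') * (conj (u x' y) * u x' y') := by
    have e1 : ∀ x ∈ s, ∑ x' ∈ s, ∑ y ∈ t, ∑ y' ∈ t,
        u x y * conj (u x' y) * (conj (u x y') * u x' y') =
        ∑ y ∈ t, ∑ y' ∈ t, ∑ x' ∈ s,
          u x y * conj (u x y') * (conj (u x' y) * u x' y') := by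
      intro x _
      rw [Finset.sum_comm]
      refine Finset.sum_congr rfl fun y _ => ?_
      rw [Finset.sum_comm]
      refine Finset.sum_congr rfl fun y' _ => Finset.sum_congr rfl fun x' _ => ?_
      ring
    rw [Finset.sum_congr rfl e1, Finset.sum_comm]
    refine Finset.sum_congr rfl fun y _ => ?_
    rw [Finset.sum_comm]
  have h4 : ((∑ x ∈ s, ∑ x' ∈ s, ‖∑ y ∈ t, u x y * conj (u x' y)‖ ^ 2 : ℝ) : ℂ) =
      ((∑ y ∈ t, ∑ y' ∈ t, ‖∑ x ∈ s, u x y * conj (u x y')‖ ^ 2 : ℝ) : ℂ) := by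
    rw [h1, h2, h3]
  exact_mod_cast h4

/-- **majorant**: if `u u* ≤ c v v*` (as quadratic forms on the box) then
`|u u*|_HS ≤ c |v v*|_HS` -/
theorem hs_majorant {X Y Z : Type*} (s : Finset X) (t : Finset Y) (t' : Finset Z) (u : X → Y → ℂ)
    (v : X → Z → ℂ) {c : ℝ} (hc : 0 ≤ c)
    (h : ∀ f : X → ℂ, ∑ y ∈ t, ‖∑ x ∈ s, f x * u x y‖ ^ 2 ≤
      c * ∑ z ∈ t', ‖∑ x ∈ s, f x * v x z‖ ^ 2) :
    ∑ x ∈ s, ∑ x' ∈ s, ‖∑ y ∈ t, u x y * conj (u x' y)‖ ^ 2 ≤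
      c ^ 2 * ∑ x ∈ s, ∑ x' ∈ s, ‖∑ z ∈ t', v x z * conj (v x' z)‖ ^ 2 := by
  rw [s4_symm s t u, s4_symm s t' v]
  have hsw : ∀ a b : ℂ, ‖conj a * b‖ = ‖a * conj b‖ := by
    intro a b
    rw [norm_mul, norm_mul, RCLike.norm_conj, RCLike.norm_conj]
  -- first step: fix y'
  have h1 : ∀ y' ∈ t, ∑ y ∈ t, ‖∑ x ∈ s, u x y * conj (u x y')‖ ^ 2 ≤
      c * ∑ z ∈ t', ‖∑ x ∈ s, v x z * conj (u x y')‖ ^ 2 := by
    intro y' _
    have := h (fun x => conj (u x y'))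
    simpa only [mul_comm] using this
  have h2 : ∀ z ∈ t', ∑ y' ∈ t, ‖∑ x ∈ s, v x z * conj (u x y')‖ ^ 2 ≤
      c * ∑ z' ∈ t', ‖∑ x ∈ s, v x z * conj (v x z')‖ ^ 2 := by
    intro z _
    have h3 := h (fun x => conj (v x z))
    have h4 : ∀ y', ‖∑ x ∈ s, v x z * conj (u x y')‖ = ‖∑ x ∈ s, conj (v x z) * u x y'‖ := by
      intro y'
      rw [← RCLike.norm_conj (∑ x ∈ s, v x z * conj (u x y')), map_sum]
      congr 1
      refine Finset.sum_congr rfl fun x _ => ?_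
      rw [map_mul, Complex.conj_conj]
    have h5 : ∀ z', ‖∑ x ∈ s, v x z * conj (v x z')‖ = ‖∑ x ∈ s, conj (v x z) * v x z'‖ := by
      intro z'
      rw [← RCLike.norm_conj (∑ x ∈ s, v x z * conj (v x z')), map_sum]
      congr 1
      refine Finset.sum_congr rfl fun x _ => ?_
      rw [map_mul, Complex.conj_conj]
    simp only [h4, h5]
    exact h3
  calc ∑ y ∈ t, ∑ y' ∈ t, ‖∑ x ∈ s, u x y * conj (u x y')‖ ^ 2
      = ∑ y' ∈ t, ∑ y ∈ t, ‖∑ x ∈ s, u x y * conj (u x y')‖ ^ 2 := Finset.sum_comm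
    _ ≤ ∑ y' ∈ t, c * ∑ z ∈ t', ‖∑ x ∈ s, v x z * conj (u x y')‖ ^ 2 := Finset.sum_le_sum h1
    _ = c * ∑ z ∈ t', ∑ y' ∈ t, ‖∑ x ∈ s, v x z * conj (u x y')‖ ^ 2 := by
        rw [← Finset.mul_sum, Finset.sum_comm]
    _ ≤ c * ∑ z ∈ t', c * ∑ z' ∈ t', ‖∑ x ∈ s, v x z * conj (v x z')‖ ^ 2 :=
        mul_le_mul_of_nonneg_left (Finset.sum_le_sum h2) hc
    _ = _ := by rw [← Finset.mul_sum]; ring

/-! ### the operator bound of the exit cells at larger scales -/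

theorem dI_split (n : ℕ) (a : ℤ) : dI (n + 1) a = dI n (2 * a) ∪ dI n (2 * a + 1) := by
  ext y
  unfold dI
  rw [mem_union, mem_Ico, mem_Ico, mem_Ico]
  have e1 : a * 2 ^ (n + 1) = 2 * a * 2 ^ n := by rw [pow_succ]; ring
  have e2 : (a + 1) * 2 ^ (n + 1) = (2 * a + 1 + 1) * 2 ^ n := by rw [pow_succ]; ring
  rw [e1, e2]
  have hpos : (0 : ℤ) < 2 ^ n := by positivity
  constructor
  · rintro ⟨h1, h2⟩
    by_cases h : y < (2 * a + 1) * 2 ^ n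
    · exact Or.inl ⟨h1, h⟩
    · exact Or.inr ⟨not_lt.1 h, h2⟩
  · rintro (⟨h1, h2⟩ | ⟨h1, h2⟩)
    · exact ⟨h1, h2.trans (by nlinarith)⟩
    · exact ⟨le_trans (by nlinarith) h1, h2⟩

theorem dI_disj (n : ℕ) (a : ℤ) : Disjoint (dI n (2 * a)) (dI n (2 * a + 1)) := by
  unfold dI
  rw [Finset.disjoint_left]
  intro y hy hy'
  rw [mem_Ico] at hy hy'
  linarith [hy.2, hy'.1]

/-- **exit cells: the operator bound at all larger scales** -/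
theorem opS_up {B : ℤ → ℤ → ℂ} {r : ℝ} {n : ℕ}
    (h : ∀ a b, OpS (dI n a) (dI n b) B (r * 2 ^ n)) (m : ℕ) (hm : n ≤ m) :
    ∀ a b, OpS (dI m a) (dI m b) B (r * 2 ^ m) := by
  induction m, hm using Nat.le_induction with
  | base => exact h
  | succ m hm ih =>
    intro a b
    rw [dI_split m a, dI_split m b]
    have e : r * 2 ^ (m + 1) = 2 * (r * 2 ^ m) := by rw [pow_succ]; ring
    rw [e]
    exact opS_union (dI_disj m b) (ih _ _) (ih _ _) (ih _ _) (ih _ _)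

/-! ### `HSk` from the cells -/

/-- one kernel, one vertex value, one box -/
theorem hs_box_cells (B : ℤ → ℤ → ℂ) (n : ℕ) (r c : ℝ) (hc : 0 ≤ c)
    (h : ∀ a b, OpS (dI n a) (dI n b) B (r * 2 ^ n)) (a : ℤ) (L : ℕ) (hNL : 2 ^ n ≤ L) (q : ℤ)
    (hB : ∀ y, ¬ (a ≤ y ∧ y < a + L) → ∀ x, B x y = 0) (u : ℤ → κ → ℂ)
    (hu : ∀ f : ℕ → ℂ, ∑ l, ‖∑ j ∈ range (2 ^ n), f j * u (q + (j : ℤ)) l‖ ^ 2 ≤
      (c / L) * ∑ y ∈ Ico a (a + L), ‖∑ j ∈ range (2 ^ n), f j * B (q + (j : ℤ)) y‖ ^ 2) :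
    (1 / ((2 ^ n : ℕ) : ℝ) ^ 2) * ∑ j ∈ range (2 ^ n), ∑ j' ∈ range (2 ^ n),
        ‖∑ l, u (q + (j : ℤ)) l * conj (u (q + (j' : ℤ)) l)‖ ^ 2 ≤
      8 * (c * r) ^ 2 * ((1 / ((L : ℝ) * 2 ^ n)) *
        ∑ y ∈ Ico a (a + L), ∑ j ∈ range (2 ^ n), ‖B (q + (j : ℤ)) y‖ ^ 2) := by
  have h0 := exit_cost_cells B n r c h a L hNL q hB
  refine le_trans ?_ h0
  have h1 := hs_majorant (range (2 ^ n)) (univ : Finset κ) (Ico a (a + (L : ℤ)))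
    (fun j l => u (q + (j : ℤ)) l) (fun j y => B (q + (j : ℤ)) y) (c := c / L) (by positivity) hu
  have e1 : (((2 ^ n : ℕ) : ℝ)) = 2 ^ n := by push_cast; rfl
  rw [e1]
  refine mul_le_mul_of_nonneg_left (h1.trans (le_of_eq ?_)) (by positivity)
  rw [Finset.mul_sum]
  refine Finset.sum_congr rfl fun j _ => ?_
  rw [Finset.mul_sum]
  refine Finset.sum_congr rfl fun j' _ => ?_
  rw [norm_smul, mul_pow, Real.norm_eq_abs, sq_abs]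
  ring

/-- **`HSk` from the exit cells**: frames dominated by `(c/L) C C*`, `C` with `OpS` bound `r 2^m` on
the aligned cells of every scale `m = p.1 + k` -/
theorem hsk_of_cells (S : Finset ι) (lam : ι → ℝ) (hlam : ∀ n ∈ S, 0 ≤ lam n)
    (R : Finset (ℕ × ℤ)) (κ0 : ℕ) (T T' : Finset ℤ) (U : ι → ℤ → ℤ → κ → ℂ)
    (C : ι → ℤ → ℤ → ℤ → ℂ) (a : ι → ℤ → ℤ) (L : ℕ) {c r B : ℝ} (hc : 0 ≤ c)
    (hL : ∀ p ∈ R, 2 ^ (p.1 + κ0) ≤ L)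
    (hC : ∀ n ∈ S, ∀ z ∈ T, ∀ p ∈ R, ∀ k ≤ κ0, ∀ i j,
      OpS (dI (p.1 + k) i) (dI (p.1 + k) j) (C n z) (r * 2 ^ (p.1 + k)))
    (hsupp : ∀ n ∈ S, ∀ z ∈ T, ∀ y, ¬ (a n z ≤ y ∧ y < a n z + L) → ∀ x, C n z x y = 0)
    (hrow : ∀ n ∈ S, ∀ z ∈ T, ∀ x ∉ T', ∀ y, C n z x y = 0)
    (hu : ∀ n ∈ S, ∀ z ∈ T, ∀ (q : ℤ) (N : ℕ) (f : ℕ → ℂ),
      ∑ l, ‖∑ j ∈ range N, f j * mU T T' (U n) z (q + (j : ℤ)) l‖ ^ 2 ≤
      (c / L) * ∑ y ∈ Ico (a n z) (a n z + L),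
        ‖∑ j ∈ range N, f j * C n z (q + (j : ℤ)) y‖ ^ 2)
    (hB : 8 * (c * r) ^ 2 * ((1 / (L : ℝ)) * ∑ n ∈ S, lam n * ∑ z ∈ T, ∑ x ∈ T',
      ∑ y ∈ Ico (a n z) (a n z + L), ‖C n z x y‖ ^ 2) ≤ B) :
    HSk S lam R κ0 B T T' U := by
  intro p hp k hk Λ
  refine le_trans ?_ hB
  set N : ℕ := 2 ^ (p.1 + k) with hN
  have hN0 : 0 < N := by positivity
  have hN' : (0 : ℝ) < N := by exact_mod_cast hN0
  have hNL : N ≤ L := le_trans (Nat.pow_le_pow_right (by norm_num) (by omega)) (hL p hp)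
  have hL0 : 0 < L := lt_of_lt_of_le hN0 hNL
  have hL' : (0 : ℝ) < L := by exact_mod_cast hL0
  have e1 : ((N : ℕ) : ℝ) = 2 ^ (p.1 + k) := by rw [hN]; push_cast; rfl
  have h1 : ∀ n ∈ S, ∀ z ∈ T, ∀ r0 ∈ Λ, (1 / (N : ℝ) ^ 2) * ∑ j ∈ range N, ∑ j' ∈ range N,
        ‖kK T T' (U n) z (r0 + (j : ℤ)) (r0 + (j' : ℤ))‖ ^ 2 ≤
      8 * (c * r) ^ 2 * ((1 / ((L : ℝ) * N)) *
        ∑ j ∈ range N, ∑ y ∈ Ico (a n z) (a n z + L), ‖C n z (r0 + (j : ℤ)) y‖ ^ 2) := by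
    intro n hn z hz r0 _
    have h2 := hs_box_cells (κ := κ) (C n z) (p.1 + k) r c hc (hC n hn z hz p hp k hk) (a n z) L
      hNL r0 (hsupp n hn z hz) (fun x l => mU T T' (U n) z x l) (hu n hn z hz r0 N)
    rw [← e1] at h2
    rw [Finset.sum_comm (s := Ico (a n z) (a n z + (L : ℤ)))] at h2
    exact h2
  have h2 : ∀ n ∈ S, ∑ r0 ∈ Λ, ∑ z ∈ T, (1 / (N : ℝ) ^ 2) * ∑ j ∈ range N, ∑ j' ∈ range N,
        ‖kK T T' (U n) z (r0 + (j : ℤ)) (r0 + (j' : ℤ))‖ ^ 2 ≤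
      8 * (c * r) ^ 2 * ((1 / (L : ℝ)) * ∑ z ∈ T, ∑ x ∈ T',
        ∑ y ∈ Ico (a n z) (a n z + L), ‖C n z x y‖ ^ 2) := by
    intro n hn
    rw [Finset.sum_comm]
    have h3 : ∀ z ∈ T, ∑ r0 ∈ Λ, (1 / (N : ℝ) ^ 2) * ∑ j ∈ range N, ∑ j' ∈ range N,
        ‖kK T T' (U n) z (r0 + (j : ℤ)) (r0 + (j' : ℤ))‖ ^ 2 ≤
        8 * (c * r) ^ 2 * ((1 / (L : ℝ)) * ∑ x ∈ T',
          ∑ y ∈ Ico (a n z) (a n z + L), ‖C n z x y‖ ^ 2) := by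
      intro z hz
      refine (Finset.sum_le_sum fun r0 hr0 => h1 n hn z hz r0 hr0).trans ?_
      rw [← Finset.mul_sum, ← Finset.mul_sum]
      refine mul_le_mul_of_nonneg_left ?_ (by positivity)
      have h4 := sum_pos_le N Λ T' (fun x => ∑ y ∈ Ico (a n z) (a n z + L), ‖C n z x y‖ ^ 2)
        (fun x => Finset.sum_nonneg fun _ _ => sq_nonneg _)
        (fun x hx => Finset.sum_eq_zero fun y _ => by rw [hrow n hn z hz x hx y]; simp)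
      calc (1 / ((L : ℝ) * N)) * ∑ r0 ∈ Λ, ∑ j ∈ range N,
            ∑ y ∈ Ico (a n z) (a n z + L), ‖C n z (r0 + (j : ℤ)) y‖ ^ 2
          ≤ (1 / ((L : ℝ) * N)) * (N * ∑ x ∈ T', ∑ y ∈ Ico (a n z) (a n z + L),
            ‖C n z x y‖ ^ 2) := mul_le_mul_of_nonneg_left h4 (by positivity)
        _ = _ := by field_simp
    refine (Finset.sum_le_sum h3).trans (le_of_eq ?_)
    rw [← Finset.mul_sum, ← Finset.mul_sum]
  calc ∑ n ∈ S, lam n * ∑ r0 ∈ Λ, ∑ z ∈ T, (1 / (N : ℝ) ^ 2) *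
        ∑ j ∈ range N, ∑ j' ∈ range N,
          ‖kK T T' (U n) z (r0 + (j : ℤ)) (r0 + (j' : ℤ))‖ ^ 2
      ≤ ∑ n ∈ S, lam n * (8 * (c * r) ^ 2 * ((1 / (L : ℝ)) * ∑ z ∈ T, ∑ x ∈ T',
        ∑ y ∈ Ico (a n z) (a n z + L), ‖C n z x y‖ ^ 2)) :=
        Finset.sum_le_sum fun n hn => mul_le_mul_of_nonneg_left (h2 n hn) (hlam n hn)
    _ = _ := by
        simp only [Finset.mul_sum]
        refine Finset.sum_congr rfl fun n _ => Finset.sum_congr rfl fun z _ =>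
          Finset.sum_congr rfl fun x _ => Finset.sum_congr rfl fun y _ => ?_
        ring

end Crest.Agent.R079.SWc360
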