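import Crest.Agent.R079.XAdd_429
import Crest.Agent.R079.EW2_990
import Crest.Agent.R079.EWd_49
import Crest.Agent.R079.GrowthDefs_248

/-! R079, Step II, T5 leaf [S3] (helper219, after 988 28605, 429 XCut/XAdd, note 781 (T5)):
`S₄` node budget of the X word from the ROW FORM of a near minimiser.  No height of `X` or of `C`.

At every node `p`: `X = C - f + D` on `p`, `|f| ≤ Mf`, `|D| ≤ Md`, `|D|₂² ≤ ED len p`, `Y = C - f` has
level `Λ len p` against products, energy `≤ EY len p`, and on every set of rows / columns energy at most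
that of `C` plus `η len p`; rows and columns of `C` have energy `≤ ρ₀ len p`.  Then
`S4W` with `64 (512 h³ Λ + 2 (256 ρ₀ / h)² EY) + 64 ((256 ρ₀ + 2 Mf²) 4 η + Md² ED) ≤ s4 V`. -/

set_option autoImplicit false
set_option linter.unusedVariables false

namespace Crest.Agent.R079.XS4x219

open Finset Crest.Agent.R079.Grid Crest.Agent.R079.Growth Crest.Agent.R079.R244
  Crest.Agent.R079.XDual988 Crest.Agent.R079.XMix429 Crest.Agent.R079.XCut429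
  Crest.Agent.R079.XAdd429 Crest.Agent.R079.F24

/-- total energy bound from every finite set of triples -/
def Tot (K : ℤ → ℤ → ℤ → ℂ) (E : ℝ) : Prop :=
  ∀ S : Finset (ℤ × ℤ × ℤ), ∑ t ∈ S, ‖K t.1 t.2.1 t.2.2‖ ^ 2 ≤ E

section abstract

variable {T T' : Finset ℤ} {Y C f D : ℤ → ℤ → ℤ → ℂ} {ρ η Λ : ℝ}

open Classical in
/-- the good part: bad rows and bad columns removed -/
noncomputable def Yg (T T' : Finset ℤ) (ρ : ℝ) (Y : ℤ → ℤ → ℤ → ℂ) (w z z' : ℤ) : ℂ :=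
  if 2 * ρ < ∑ y ∈ T', ‖Y w z y‖ ^ 2 ∨ 2 * ρ < ∑ x ∈ T, ‖Y w x z'‖ ^ 2 then 0 else Y w z z'

open Classical in
/-- the bad part -/
noncomputable def Yb (T T' : Finset ℤ) (ρ : ℝ) (Y : ℤ → ℤ → ℤ → ℂ) (w z z' : ℤ) : ℂ :=
  if 2 * ρ < ∑ y ∈ T', ‖Y w z y‖ ^ 2 ∨ 2 * ρ < ∑ x ∈ T, ‖Y w x z'‖ ^ 2 then Y w z z' else 0

lemma Yg_add_Yb (w z z' : ℤ) : Y w z z' = Yg T T' ρ Y w z z' + Yb T T' ρ Y w z z' := by
  unfold Yg Yb
  split_ifs <;> simp

lemma norm_Yg_le (w z z' : ℤ) : ‖Yg T T' ρ Y w z z'‖ ≤ ‖Y w z z'‖ := by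
  unfold Yg
  split_ifs <;> simp

lemma norm_Yb_le (w z z' : ℤ) : ‖Yb T T' ρ Y w z z'‖ ≤ ‖Y w z z'‖ := by
  unfold Yb
  split_ifs <;> simp

/-- rows of the good part -/
lemma rows_Yg (hρ : 0 ≤ ρ) (hsup : ∀ w z z', Y w z z' ≠ 0 → z ∈ T ∧ z' ∈ T') (w z : ℤ)
    (s : Finset ℤ) : ∑ y ∈ s, ‖Yg T T' ρ Y w z y‖ ^ 2 ≤ 2 * ρ := by
  classical
  by_cases hb : 2 * ρ < ∑ y ∈ T', ‖Y w z y‖ ^ 2
  · have h0 : ∀ y ∈ s, ‖Yg T T' ρ Y w z y‖ ^ 2 = 0 := by
      intro y _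
      unfold Yg
      rw [if_pos (Or.inl hb), norm_zero, zero_pow two_ne_zero]
    rw [Finset.sum_congr rfl h0, Finset.sum_const_zero]
    linarith
  · push Not at hb
    refine le_trans ?_ hb
    calc ∑ y ∈ s, ‖Yg T T' ρ Y w z y‖ ^ 2 ≤ ∑ y ∈ s, ‖Y w z y‖ ^ 2 :=
          Finset.sum_le_sum fun y _ => pow_le_pow_left₀ (norm_nonneg _) (norm_Yg_le _ _ _) 2
      _ = ∑ y ∈ s.filter (fun y => y ∈ T'), ‖Y w z y‖ ^ 2 := by
          rw [Finset.sum_filter]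
          refine Finset.sum_congr rfl fun y _ => ?_
          split_ifs with hy
          · rfl
          · have : Y w z y = 0 := by
              by_contra hne
              exact hy (hsup w z y hne).2
            rw [this, norm_zero, zero_pow two_ne_zero]
      _ ≤ ∑ y ∈ T', ‖Y w z y‖ ^ 2 := by
          refine Finset.sum_le_sum_of_subset_of_nonneg ?_ (fun _ _ _ => by positivity)
          intro y hy
          exact (Finset.mem_filter.1 hy).2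

/-- columns of the good part -/
lemma cols_Yg (hρ : 0 ≤ ρ) (hsup : ∀ w z z', Y w z z' ≠ 0 → z ∈ T ∧ z' ∈ T') (w z' : ℤ)
    (s : Finset ℤ) : ∑ x ∈ s, ‖Yg T T' ρ Y w x z'‖ ^ 2 ≤ 2 * ρ := by
  classical
  by_cases hb : 2 * ρ < ∑ x ∈ T, ‖Y w x z'‖ ^ 2
  · have h0 : ∀ x ∈ s, ‖Yg T T' ρ Y w x z'‖ ^ 2 = 0 := by
      intro x _
      unfold Yg
      rw [if_pos (Or.inr hb), norm_zero, zero_pow two_ne_zero]
    rw [Finset.sum_congr rfl h0, Finset.sum_const_zero]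
    linarith
  · push Not at hb
    refine le_trans ?_ hb
    calc ∑ x ∈ s, ‖Yg T T' ρ Y w x z'‖ ^ 2 ≤ ∑ x ∈ s, ‖Y w x z'‖ ^ 2 :=
          Finset.sum_le_sum fun x _ => pow_le_pow_left₀ (norm_nonneg _) (norm_Yg_le _ _ _) 2
      _ = ∑ x ∈ s.filter (fun x => x ∈ T), ‖Y w x z'‖ ^ 2 := by
          rw [Finset.sum_filter]
          refine Finset.sum_congr rfl fun x _ => ?_
          split_ifs with hx
          · rfl
          · have : Y w x z' = 0 := by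
              by_contra hne
              exact hx (hsup w x z' hne).1
            rw [this, norm_zero, zero_pow two_ne_zero]
      _ ≤ ∑ x ∈ T, ‖Y w x z'‖ ^ 2 := by
          refine Finset.sum_le_sum_of_subset_of_nonneg ?_ (fun _ _ _ => by positivity)
          intro x hx
          exact (Finset.mem_filter.1 hx).2

/-- level of the good part -/
lemma lev_Yg {A : Finset ℤ} (h : LevP A (fun _ => (1 : ℝ)) Y T T' Λ) :
    LevP A (fun _ => (1 : ℝ)) (Yg T T' ρ Y) T T' Λ := by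
  classical
  intro u v hu hv
  have h1 := h (fun w z => if 2 * ρ < ∑ y ∈ T', ‖Y w z y‖ ^ 2 then 0 else u w z)
    (fun w z' => if 2 * ρ < ∑ x ∈ T, ‖Y w x z'‖ ^ 2 then 0 else v w z')
    (fun w z => by
      split_ifs
      · simp
      · exact hu w z)
    (fun w z' => by
      split_ifs
      · simp
      · exact hv w z')
  refine le_trans (le_of_eq ?_) h1
  congr 1
  refine Finset.sum_congr rfl fun w _ => ?_
  congr 1
  refine Finset.sum_congr rfl fun z _ => Finset.sum_congr rfl fun z' _ => ?_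
  unfold Yg
  by_cases c1 : 2 * ρ < ∑ y ∈ T', ‖Y w z y‖ ^ 2
  · rw [if_pos (Or.inl c1), if_pos c1]
    ring
  · by_cases c2 : 2 * ρ < ∑ x ∈ T, ‖Y w x z'‖ ^ 2
    · rw [if_pos (Or.inr c2), if_pos c2]
      ring
    · rw [if_neg (by tauto), if_neg c1, if_neg c2]

/-- energy of the bad part -/
lemma tot_Yb (hρ : 0 ≤ ρ) (hsup : ∀ w z z', Y w z z' ≠ 0 → z ∈ T ∧ z' ∈ T')
    (hr : ∀ S : Finset (ℤ × ℤ), ∑ q ∈ S, ∑ y ∈ T', ‖Y q.1 q.2 y‖ ^ 2 ≤
      ∑ q ∈ S, ∑ y ∈ T', ‖C q.1 q.2 y‖ ^ 2 + η)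
    (hc : ∀ S : Finset (ℤ × ℤ), ∑ q ∈ S, ∑ x ∈ T, ‖Y q.1 x q.2‖ ^ 2 ≤
      ∑ q ∈ S, ∑ x ∈ T, ‖C q.1 x q.2‖ ^ 2 + η)
    (hCr : ∀ w z, ∑ y ∈ T', ‖C w z y‖ ^ 2 ≤ ρ) (hCc : ∀ w z', ∑ x ∈ T, ‖C w x z'‖ ^ 2 ≤ ρ) :
    Tot (Yb T T' ρ Y) (4 * η) := by
  classical
  intro S
  -- rows
  set Sr := S.filter (fun t => 2 * ρ < ∑ y ∈ T', ‖Y t.1 t.2.1 y‖ ^ 2) with hSr
  set Sc := S.filter (fun t => 2 * ρ < ∑ x ∈ T, ‖Y t.1 x t.2.2‖ ^ 2) with hSc
  have h1 : ∑ t ∈ S, ‖Yb T T' ρ Y t.1 t.2.1 t.2.2‖ ^ 2 ≤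
      ∑ t ∈ Sr, ‖Y t.1 t.2.1 t.2.2‖ ^ 2 + ∑ t ∈ Sc, ‖Y t.1 t.2.1 t.2.2‖ ^ 2 := by
    rw [hSr, hSc, Finset.sum_filter, Finset.sum_filter, ← Finset.sum_add_distrib]
    refine Finset.sum_le_sum fun t _ => ?_
    unfold Yb
    by_cases c1 : 2 * ρ < ∑ y ∈ T', ‖Y t.1 t.2.1 y‖ ^ 2
    · rw [if_pos (Or.inl c1), if_pos c1]
      split_ifs
      · linarith [sq_nonneg ‖Y t.1 t.2.1 t.2.2‖]
      · linarith
    · by_cases c2 : 2 * ρ < ∑ x ∈ T, ‖Y t.1 x t.2.2‖ ^ 2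
      · rw [if_pos (Or.inr c2), if_neg c1, if_pos c2]
        linarith
      · rw [if_neg (by tauto), if_neg c1, if_neg c2, norm_zero]
        norm_num
  have h2 : ∑ t ∈ Sr, ‖Y t.1 t.2.1 t.2.2‖ ^ 2 ≤ 2 * η := by
    set R : Finset (ℤ × ℤ) := S.image (fun t => (t.1, t.2.1)) with hR
    have h3 := rows_near_min R T' (fun q y => C q.1 q.2 y) (fun q y => Y q.1 q.2 y)
      (η := η) (ρ := ρ) (fun S' _ => hr S') (fun q _ => hCr q.1 q.2)
    refine le_trans ?_ h3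
    rw [← Finset.sum_product']
    have h4 : ∑ t ∈ Sr, ‖Y t.1 t.2.1 t.2.2‖ ^ 2 =
        ∑ t ∈ Sr.filter (fun t => t.2.2 ∈ T'), ‖Y t.1 t.2.1 t.2.2‖ ^ 2 := by
      rw [Finset.sum_filter (s := Sr)]
      refine Finset.sum_congr rfl fun t _ => ?_
      split_ifs with hy
      · rfl
      · have : Y t.1 t.2.1 t.2.2 = 0 := by
          by_contra hne
          exact hy (hsup _ _ _ hne).2
        rw [this, norm_zero, zero_pow two_ne_zero]
    rw [h4]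
    have hinj : Set.InjOn (fun t : ℤ × ℤ × ℤ => ((t.1, t.2.1), t.2.2))
        (Sr.filter (fun t => t.2.2 ∈ T')) := by
      rintro ⟨a, b, c⟩ _ ⟨a', b', c'⟩ _ h
      simp only [Prod.mk.injEq] at h ⊢
      exact ⟨h.1.1, h.1.2, h.2⟩
    have e := Finset.sum_image (f := fun x : (ℤ × ℤ) × ℤ => ‖Y x.1.1 x.1.2 x.2‖ ^ 2) hinj
    rw [← e]
    refine Finset.sum_le_sum_of_subset_of_nonneg ?_ (fun _ _ _ => by positivity)
    intro x hx
    obtain ⟨t, ht, rfl⟩ := Finset.mem_image.1 hx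
    rw [Finset.mem_filter, hSr, Finset.mem_filter] at ht
    rw [Finset.mem_product, Finset.mem_filter]
    exact ⟨⟨Finset.mem_image_of_mem _ ht.1.1, ht.1.2⟩, ht.2⟩
  have h2' : ∑ t ∈ Sc, ‖Y t.1 t.2.1 t.2.2‖ ^ 2 ≤ 2 * η := by
    set R : Finset (ℤ × ℤ) := S.image (fun t => (t.1, t.2.2)) with hR
    have h3 := rows_near_min R T (fun q x => C q.1 x q.2) (fun q x => Y q.1 x q.2)
      (η := η) (ρ := ρ) (fun S' _ => hc S') (fun q _ => hCc q.1 q.2)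
    refine le_trans ?_ h3
    rw [← Finset.sum_product']
    have h4 : ∑ t ∈ Sc, ‖Y t.1 t.2.1 t.2.2‖ ^ 2 =
        ∑ t ∈ Sc.filter (fun t => t.2.1 ∈ T), ‖Y t.1 t.2.1 t.2.2‖ ^ 2 := by
      rw [Finset.sum_filter (s := Sc)]
      refine Finset.sum_congr rfl fun t _ => ?_
      split_ifs with hy
      · rfl
      · have : Y t.1 t.2.1 t.2.2 = 0 := by
          by_contra hne
          exact hy (hsup _ _ _ hne).1
        rw [this, norm_zero, zero_pow two_ne_zero]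
    rw [h4]
    have hinj : Set.InjOn (fun t : ℤ × ℤ × ℤ => ((t.1, t.2.2), t.2.1))
        (Sc.filter (fun t => t.2.1 ∈ T)) := by
      rintro ⟨a, b, c⟩ _ ⟨a', b', c'⟩ _ h
      simp only [Prod.mk.injEq] at h ⊢
      exact ⟨h.1.1, h.2, h.1.2⟩
    have e := Finset.sum_image (f := fun x : (ℤ × ℤ) × ℤ => ‖Y x.1.1 x.2 x.1.2‖ ^ 2) hinj
    rw [← e]
    refine Finset.sum_le_sum_of_subset_of_nonneg ?_ (fun _ _ _ => by positivity)
    intro x hx
    obtain ⟨t, ht, rfl⟩ := Finset.mem_image.1 hx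
    rw [Finset.mem_filter, hSc, Finset.mem_filter] at ht
    rw [Finset.mem_product, Finset.mem_filter]
    exact ⟨⟨Finset.mem_image_of_mem _ ht.1.1, ht.1.2⟩, ht.2⟩
  linarith

lemma e2_mono {A B : ℤ → ℤ → ℂ} (h : ∀ x y, ‖A x y‖ ≤ ‖B x y‖) (N : ℕ) (q p : ℤ) :
    e2 A N q p ≤ e2 B N q p := by
  unfold e2
  refine mul_le_mul_of_nonneg_left ?_ (by positivity)
  exact Finset.sum_le_sum fun i _ => Finset.sum_le_sum fun j _ =>
    pow_le_pow_left₀ (norm_nonneg _) (h _ _) 2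

lemma e2_nonneg (A : ℤ → ℤ → ℂ) (N : ℕ) (q p : ℤ) : 0 ≤ e2 A N q p := by
  unfold e2
  positivity

/-- box energy of `C - f` -/
lemma e2_sub_le {A B Z : ℤ → ℤ → ℂ} (hZ : ∀ x y, Z x y = A x y - B x y) {N : ℕ} (hN : 0 < N)
    {ρ M : ℝ} (hA : ∀ x q : ℤ, ∑ j ∈ range N, ‖A x (q + (j : ℤ))‖ ^ 2 ≤ ρ)
    (hM : 0 ≤ M) (hB : ∀ x y, ‖B x y‖ ≤ M) (q p : ℤ) :
    e2 Z N q p ≤ 2 * ρ / N + 2 * M ^ 2 := by
  have hN' : (0 : ℝ) < N := by exact_mod_cast hN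
  unfold e2
  have h1 : ∑ i ∈ range N, ∑ j ∈ range N, ‖Z (q + (i : ℤ)) (p + (j : ℤ))‖ ^ 2 ≤
      ∑ i ∈ range N, (2 * ρ + N * (2 * M ^ 2)) := by
    refine Finset.sum_le_sum fun i _ => ?_
    have h2 : ∀ j ∈ range N, ‖Z (q + (i : ℤ)) (p + (j : ℤ))‖ ^ 2 ≤
        2 * ‖A (q + (i : ℤ)) (p + (j : ℤ))‖ ^ 2 + 2 * M ^ 2 := by
      intro j _
      rw [hZ]
      have h3 := norm_sub_le (A (q + (i : ℤ)) (p + (j : ℤ))) (B (q + (i : ℤ)) (p + (j : ℤ)))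
      have h4 := hB (q + (i : ℤ)) (p + (j : ℤ))
      have h5 : ‖A (q + (i : ℤ)) (p + (j : ℤ)) - B (q + (i : ℤ)) (p + (j : ℤ))‖ ≤
          ‖A (q + (i : ℤ)) (p + (j : ℤ))‖ + M := by linarith
      have h6 := pow_le_pow_left₀ (norm_nonneg _) h5 2
      nlinarith [sq_nonneg (‖A (q + (i : ℤ)) (p + (j : ℤ))‖ - M)]
    refine (Finset.sum_le_sum h2).trans ?_
    rw [Finset.sum_add_distrib, ← Finset.mul_sum, Finset.sum_const, Finset.card_range,
      nsmul_eq_mul]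
    have := hA (q + (i : ℤ)) p
    linarith
  rw [Finset.sum_const, Finset.card_range, nsmul_eq_mul] at h1
  refine (mul_le_mul_of_nonneg_left h1 (by positivity)).trans (le_of_eq ?_)
  field_simp

/-- **X WORD, ABSTRACT ROW FORM** -/
theorem sum_e4_abs {X : ℤ → ℤ → ℤ → ℂ} {h Mf Md ED EY : ℝ} {N : ℕ} (hN : 0 < N) (hh : 0 < h)
    {α γ δ : ℤ} (hγ : γ ≠ 0) (hδ : δ ≠ 0) (c0 : ℤ)
    (hstr : ∀ w z z', Y w z z' ≠ 0 → c0 ≤ α * w + γ * z + δ * z' ∧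
      α * w + γ * z + δ * z' < c0 + 128 * N)
    (hsup : ∀ w z z', Y w z z' ≠ 0 → z ∈ T ∧ z' ∈ T')
    (hX : ∀ w z z', X w z z' = Y w z z' + D w z z')
    (hY : ∀ w z z', Y w z z' = C w z z' - f w z z')
    (hMf : 0 ≤ Mf) (hf : ∀ w z z', ‖f w z z'‖ ≤ Mf)
    (hMd : 0 ≤ Md) (hDb : ∀ w z z', ‖D w z z'‖ ≤ Md) (hDe : Tot D ED) (hYe : Tot Y EY)
    (hρ : 0 ≤ ρ)
    (hCr : ∀ w z (s : Finset ℤ), ∑ y ∈ s, ‖C w z y‖ ^ 2 ≤ ρ)
    (hCc : ∀ w z' (s : Finset ℤ), ∑ x ∈ s, ‖C w x z'‖ ^ 2 ≤ ρ)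
    (hr : ∀ S : Finset (ℤ × ℤ), ∑ q ∈ S, ∑ y ∈ T', ‖Y q.1 q.2 y‖ ^ 2 ≤
      ∑ q ∈ S, ∑ y ∈ T', ‖C q.1 q.2 y‖ ^ 2 + η)
    (hc : ∀ S : Finset (ℤ × ℤ), ∑ q ∈ S, ∑ x ∈ T, ‖Y q.1 x q.2‖ ^ 2 ≤
      ∑ q ∈ S, ∑ x ∈ T, ‖C q.1 x q.2‖ ^ 2 + η)
    (hL : ∀ A : Finset ℤ, LevP A (fun _ => (1 : ℝ)) Y T T' Λ)
    (S : Finset (ℤ × ℤ × ℤ)) :
    ∑ t ∈ S, e4 (X t.1) N t.2.1 t.2.2 ≤
      64 * (4 * (128 * (h ^ 3 * Λ)) + 2 * ((2 * ρ / (h * N)) ^ 2 * EY)) +
      64 * ((2 * ρ / N + 2 * Mf ^ 2) * (4 * η) + Md ^ 2 * ED) := by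
  classical
  have hN' : (0 : ℝ) < N := by exact_mod_cast hN
  have h4n : ∀ (W : ℤ → ℤ → ℂ) (q p : ℤ), 0 ≤ e4 W N q p := by
    intro W q p
    unfold e4
    positivity
  -- good part
  have hgood : ∑ t ∈ S, e4 (Yg T T' ρ Y t.1) N t.2.1 t.2.2 ≤
      8 * (4 * (128 * (h ^ 3 * Λ)) + 2 * ((2 * ρ / (h * N)) ^ 2 * EY)) := by
    have key := sum_e4_rows (A := S.image Prod.fst) (ω := fun _ => (1 : ℝ))
      (fun _ _ => zero_le_one) (X := Yg T T' ρ Y) (h := h) (ρ := 2 * ρ) (Λ := Λ) (E := EY)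
      (Tx := T) (Ty := T') (N := N) hN hh hγ hδ (fun w => c0 - α * w) 128
      (fun w _ x y hne => by
        have h1 : Y w x y ≠ 0 := by
          intro h0
          apply hne
          have := norm_Yg_le (T := T) (T' := T') (ρ := ρ) (Y := Y) w x y
          rw [h0, norm_zero] at this
          exact norm_le_zero_iff.1 this
        obtain ⟨a1, a2⟩ := hstr w x y h1
        push_cast
        constructor <;> linarith)
      (fun w _ x y hne => by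
        refine hsup w x y ?_
        intro h0
        apply hne
        have := norm_Yg_le (T := T) (T' := T') (ρ := ρ) (Y := Y) w x y
        rw [h0, norm_zero] at this
        exact norm_le_zero_iff.1 this)
      (lev_Yg (hL _))
      (fun w _ x p => by
        have h1 := rows_Yg hρ hsup w x ((range N).map ⟨fun j : ℕ => p + (j : ℤ), fun a b hab => by
          simpa using hab⟩)
        rw [Finset.sum_map] at h1
        exact h1)
      (fun w _ q y => by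
        have h1 := cols_Yg hρ hsup w y ((range N).map ⟨fun j : ℕ => q + (j : ℤ), fun a b hab => by
          simpa using hab⟩)
        rw [Finset.sum_map] at h1
        exact h1)
      (fun P _ => by
        simp only [one_mul]
        refine EW990.sum_e2_le (Yg T T' ρ Y) EY (fun S' => ?_) N hN P
        refine le_trans (Finset.sum_le_sum fun t _ => ?_) (hYe S')
        exact pow_le_pow_left₀ (norm_nonneg _) (norm_Yg_le _ _ _) 2)
      S (fun t ht => Finset.mem_image_of_mem _ ht)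
    simp only [one_mul] at key
    exact_mod_cast key
  -- bad part
  have hbadT : Tot (Yb T T' ρ Y) (4 * η) := tot_Yb hρ hsup hr hc (fun w z => hCr w z T')
    (fun w z' => hCc w z' T)
  have he2Y : ∀ (w q p : ℤ), e2 (Y w) N q p ≤ 2 * ρ / N + 2 * Mf ^ 2 := by
    intro w q p
    refine e2_sub_le (A := C w) (B := f w) (fun x y => hY w x y) hN (fun x q' => ?_) hMf
      (fun x y => hf w x y) q p
    have h1 := hCr w x ((range N).map ⟨fun j : ℕ => q' + (j : ℤ), fun a b hab => by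
      simpa using hab⟩)
    rw [Finset.sum_map] at h1
    exact h1
  have hK0 : 0 ≤ 2 * ρ / N + 2 * Mf ^ 2 := by positivity
  have hbad : ∑ t ∈ S, e4 (Yb T T' ρ Y t.1) N t.2.1 t.2.2 ≤
      (2 * ρ / N + 2 * Mf ^ 2) * (4 * η) := by
    calc ∑ t ∈ S, e4 (Yb T T' ρ Y t.1) N t.2.1 t.2.2
        ≤ ∑ t ∈ S, (2 * ρ / N + 2 * Mf ^ 2) * e2 (Yb T T' ρ Y t.1) N t.2.1 t.2.2 := by
          refine Finset.sum_le_sum fun t _ => ?_
          refine (EW990.e4_le_sq _ _ _ _).trans ?_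
          rw [sq]
          refine mul_le_mul_of_nonneg_right ?_ (e2_nonneg _ _ _ _)
          exact (e2_mono (fun x y => norm_Yb_le t.1 x y) N _ _).trans (he2Y _ _ _)
      _ = (2 * ρ / N + 2 * Mf ^ 2) * ∑ t ∈ S, e2 (Yb T T' ρ Y t.1) N t.2.1 t.2.2 := by
          rw [Finset.mul_sum]
      _ ≤ (2 * ρ / N + 2 * Mf ^ 2) * (4 * η) :=
          mul_le_mul_of_nonneg_left (EW990.sum_e2_le _ _ hbadT N hN S) hK0
  -- drift part
  have hdr : ∑ t ∈ S, e4 (D t.1) N t.2.1 t.2.2 ≤ Md ^ 2 * ED := by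
    calc ∑ t ∈ S, e4 (D t.1) N t.2.1 t.2.2
        ≤ ∑ t ∈ S, Md ^ 2 * e2 (D t.1) N t.2.1 t.2.2 := by
          refine Finset.sum_le_sum fun t _ => ?_
          refine (EW990.e4_le_sq _ _ _ _).trans ?_
          rw [sq]
          exact mul_le_mul_of_nonneg_right (EW990.e2_le_of_bdd _ Md hMd (hDb t.1) N _ _)
            (e2_nonneg _ _ _ _)
      _ = Md ^ 2 * ∑ t ∈ S, e2 (D t.1) N t.2.1 t.2.2 := by rw [Finset.mul_sum]
      _ ≤ Md ^ 2 * ED := mul_le_mul_of_nonneg_left (EW990.sum_e2_le _ _ hDe N hN S) (sq_nonneg _)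
  -- quasi triangle
  have hq : ∀ t ∈ S, e4 (X t.1) N t.2.1 t.2.2 ≤ 8 * e4 (Yg T T' ρ Y t.1) N t.2.1 t.2.2 +
      64 * (e4 (Yb T T' ρ Y t.1) N t.2.1 t.2.2 + e4 (D t.1) N t.2.1 t.2.2) := by
    intro t _
    have e : X t.1 = fun x y => Yg T T' ρ Y t.1 x y +
        (fun x y => Yb T T' ρ Y t.1 x y + D t.1 x y) x y := by
      funext x y
      simp only
      rw [hX, Yg_add_Yb (T := T) (T' := T') (ρ := ρ) (Y := Y)]
      ring
    rw [e]
    have h1 := XAdd429.e4_add_le (Yg T T' ρ Y t.1) (fun x y => Yb T T' ρ Y t.1 x y + D t.1 x y) N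
      t.2.1 t.2.2
    have h2 := XAdd429.e4_add_le (Yb T T' ρ Y t.1) (D t.1) N t.2.1 t.2.2
    linarith
  refine (Finset.sum_le_sum hq).trans ?_
  rw [Finset.sum_add_distrib, ← Finset.mul_sum, ← Finset.mul_sum, Finset.sum_add_distrib]
  linarith

end abstract

/-- kernel masked to the node -/
noncomputable def KK (α γ δ : ℤ) (T T' : Finset ℤ) (p : Nd) (A : ℤ → ℤ → ℤ → ℂ)
    (w z z' : ℤ) : ℂ := cK α γ δ T T' (A w) (res p fun _ => 1) w z z'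

lemma KK_eq (α γ δ : ℤ) (T T' : Finset ℤ) (p : Nd) (A : ℤ → ℤ → ℤ → ℂ) (w z z' : ℤ)
    [Decidable (z ∈ T ∧ z' ∈ T' ∧ α * w + γ * z + δ * z' ∈ iv p)] :
    KK α γ δ T T' p A w z z' =
      if z ∈ T ∧ z' ∈ T' ∧ α * w + γ * z + δ * z' ∈ iv p then A w z z' else 0 := by
  unfold KK cK res
  by_cases h1 : z ∈ T ∧ z' ∈ T'
  · by_cases h2 : α * w + γ * z + δ * z' ∈ iv p
    · have h2' : α * w + γ * z + δ * z' ∈ dI (p.1 + 7) p.2 := h2
      rw [if_pos h1, if_pos h2', if_pos ⟨h1.1, h1.2, h2⟩, mul_one]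
    · have h2' : ¬ α * w + γ * z + δ * z' ∈ dI (p.1 + 7) p.2 := h2
      rw [if_pos h1, if_neg h2', if_neg (fun h => h2 h.2.2), mul_zero]
  · rw [if_neg h1, if_neg (fun h => h1 ⟨h.1, h.2.1⟩)]

section node

variable {α γ δ : ℤ} {T T' : Finset ℤ}

lemma KK_zero_of {p : Nd} {A : ℤ → ℤ → ℤ → ℂ} {w z z' : ℤ} (h : KK α γ δ T T' p A w z z' ≠ 0) :
    z ∈ T ∧ z' ∈ T' ∧ α * w + γ * z + δ * z' ∈ iv p := by
  classical
  rw [KK_eq] at h
  by_contra hc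
  rw [if_neg hc] at h
  exact h rfl

lemma KK_bdd {p : Nd} {A : ℤ → ℤ → ℤ → ℂ} {M : ℝ} (hM : 0 ≤ M)
    (h : ∀ w, ∀ z ∈ T, ∀ z' ∈ T', α * w + γ * z + δ * z' ∈ iv p → ‖A w z z'‖ ≤ M) (w z z' : ℤ) :
    ‖KK α γ δ T T' p A w z z'‖ ≤ M := by
  classical
  rw [KK_eq]
  split_ifs with hc
  · exact h w z hc.1 z' hc.2.1 hc.2.2
  · simpa using hM

lemma sum_row_le {p : Nd} {A : ℤ → ℤ → ℤ → ℂ} {B : ℝ} (w z : ℤ)
    (h : ∑ y ∈ T', ‖KK α γ δ T T' p A w z y‖ ^ 2 ≤ B) (s : Finset ℤ) :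
    ∑ y ∈ s, ‖KK α γ δ T T' p A w z y‖ ^ 2 ≤ B := by
  classical
  refine le_trans ?_ h
  calc ∑ y ∈ s, ‖KK α γ δ T T' p A w z y‖ ^ 2
      = ∑ y ∈ s.filter (fun y => y ∈ T'), ‖KK α γ δ T T' p A w z y‖ ^ 2 := by
        rw [Finset.sum_filter]
        refine Finset.sum_congr rfl fun y _ => ?_
        split_ifs with hy
        · rfl
        · have : KK α γ δ T T' p A w z y = 0 := by
            by_contra hne
            exact hy (KK_zero_of hne).2.1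
          rw [this, norm_zero, zero_pow two_ne_zero]
    _ ≤ _ := by
        refine Finset.sum_le_sum_of_subset_of_nonneg ?_ (fun _ _ _ => by positivity)
        intro y hy
        exact (Finset.mem_filter.1 hy).2

lemma sum_col_le {p : Nd} {A : ℤ → ℤ → ℤ → ℂ} {B : ℝ} (w z' : ℤ)
    (h : ∑ x ∈ T, ‖KK α γ δ T T' p A w x z'‖ ^ 2 ≤ B) (s : Finset ℤ) :
    ∑ x ∈ s, ‖KK α γ δ T T' p A w x z'‖ ^ 2 ≤ B := by
  classical
  refine le_trans ?_ h
  calc ∑ x ∈ s, ‖KK α γ δ T T' p A w x z'‖ ^ 2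
      = ∑ x ∈ s.filter (fun x => x ∈ T), ‖KK α γ δ T T' p A w x z'‖ ^ 2 := by
        rw [Finset.sum_filter]
        refine Finset.sum_congr rfl fun x _ => ?_
        split_ifs with hx
        · rfl
        · have : KK α γ δ T T' p A w x z' = 0 := by
            by_contra hne
            exact hx (KK_zero_of hne).1
          rw [this, norm_zero, zero_pow two_ne_zero]
    _ ≤ _ := by
        refine Finset.sum_le_sum_of_subset_of_nonneg ?_ (fun _ _ _ => by positivity)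
        intro x hx
        exact (Finset.mem_filter.1 hx).2

/-- what is known about the X letter at one node: `X = C - f + D` on `p`, rows / columns of the near
minimiser, level against products -/
structure RowX (α γ δ : ℤ) (T T' : Finset ℤ) (X C f D : ℤ → ℤ → ℤ → ℂ) (p : Nd)
    (Mf Md ED EY η Λ : ℝ) : Prop where
  eq : ∀ w, ∀ z ∈ T, ∀ z' ∈ T', α * w + γ * z + δ * z' ∈ iv p →
    X w z z' = C w z z' - f w z z' + D w z z'
  hf : ∀ w, ∀ z ∈ T, ∀ z' ∈ T', α * w + γ * z + δ * z' ∈ iv p → ‖f w z z'‖ ≤ Mf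
  hD : ∀ w, ∀ z ∈ T, ∀ z' ∈ T', α * w + γ * z + δ * z' ∈ iv p → ‖D w z z'‖ ≤ Md
  totD : Tot (KK α γ δ T T' p D) (ED * len p)
  totY : Tot (KK α γ δ T T' p (fun w z z' => C w z z' - f w z z')) (EY * len p)
  rows : ∀ S : Finset (ℤ × ℤ),
    ∑ q ∈ S, ∑ y ∈ T', ‖KK α γ δ T T' p (fun w z z' => C w z z' - f w z z') q.1 q.2 y‖ ^ 2 ≤
      ∑ q ∈ S, ∑ y ∈ T', ‖KK α γ δ T T' p C q.1 q.2 y‖ ^ 2 + η * len p
  cols : ∀ S : Finset (ℤ × ℤ),
    ∑ q ∈ S, ∑ x ∈ T, ‖KK α γ δ T T' p (fun w z z' => C w z z' - f w z z') q.1 x q.2‖ ^ 2 ≤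
      ∑ q ∈ S, ∑ x ∈ T, ‖KK α γ δ T T' p C q.1 x q.2‖ ^ 2 + η * len p
  lev : ∀ A : Finset ℤ, LevP A (fun _ => (1 : ℝ))
    (KK α γ δ T T' p (fun w z z' => C w z z' - f w z z')) T T' (Λ * len p)

/-- **[S3] X WORD, NODE FORM** -/
theorem s4w_of_rows {W : Finset Nd} {κ : ℕ} {V s4 h ρ₀ Mf Md ED EY η Λ : ℝ}
    (hγ : γ ≠ 0) (hδ : δ ≠ 0) (hh : 0 < h) (X C : ℤ → ℤ → ℤ → ℂ) (hρ : 0 ≤ ρ₀) (hMf : 0 ≤ Mf)
    (hMd : 0 ≤ Md) (hEY : 0 ≤ EY) (hη : 0 ≤ η)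
    (hCr : ∀ p ∈ W, ∀ w z, ∑ y ∈ T', ‖KK α γ δ T T' p C w z y‖ ^ 2 ≤ ρ₀ * len p)
    (hCc : ∀ p ∈ W, ∀ w z', ∑ x ∈ T, ‖KK α γ δ T T' p C w x z'‖ ^ 2 ≤ ρ₀ * len p)
    (H : ∀ p ∈ W, ∃ f D, RowX α γ δ T T' X C f D p Mf Md ED EY η Λ)
    (hs : 64 * (512 * (h ^ 3 * Λ) + 2 * ((256 * ρ₀ / h) ^ 2 * EY)) +
      64 * ((256 * ρ₀ + 2 * Mf ^ 2) * (4 * η) + Md ^ 2 * ED) ≤ s4 * V) :
    EW49.S4W W κ V s4 α γ δ T T' X (fun _ => 1) := by
  classical
  intro p hp k _ S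
  obtain ⟨f, D, hR⟩ := H p hp
  have hlen : 0 < len p := by unfold len; positivity
  have key := sum_e4_abs (T := T) (T' := T') (X := KK α γ δ T T' p X)
    (Y := KK α γ δ T T' p (fun w z z' => C w z z' - f w z z')) (C := KK α γ δ T T' p C)
    (f := KK α γ δ T T' p f) (D := KK α γ δ T T' p D) (h := h) (Mf := Mf) (Md := Md)
    (ED := ED * len p) (EY := EY * len p) (η := η * len p) (Λ := Λ * len p) (ρ := ρ₀ * len p)
    (N := 2 ^ (p.1 + k)) (by positivity) hh (α := α) hγ hδ (p.2 * 2 ^ (p.1 + 7))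
    (fun w z z' hne => by
      have h1 := (KK_zero_of hne).2.2
      have h2 : α * w + γ * z + δ * z' ∈ Finset.Ico (p.2 * 2 ^ (p.1 + 7))
        ((p.2 + 1) * 2 ^ (p.1 + 7)) := h1
      rw [Finset.mem_Ico] at h2
      have e1 : (2 : ℤ) ^ (p.1 + 7) ≤ 128 * 2 ^ (p.1 + k) := by
        have e2 : (2 : ℤ) ^ (p.1 + 7) = 128 * 2 ^ p.1 := by rw [pow_add]; ring
        rw [e2]
        have : (2 : ℤ) ^ p.1 ≤ 2 ^ (p.1 + k) := pow_le_pow_right₀ (by norm_num) (by omega)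
        linarith
      push_cast
      refine ⟨h2.1, ?_⟩
      have e3 : (p.2 + 1) * (2 : ℤ) ^ (p.1 + 7) = p.2 * 2 ^ (p.1 + 7) + 2 ^ (p.1 + 7) := by ring
      have h4 := h2.2
      rw [e3] at h4
      linarith)
    (fun w z z' hne => ⟨(KK_zero_of hne).1, (KK_zero_of hne).2.1⟩)
    (fun w z z' => by
      rw [KK_eq, KK_eq, KK_eq]
      by_cases hc : z ∈ T ∧ z' ∈ T' ∧ α * w + γ * z + δ * z' ∈ iv p
      · rw [if_pos hc, if_pos hc, if_pos hc]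
        exact hR.eq w z hc.1 z' hc.2.1 hc.2.2
      · rw [if_neg hc, if_neg hc, if_neg hc, add_zero])
    (fun w z z' => by
      rw [KK_eq, KK_eq, KK_eq]
      by_cases hc : z ∈ T ∧ z' ∈ T' ∧ α * w + γ * z + δ * z' ∈ iv p
      · rw [if_pos hc, if_pos hc, if_pos hc]
      · rw [if_neg hc, if_neg hc, if_neg hc, sub_zero])
    hMf (KK_bdd hMf hR.hf) hMd (KK_bdd hMd hR.hD) hR.totD hR.totY (by positivity)
    (fun w z s => sum_row_le w z (hCr p hp w z) s) (fun w z' s => sum_col_le w z' (hCc p hp w z') s)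
    hR.rows hR.cols hR.lev S
  have e0 : ∀ t : ℤ × ℤ × ℤ, KK α γ δ T T' p X t.1 =
      cK α γ δ T T' (X t.1) (res p fun _ => 1) t.1 := fun t => rfl
  simp only [e0] at key
  refine key.trans ?_
  -- numbers
  have hN1 : (0 : ℝ) < ((2 ^ (p.1 + k) : ℕ) : ℝ) := by positivity
  have hNl : len p ≤ 128 * ((2 ^ (p.1 + k) : ℕ) : ℝ) := by
    have e1 : len p = 128 * 2 ^ p.1 := by unfold len; rw [pow_add]; ring
    rw [e1]
    push_cast
    have : (2 : ℝ) ^ p.1 ≤ 2 ^ (p.1 + k) := pow_le_pow_right₀ (by norm_num) (by omega)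
    linarith
  have r1 : ρ₀ * len p / ((2 ^ (p.1 + k) : ℕ) : ℝ) ≤ 128 * ρ₀ := by
    rw [div_le_iff₀ hN1]
    nlinarith
  have r0 : 0 ≤ ρ₀ * len p / ((2 ^ (p.1 + k) : ℕ) : ℝ) := by positivity
  have r2 : 2 * (ρ₀ * len p) / (h * ((2 ^ (p.1 + k) : ℕ) : ℝ)) ≤ 256 * ρ₀ / h := by
    have e : 2 * (ρ₀ * len p) / (h * ((2 ^ (p.1 + k) : ℕ) : ℝ)) =
        2 * (ρ₀ * len p / ((2 ^ (p.1 + k) : ℕ) : ℝ)) / h := by field_simp
    rw [e]
    exact div_le_div_of_nonneg_right (by linarith) hh.le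
  have r3 : (2 * (ρ₀ * len p) / (h * ((2 ^ (p.1 + k) : ℕ) : ℝ))) ^ 2 * (EY * len p) ≤
      (256 * ρ₀ / h) ^ 2 * EY * len p := by
    have h0 : 0 ≤ 2 * (ρ₀ * len p) / (h * ((2 ^ (p.1 + k) : ℕ) : ℝ)) := by positivity
    have h1 := pow_le_pow_left₀ h0 r2 2
    have h2 := mul_le_mul_of_nonneg_right h1 (mul_nonneg hEY hlen.le)
    linarith
  have r4 : (2 * (ρ₀ * len p) / ((2 ^ (p.1 + k) : ℕ) : ℝ) + 2 * Mf ^ 2) * (4 * (η * len p)) ≤
      (256 * ρ₀ + 2 * Mf ^ 2) * (4 * η) * len p := by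
    have e : 2 * (ρ₀ * len p) / ((2 ^ (p.1 + k) : ℕ) : ℝ) =
        2 * (ρ₀ * len p / ((2 ^ (p.1 + k) : ℕ) : ℝ)) := by ring
    rw [e]
    have h1 : 2 * (ρ₀ * len p / ((2 ^ (p.1 + k) : ℕ) : ℝ)) + 2 * Mf ^ 2 ≤
        256 * ρ₀ + 2 * Mf ^ 2 := by linarith
    have h2 := mul_le_mul_of_nonneg_right h1 (show 0 ≤ 4 * (η * len p) by positivity)
    linarith
  have e5 : (2 : ℝ) ^ (p.1 + 7) = len p := rfl
  rw [e5]
  have hs' := mul_le_mul_of_nonneg_right hs hlen.le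
  calc _ ≤ 64 * (512 * (h ^ 3 * (Λ * len p)) + 2 * ((256 * ρ₀ / h) ^ 2 * EY * len p)) +
        64 * ((256 * ρ₀ + 2 * Mf ^ 2) * (4 * η) * len p + Md ^ 2 * (ED * len p)) := by linarith
    _ = (64 * (512 * (h ^ 3 * Λ) + 2 * ((256 * ρ₀ / h) ^ 2 * EY)) +
      64 * ((256 * ρ₀ + 2 * Mf ^ 2) * (4 * η) + Md ^ 2 * ED)) * len p := by ring
    _ ≤ s4 * V * len p := hs'
    _ = s4 * (len p * V) := by ring

/-- the frozen kernel `c z z' * F (α w + γ z + δ z')`, `|c| ≤ 1`: rows -/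
lemma rows_C (hδ : δ ≠ 0) {c : ℤ → ℤ → ℂ} (hc : ∀ z z', ‖c z z'‖ ≤ 1) (F : ℤ → ℂ) (p : Nd) {A : ℝ}
    (hF : ∑ y ∈ iv p, ‖F y‖ ^ 2 ≤ A * len p) (w z : ℤ) :
    ∑ y ∈ T', ‖KK α γ δ T T' p (fun w z z' => c z z' * F (α * w + γ * z + δ * z')) w z y‖ ^ 2 ≤
      A * len p := by
  classical
  refine le_trans ?_ hF
  have h1 : ∑ y ∈ T', ‖KK α γ δ T T' p (fun w z z' => c z z' * F (α * w + γ * z + δ * z'))
      w z y‖ ^ 2 ≤ ∑ y ∈ T'.filter (fun y => α * w + γ * z + δ * y ∈ iv p),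
        ‖F (α * w + γ * z + δ * y)‖ ^ 2 := by
    rw [Finset.sum_filter]
    refine Finset.sum_le_sum fun y _ => ?_
    rw [KK_eq]
    by_cases h2 : α * w + γ * z + δ * y ∈ iv p
    · rw [if_pos h2]
      split_ifs
      · refine pow_le_pow_left₀ (norm_nonneg _) ?_ 2
        rw [norm_mul]
        exact mul_le_of_le_one_left (norm_nonneg _) (hc _ _)
      · rw [norm_zero, zero_pow two_ne_zero]
        positivity
    · rw [if_neg h2, if_neg (fun h => h2 h.2.2), norm_zero]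
      norm_num
  refine h1.trans ?_
  have hinj : Set.InjOn (fun y : ℤ => α * w + γ * z + δ * y)
      (T'.filter (fun y => α * w + γ * z + δ * y ∈ iv p)) := by
    intro a _ b _ hab
    simp only at hab
    have : δ * a = δ * b := by linarith
    exact mul_left_cancel₀ hδ this
  have e := Finset.sum_image (f := fun y : ℤ => ‖F y‖ ^ 2) hinj
  rw [← e]
  refine Finset.sum_le_sum_of_subset_of_nonneg ?_ (fun _ _ _ => by positivity)
  intro y hy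
  obtain ⟨a, ha, rfl⟩ := Finset.mem_image.1 hy
  exact (Finset.mem_filter.1 ha).2

/-- the frozen kernel `c z z' * F (α w + γ z + δ z')`, `|c| ≤ 1`: columns -/
lemma cols_C (hγ : γ ≠ 0) {c : ℤ → ℤ → ℂ} (hc : ∀ z z', ‖c z z'‖ ≤ 1) (F : ℤ → ℂ) (p : Nd) {A : ℝ}
    (hF : ∑ y ∈ iv p, ‖F y‖ ^ 2 ≤ A * len p) (w z' : ℤ) :
    ∑ x ∈ T, ‖KK α γ δ T T' p (fun w z z' => c z z' * F (α * w + γ * z + δ * z')) w x z'‖ ^ 2 ≤
      A * len p := by
  classical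
  refine le_trans ?_ hF
  have h1 : ∑ x ∈ T, ‖KK α γ δ T T' p (fun w z z' => c z z' * F (α * w + γ * z + δ * z'))
      w x z'‖ ^ 2 ≤ ∑ x ∈ T.filter (fun x => α * w + γ * x + δ * z' ∈ iv p),
        ‖F (α * w + γ * x + δ * z')‖ ^ 2 := by
    rw [Finset.sum_filter]
    refine Finset.sum_le_sum fun x _ => ?_
    rw [KK_eq]
    by_cases h2 : α * w + γ * x + δ * z' ∈ iv p
    · rw [if_pos h2]
      split_ifs
      · refine pow_le_pow_left₀ (norm_nonneg _) ?_ 2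
        rw [norm_mul]
        exact mul_le_of_le_one_left (norm_nonneg _) (hc _ _)
      · rw [norm_zero, zero_pow two_ne_zero]
        positivity
    · rw [if_neg h2, if_neg (fun h => h2 h.2.2), norm_zero]
      norm_num
  refine h1.trans ?_
  have hinj : Set.InjOn (fun x : ℤ => α * w + γ * x + δ * z')
      (T.filter (fun x => α * w + γ * x + δ * z' ∈ iv p)) := by
    intro a _ b _ hab
    simp only at hab
    have : γ * a = γ * b := by linarith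
    exact mul_left_cancel₀ hγ this
  have e := Finset.sum_image (f := fun y : ℤ => ‖F y‖ ^ 2) hinj
  rw [← e]
  refine Finset.sum_le_sum_of_subset_of_nonneg ?_ (fun _ _ _ => by positivity)
  intro y hy
  obtain ⟨a, ha, rfl⟩ := Finset.mem_image.1 hy
  exact (Finset.mem_filter.1 ha).2

/-- total energy of the frozen kernel: `Σ |c|² ≤ M` -/
lemma tot_C (hα : α ≠ 0) {c : ℤ → ℤ → ℂ} (F : ℤ → ℂ) (p : Nd) {A M : ℝ}
    (hc : ∑ q ∈ T ×ˢ T', ‖c q.1 q.2‖ ^ 2 ≤ M)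
    (hF : ∑ y ∈ iv p, ‖F y‖ ^ 2 ≤ A * len p) (hA : 0 ≤ A) :
    Tot (KK α γ δ T T' p (fun w z z' => c z z' * F (α * w + γ * z + δ * z'))) (M * A * len p) := by
  classical
  intro S
  have hlen : 0 < len p := by unfold len; positivity
  -- each (z, z') separately
  have h1 : ∑ t ∈ S, ‖KK α γ δ T T' p (fun w z z' => c z z' * F (α * w + γ * z + δ * z'))
      t.1 t.2.1 t.2.2‖ ^ 2 ≤ ∑ q ∈ T ×ˢ T', ∑ t ∈ S.filter (fun t => t.2 = q),
        ‖KK α γ δ T T' p (fun w z z' => c z z' * F (α * w + γ * z + δ * z')) t.1 t.2.1 t.2.2‖ ^ 2 := by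
    rw [Finset.sum_comm' (t' := S) (s' := fun t => (T ×ˢ T').filter (fun q => t.2 = q))]
    · refine Finset.sum_le_sum fun t _ => ?_
      by_cases hq : t.2 ∈ T ×ˢ T'
      · rw [Finset.sum_const]
        have : (T ×ˢ T').filter (fun q => t.2 = q) = {t.2} := by
          ext q
          simp only [Finset.mem_filter, Finset.mem_singleton]
          constructor
          · rintro ⟨_, h⟩
            exact h.symm
          · rintro rfl
            exact ⟨hq, rfl⟩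
        rw [this]
        simp
      · have h0 : KK α γ δ T T' p (fun w z z' => c z z' * F (α * w + γ * z + δ * z'))
            t.1 t.2.1 t.2.2 = 0 := by
          by_contra hne
          exact hq (Finset.mem_product.2 ⟨(KK_zero_of hne).1, (KK_zero_of hne).2.1⟩)
        rw [h0, norm_zero, zero_pow two_ne_zero]
        positivity
    · intro q t
      simp only [Finset.mem_filter]
      tauto
  refine h1.trans ?_
  have h2 : ∀ q ∈ T ×ˢ T', ∑ t ∈ S.filter (fun t => t.2 = q),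
      ‖KK α γ δ T T' p (fun w z z' => c z z' * F (α * w + γ * z + δ * z')) t.1 t.2.1 t.2.2‖ ^ 2 ≤
      ‖c q.1 q.2‖ ^ 2 * (A * len p) := by
    intro q _
    have h3 : ∑ t ∈ S.filter (fun t => t.2 = q),
        ‖KK α γ δ T T' p (fun w z z' => c z z' * F (α * w + γ * z + δ * z')) t.1 t.2.1 t.2.2‖ ^ 2 ≤
        ∑ t ∈ (S.filter (fun t => t.2 = q)).filter
          (fun t => α * t.1 + γ * q.1 + δ * q.2 ∈ iv p),
          ‖c q.1 q.2‖ ^ 2 * ‖F (α * t.1 + γ * q.1 + δ * q.2)‖ ^ 2 := by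
      rw [Finset.sum_filter (s := S.filter (fun t => t.2 = q))]
      refine Finset.sum_le_sum fun t ht => ?_
      have hq := (Finset.mem_filter.1 ht).2
      rw [KK_eq, hq]
      by_cases h4 : α * t.1 + γ * q.1 + δ * q.2 ∈ iv p
      · rw [if_pos h4]
        split_ifs
        · rw [norm_mul, mul_pow]
        · rw [norm_zero, zero_pow two_ne_zero]
          positivity
      · rw [if_neg h4, if_neg (fun h => h4 h.2.2), norm_zero]
        norm_num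
    refine h3.trans ?_
    rw [← Finset.mul_sum]
    refine mul_le_mul_of_nonneg_left ?_ (by positivity)
    refine le_trans ?_ hF
    have hinj : Set.InjOn (fun t : ℤ × ℤ × ℤ => α * t.1 + γ * q.1 + δ * q.2)
        ((S.filter (fun t => t.2 = q)).filter
          (fun t => α * t.1 + γ * q.1 + δ * q.2 ∈ iv p)) := by
      intro a ha b hb hab
      simp only at hab
      have : α * a.1 = α * b.1 := by linarith
      have e1 := mul_left_cancel₀ hα this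
      rw [Finset.mem_coe, Finset.mem_filter, Finset.mem_filter] at ha hb
      exact Prod.ext e1 (ha.1.2.trans hb.1.2.symm)
    have e := Finset.sum_image (f := fun y : ℤ => ‖F y‖ ^ 2) hinj
    rw [← e]
    refine Finset.sum_le_sum_of_subset_of_nonneg ?_ (fun _ _ _ => by positivity)
    intro y hy
    obtain ⟨a, ha, rfl⟩ := Finset.mem_image.1 hy
    exact (Finset.mem_filter.1 ha).2
  refine (Finset.sum_le_sum h2).trans ?_
  rw [← Finset.sum_mul]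
  calc _ ≤ M * (A * len p) := mul_le_mul_of_nonneg_right hc (mul_nonneg hA hlen.le)
    _ = M * A * len p := by ring

end node

end Crest.Agent.R079.XS4x219
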